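import Crest.Agent.R332.Mat

/-!
Row 332: the Golden–Thompson inequality and a commutator bound for the exponential.
-/

set_option autoImplicit false
set_option linter.unusedSectionVars false

open Matrix MeasureTheory Set Filter Topology Crest.Agent.R342
open scoped ComplexOrder Matrix.Norms.Frobenius

namespace Crest.Agent.R332

variable {n : Type} [Fintype n] [DecidableEq n]

namespace GTh

/-- `d ↦ U diag(d) U*` as a continuous linear map -/
noncomputable def conjL (U : Matrix n n ℂ) : (n → ℂ) →L[ℂ] Matrix n n ℂ :=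
  LinearMap.toContinuousLinearMap
    { toFun := fun d => U * diagonal d * Uᴴ
      map_add' := fun d e => by
        rw [← Matrix.add_mul, ← Matrix.mul_add, diagonal_add]; rfl
      map_smul' := fun c d => by
        simp only [RingHom.id_apply]
        rw [← Matrix.smul_mul, ← Matrix.mul_smul, ← diagonal_smul] }

lemma conjL_apply (U : Matrix n n ℂ) (d : n → ℂ) : conjL U d = U * diagonal d * Uᴴ := rfl

lemma conjL_mul (X : Matrix n n ℂ) (d e : n → ℂ) :
    conjL (eU X) d * conjL (eU X) e = conjL (eU X) (fun i => d i * e i) := by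
  simp only [conjL_apply]
  calc eU X * diagonal d * (eU X)ᴴ * (eU X * diagonal e * (eU X)ᴴ)
      = eU X * (diagonal d * ((eU X)ᴴ * eU X) * diagonal e) * (eU X)ᴴ := by
        simp only [Matrix.mul_assoc]
    _ = _ := by rw [eU_mul', Matrix.mul_one, diagonal_mul_diagonal]

lemma conjL_ev {X : Matrix n n ℂ} (hX : X.IsHermitian) :
    conjL (eU X) (fun i => (ev X i : ℂ)) = X := fc_id hX

/-- the complex one-parameter group `e^{zX}` -/
noncomputable def E (X : Matrix n n ℂ) (z : ℂ) : Matrix n n ℂ :=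
  conjL (eU X) fun i => Complex.exp (z * ev X i)

lemma E_add (X : Matrix n n ℂ) (z w : ℂ) : E X (z + w) = E X z * E X w := by
  unfold E
  rw [conjL_mul]
  congr 1
  funext i
  rw [add_mul, Complex.exp_add]

lemma E_zero (X : Matrix n n ℂ) : E X 0 = 1 := by
  unfold E
  simp [conjL_apply, eU_mul]

lemma E_real (X : Matrix n n ℂ) (s : ℝ) : E X s = fc (fun t => Real.exp (s * t)) X := by
  unfold E fc
  rw [conjL_apply]
  congr 3
  funext i
  push_cast; rfl

lemma E_one (X : Matrix n n ℂ) : E X 1 = fc Real.exp X := by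
  have := E_real X 1
  simpa using this

lemma E_ct (X : Matrix n n ℂ) (z : ℂ) : (E X z)ᴴ = E X (starRingEnd ℂ z) := by
  unfold E
  simp only [conjL_apply, conjTranspose_mul, conjTranspose_conjTranspose, diagonal_conjTranspose,
    Matrix.mul_assoc]
  congr 3
  funext i
  simp only [Pi.star_apply, RCLike.star_def]
  rw [← Complex.exp_conj]
  simp

lemma E_unit (X : Matrix n n ℂ) {z : ℂ} (hz : z.re = 0) : (E X z)ᴴ * E X z = 1 := by
  rw [E_ct, ← E_add]
  have : starRingEnd ℂ z + z = 0 := by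
    apply Complex.ext <;> simp [hz]
  rw [this, E_zero]

lemma E_unit' (X : Matrix n n ℂ) {z : ℂ} (hz : z.re = 0) : E X z * (E X z)ᴴ = 1 := by
  rw [E_ct, ← E_add]
  have : z + starRingEnd ℂ z = 0 := by
    apply Complex.ext <;> simp [hz]
  rw [this, E_zero]

lemma E_mul_self {X : Matrix n n ℂ} (hX : X.IsHermitian) (z : ℂ) :
    E X z * X = conjL (eU X) fun i => Complex.exp (z * ev X i) * ev X i := by
  rw [← conjL_mul, conjL_ev hX]; rfl

lemma self_mul_E {X : Matrix n n ℂ} (hX : X.IsHermitian) (z : ℂ) :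
    X * E X z = E X z * X := by
  rw [E_mul_self hX]
  conv_lhs => rw [← conjL_ev hX]
  unfold E
  rw [conjL_ev hX]
  conv_lhs => enter [1]; rw [← conjL_ev hX]
  rw [conjL_mul]
  congr 1
  funext i; ring

lemma hasDerivAt_E {X : Matrix n n ℂ} (hX : X.IsHermitian) (z : ℂ) :
    HasDerivAt (E X) (E X z * X) z := by
  rw [E_mul_self hX]
  have h1 : HasDerivAt (fun w : ℂ => fun i => Complex.exp (w * ev X i))
      (fun i => Complex.exp (z * ev X i) * ev X i) z := by
    rw [hasDerivAt_pi]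
    intro i
    simpa using ((hasDerivAt_id z).mul_const (ev X i : ℂ)).cexp
  exact (conjL (eU X)).hasFDerivAt.comp_hasDerivAt z h1

lemma norm_E (X : Matrix n n ℂ) (z : ℂ) : ‖E X z‖ = ‖E X (z.re : ℂ)‖ := by
  have h : z = (z.re : ℂ) + (z - z.re) := by ring
  conv_lhs => rw [h, E_add]
  exact norm_mul_coisometry (E_unit' X (by simp)) _

lemma continuous_E {X : Matrix n n ℂ} (hX : X.IsHermitian) : Continuous (E X) :=
  continuous_iff_continuousAt.2 fun z => (hasDerivAt_E hX z).continuousAt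

lemma exists_bound_E {X : Matrix n n ℂ} (hX : X.IsHermitian) :
    ∃ c : ℝ, 0 ≤ c ∧ ∀ z : ℂ, z.re ∈ Icc (0 : ℝ) 1 → ‖E X z‖ ≤ c := by
  have hc : ContinuousOn (fun s : ℝ => E X (s : ℂ)) (Icc 0 1) :=
    ((continuous_E hX).comp Complex.continuous_ofReal).continuousOn
  obtain ⟨c, hc⟩ := isCompact_Icc.exists_bound_of_continuousOn hc
  refine ⟨max c 0, le_max_right _ _, fun z hz => ?_⟩
  rw [norm_E]
  exact (hc _ hz).trans (le_max_left _ _)

/-- trace as a continuous linear map -/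
noncomputable def trL : Matrix n n ℂ →L[ℂ] ℂ :=
  LinearMap.toContinuousLinearMap (traceLinearMap n ℂ ℂ)

lemma trL_apply (X : Matrix n n ℂ) : trL X = trace X := rfl

/-- the interpolating function -/
noncomputable def F (A B : Matrix n n ℂ) (z : ℂ) : ℂ :=
  trace (E (A + B) (1 - z) * E A (z / 2) * E B z * E A (z / 2))

lemma hasDerivAt_F {A B : Matrix n n ℂ} (hA : A.IsHermitian) (hB : B.IsHermitian) (z : ℂ) :
    HasDerivAt (F A B) (trace (
      (((-1 : ℂ) • (E (A + B) (1 - z) * (A + B)) * E A (z / 2) +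
        E (A + B) (1 - z) * ((1 / 2 : ℂ) • (E A (z / 2) * A))) * E B z +
        E (A + B) (1 - z) * E A (z / 2) * (E B z * B)) * E A (z / 2) +
        E (A + B) (1 - z) * E A (z / 2) * E B z * ((1 / 2 : ℂ) • (E A (z / 2) * A)))) z := by
  have h1 : HasDerivAt (fun w : ℂ => E (A + B) (1 - w))
      ((-1 : ℂ) • (E (A + B) (1 - z) * (A + B))) z :=
    (hasDerivAt_E (hA.add hB) (1 - z)).scomp z (by simpa using (hasDerivAt_id z).const_sub 1)
  have h2' : HasDerivAt (fun w : ℂ => w / 2) (1 / 2 : ℂ) z := (hasDerivAt_id z).div_const 2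
  have h2 : HasDerivAt (fun w : ℂ => E A (w / 2)) ((1 / 2 : ℂ) • (E A (z / 2) * A)) z :=
    HasDerivAt.scomp (h := fun w : ℂ => w / 2) z (hasDerivAt_E hA (z / 2)) h2'
  have h3 := hasDerivAt_E hB z
  have h4 := ((h1.mul h2).mul h3).mul h2
  exact (trL (n := n)).hasFDerivAt.comp_hasDerivAt z h4

lemma hasDerivAt_F_zero {A B : Matrix n n ℂ} (hA : A.IsHermitian) (hB : B.IsHermitian) :
    HasDerivAt (F A B) 0 0 := by
  have h := hasDerivAt_F hA hB 0
  convert h using 1
  simp only [sub_zero, zero_div, E_zero, Matrix.mul_one, Matrix.one_mul, Matrix.mul_smul,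
    Matrix.mul_add, trace_add, trace_smul, smul_add, smul_eq_mul]
  ring

lemma F_zero (A B : Matrix n n ℂ) : F A B 0 = trace (fc Real.exp (A + B)) := by
  simp [F, E_zero, E_one]

lemma norm_half_sq (X : Matrix n n ℂ) : ‖E X (1 / 2 : ℂ)‖ ^ 2 = trf Real.exp X := by
  rw [norm_sq_eq_rtr, E_ct, ← E_add, ← rtr_fc, ← E_one]
  congr 2
  have : (1 / 2 : ℂ) = ((1 / 2 : ℝ) : ℂ) := by push_cast; rfl
  rw [this, Complex.conj_ofReal]
  push_cast; ring

lemma norm_half_mul_sq (A B : Matrix n n ℂ) :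
    ‖E A (1 / 2 : ℂ) * E B (1 / 2 : ℂ)‖ ^ 2 = rtr (fc Real.exp A * fc Real.exp B) := by
  have h : starRingEnd ℂ (1 / 2 : ℂ) = 1 / 2 := by
    have : (1 / 2 : ℂ) = ((1 / 2 : ℝ) : ℂ) := by push_cast; rfl
    rw [this, Complex.conj_ofReal]
  have h2 : (1 / 2 : ℂ) + 1 / 2 = 1 := by ring
  rw [norm_sq_eq_rtr, conjTranspose_mul, E_ct, E_ct, h, Matrix.mul_assoc, rtr_mul_comm,
    ← Matrix.mul_assoc (E A _), ← E_add, h2, Matrix.mul_assoc, ← E_add, h2, E_one, E_one]

lemma F_left (A B : Matrix n n ℂ) {z : ℂ} (hz : z.re = 0) :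
    ‖F A B z‖ ≤ trf Real.exp (A + B) := by
  have e : E (A + B) (1 - z) = E (A + B) (1 / 2) * (E (A + B) (1 / 2) * E (A + B) (-z)) := by
    rw [← E_add, ← E_add]; congr 1; ring
  unfold F
  rw [e, Matrix.mul_assoc (E (A + B) (1 / 2)), Matrix.mul_assoc (E (A + B) (1 / 2)),
    Matrix.mul_assoc (E (A + B) (1 / 2))]
  refine (norm_trace_mul_le _ _).trans (le_of_eq ?_)
  rw [norm_mul_coisometry (E_unit' A (by simp [hz])), norm_mul_coisometry (E_unit' B hz),
    norm_mul_coisometry (E_unit' A (by simp [hz])),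
    norm_mul_coisometry (E_unit' (A + B) (by simp [hz])), ← sq, norm_half_sq]

lemma F_right (A B : Matrix n n ℂ) {z : ℂ} (hz : z.re = 1) :
    ‖F A B z‖ ≤ rtr (fc Real.exp A * fc Real.exp B) := by
  have e1 : E A (z / 2) = E A ((z - 1) / 2) * E A (1 / 2) := by
    rw [← E_add]; congr 1; ring
  have e2 : E A (z / 2) = E A (1 / 2) * E A ((z - 1) / 2) := by
    rw [← E_add]; congr 1; ring
  have e3 : E B z = E B (1 / 2) * (E B (z - 1) * E B (1 / 2)) := by
    rw [← E_add, ← E_add]; congr 1; ring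
  have e : E (A + B) (1 - z) * E A (z / 2) * E B z * E A (z / 2) =
      (E (A + B) (1 - z) * (E A ((z - 1) / 2) * (E A (1 / 2) * E B (1 / 2)))) *
        (E B (z - 1) * (E B (1 / 2) * E A (1 / 2) * E A ((z - 1) / 2))) := by
    conv_lhs => enter [1]; rw [e1, e3]
    rw [e2]
    simp only [Matrix.mul_assoc]
  unfold F
  rw [e]
  refine (norm_trace_mul_le _ _).trans (le_of_eq ?_)
  have h : starRingEnd ℂ (1 / 2 : ℂ) = 1 / 2 := by
    have : (1 / 2 : ℂ) = ((1 / 2 : ℝ) : ℂ) := by push_cast; rfl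
    rw [this, Complex.conj_ofReal]
  have hn : ‖E B (1 / 2) * E A (1 / 2)‖ = ‖E A (1 / 2) * E B (1 / 2)‖ := by
    rw [← norm_ct, conjTranspose_mul, E_ct, E_ct, h]
  rw [norm_isometry_mul (E_unit (A + B) (by simp [hz])), norm_isometry_mul (E_unit A (by simp [hz])),
    norm_isometry_mul (E_unit B (by simp [hz])), norm_mul_coisometry (E_unit' A (by simp [hz])),
    hn, ← sq, norm_half_mul_sq]

lemma F_bdd {A B : Matrix n n ℂ} (hA : A.IsHermitian) (hB : B.IsHermitian) :
    BddAbove ((norm ∘ F A B) '' Complex.HadamardThreeLines.verticalClosedStrip 0 1) := by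
  obtain ⟨a, ha0, ha⟩ := exists_bound_E hA
  obtain ⟨b, hb0, hb⟩ := exists_bound_E hB
  obtain ⟨c, hc0, hc⟩ := exists_bound_E (hA.add hB)
  refine ⟨c * a * b * a, ?_⟩
  rintro _ ⟨z, hz, rfl⟩
  have hz' : z.re ∈ Icc (0 : ℝ) 1 := hz
  have h1 := hc (1 - z) (by
    simp only [Complex.sub_re, Complex.one_re]; constructor <;> linarith [hz'.1, hz'.2])
  have h2 := ha (z / 2) (by
    have : (z / 2).re = z.re / 2 := by simp
    rw [this]; constructor <;> linarith [hz'.1, hz'.2])
  have h3 := hb z hz'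
  show ‖F A B z‖ ≤ _
  unfold F
  refine (norm_trace_mul_le _ _).trans ?_
  refine mul_le_mul ((norm_mul_le' _ _).trans ?_) h2 (norm_nonneg _) (by positivity)
  refine mul_le_mul ((norm_mul_le' _ _).trans ?_) h3 (norm_nonneg _) (by positivity)
  exact mul_le_mul h1 h2 (norm_nonneg _) hc0

end GTh

open GTh in
/-- Golden–Thompson -/
theorem golden_thompson {A B : Matrix n n ℂ} (hA : A.IsHermitian) (hB : B.IsHermitian) :
    trf Real.exp (A + B) ≤ rtr (fc Real.exp A * fc Real.exp B) := by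
  set M0 := trf Real.exp (A + B) with hM0
  set M1 := rtr (fc Real.exp A * fc Real.exp B) with hM1
  have h0 : 0 ≤ M0 := (norm_nonneg _).trans (F_left A B (z := 0) (by simp))
  have h1 : 0 ≤ M1 := (norm_nonneg _).trans (F_right A B (z := 1) (by simp))
  have hd : Differentiable ℂ (F A B) := fun z => (hasDerivAt_F hA hB z).differentiableAt
  have key : ∀ t : ℝ, t ∈ Icc (0 : ℝ) 1 → (F A B t).re ≤ M0 + t * (M1 - M0) := by
    intro t ht
    have h := Complex.HadamardThreeLines.norm_le_interp_of_mem_verticalClosedStrip₀₁' (F A B)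
      (z := t) (a := M0) (b := M1) (by
        show (t : ℂ).re ∈ Icc (0 : ℝ) 1
        simpa using ht) hd.diffContOnCl (F_bdd hA hB)
      (fun z hz => F_left A B hz) (fun z hz => F_right A B hz)
    simp only [Complex.ofReal_re] at h
    have h2 := Real.geom_mean_le_arith_mean2_weighted (w₁ := 1 - t) (w₂ := t) (p₁ := M0) (p₂ := M1)
      (by linarith [ht.2]) ht.1 h0 h1 (by ring)
    have h3 := Complex.re_le_norm (F A B t)
    linarith
  have hφ : HasDerivAt (fun t : ℝ => (F A B t).re) 0 0 := by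
    have h : HasDerivAt (F A B) 0 ((0 : ℝ) : ℂ) := by simpa using hasDerivAt_F_zero hA hB
    simpa using h.real_of_complex
  have hφ0 : (F A B ((0 : ℝ) : ℂ)).re = M0 := by
    rw [Complex.ofReal_zero, F_zero, hM0, ← rtr_fc]; rfl
  have hs := hφ.tendsto_slope_zero_right
  have : (0 : ℝ) ≤ M1 - M0 := by
    refine le_of_tendsto hs ?_
    filter_upwards [Ioo_mem_nhdsGT (zero_lt_one' ℝ)] with t ht
    have := key t ⟨ht.1.le, ht.2.le⟩
    rw [zero_add, hφ0, smul_eq_mul, inv_mul_le_iff₀ ht.1]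
    linarith
  linarith

namespace GTh

lemma hasDerivAt_Er {X : Matrix n n ℂ} (hX : X.IsHermitian) (s : ℝ) :
    HasDerivAt (fun t : ℝ => E X (t : ℂ)) (E X s * X) s := by
  have h := (hasDerivAt_E hX s).hasFDerivAt.restrictScalars ℝ
  have h2 := h.comp_hasDerivAt s (Complex.ofRealCLM.hasDerivAt (x := s))
  have e : E X s * X = (1 : ℂ) • (E X s * X) := (one_smul _ _).symm
  rw [e]
  exact h2

lemma opLe_E {X : Matrix n n ℂ} {M s : ℝ} (hM : 0 ≤ M) (hX : ∀ i, ev X i ≤ M)
    (hs : s ∈ Icc (0 : ℝ) 1) : OpLe (E X s) (Real.exp M) := by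
  rw [E_real]
  refine opLe_fc (Real.exp_pos _).le fun i => ?_
  rw [abs_of_pos (Real.exp_pos _)]
  apply Real.exp_le_exp.2
  nlinarith [hX i, hs.1, hs.2]

lemma exp_lip {M s x y : ℝ} (hM : 0 ≤ M) (hs : s ∈ Icc (0 : ℝ) 1) (hx : x ≤ M) (hy : y ≤ M) :
    |Real.exp (s * x) - Real.exp (s * y)| ≤ Real.exp M * |x - y| := by
  have key : ∀ u v : ℝ, u ≤ M → v ≤ u →
      Real.exp (s * u) - Real.exp (s * v) ≤ Real.exp M * (u - v) := by
    intro u v hu hv
    have h1 : Real.exp (s * u) * (1 + (s * v - s * u)) ≤ Real.exp (s * v) := by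
      have := Real.add_one_le_exp (s * v - s * u)
      calc Real.exp (s * u) * (1 + (s * v - s * u))
          ≤ Real.exp (s * u) * Real.exp (s * v - s * u) :=
            mul_le_mul_of_nonneg_left (by linarith) (Real.exp_pos _).le
        _ = Real.exp (s * v) := by rw [← Real.exp_add]; congr 1; ring
    have h2 : Real.exp (s * u) ≤ Real.exp M := Real.exp_le_exp.2 (by nlinarith [hs.1, hs.2])
    have h3 : s * (u - v) ≤ u - v := by nlinarith [hs.1, hs.2]
    have h4 : 0 ≤ s * (u - v) := mul_nonneg hs.1 (by linarith)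
    calc Real.exp (s * u) - Real.exp (s * v) ≤ Real.exp (s * u) * (s * (u - v)) := by linarith
      _ ≤ Real.exp M * (u - v) := mul_le_mul h2 h3 h4 (Real.exp_pos _).le
  rcases le_total y x with h | h
  · have h1 : Real.exp (s * y) ≤ Real.exp (s * x) :=
      Real.exp_le_exp.2 (mul_le_mul_of_nonneg_left h hs.1)
    rw [abs_of_nonneg (by linarith), abs_of_nonneg (by linarith)]
    exact key x y hx h
  · have h1 : Real.exp (s * x) ≤ Real.exp (s * y) :=
      Real.exp_le_exp.2 (mul_le_mul_of_nonneg_left h hs.1)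
    rw [abs_sub_comm, abs_sub_comm x, abs_of_nonneg (by linarith), abs_of_nonneg (by linarith)]
    exact key y x hy h

end GTh

open GTh in
/-- dimension-free closeness of `e^{A+B}` and `e^A e^B` -/
theorem exp_add_close {A B : Matrix n n ℂ} (hA : A.IsHermitian) (hB : B.IsHermitian) {M : ℝ}
    (hM : 0 ≤ M) (hAM : ∀ i, ev A i ≤ M) (hBM : ∀ i, ev B i ≤ M) :
    ‖fc Real.exp (A + B) - fc Real.exp A * fc Real.exp B‖ ≤ Real.exp (4 * M) * ‖comm A B‖ := by
  have hC : (A + B).IsHermitian := hA.add hB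
  have hCM : ∀ i, ev (A + B) i ≤ 2 * M := by
    rw [ev_le_iff hC]
    have h1 := (ev_le_iff hA M).1 hAM
    have h2 := (ev_le_iff hB M).1 hBM
    have h3 := h1.add h2
    convert h3 using 1
    rw [two_mul, add_smul]; abel
  set g : ℝ → Matrix n n ℂ := fun s => E (A + B) ((1 - s : ℝ) : ℂ) * E A s * E B s with hg
  have hder : ∀ s : ℝ, HasDerivAt g
      (E (A + B) ((1 - s : ℝ) : ℂ) * comm (E A s) B * E B s) s := by
    intro s
    have h1 : HasDerivAt (fun t : ℝ => E (A + B) ((1 - t : ℝ) : ℂ))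
        ((-1 : ℝ) • (E (A + B) ((1 - s : ℝ) : ℂ) * (A + B))) s :=
      (hasDerivAt_Er hC (1 - s)).scomp s (by simpa using (hasDerivAt_id s).const_sub 1)
    have h2 := hda_mul (hda_mul h1 (hasDerivAt_Er hA s)) (hasDerivAt_Er hB s)
    convert h2 using 1
    rw [← self_mul_E hA, ← self_mul_E hB]
    simp only [comm, neg_smul, one_smul, Matrix.mul_add, Matrix.add_mul, Matrix.mul_sub,
      Matrix.sub_mul, Matrix.neg_mul, Matrix.mul_assoc, neg_add]
    abel
  have hbd : ∀ s ∈ Icc (0 : ℝ) 1,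
      ‖E (A + B) ((1 - s : ℝ) : ℂ) * comm (E A s) B * E B s‖ ≤ Real.exp (4 * M) * ‖comm A B‖ := by
    intro s hs
    have h1 : OpLe (E (A + B) ((1 - s : ℝ) : ℂ)) (Real.exp (2 * M)) :=
      opLe_E (by linarith) hCM ⟨by linarith [hs.2], by linarith [hs.1]⟩
    have h2 : OpLe (E B s) (Real.exp M) := opLe_E hM hBM hs
    have h3 : ‖comm (E A s) B‖ ≤ Real.exp M * ‖comm A B‖ := by
      rw [E_real]
      exact norm_comm_fc_le (Real.exp_pos _).le hA B fun i j => exp_lip hM hs (hAM i) (hAM j)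
    calc _ ≤ Real.exp M * ‖E (A + B) ((1 - s : ℝ) : ℂ) * comm (E A s) B‖ := h2.norm_mul_le' _
      _ ≤ Real.exp M * (Real.exp (2 * M) * ‖comm (E A s) B‖) :=
          mul_le_mul_of_nonneg_left (h1.norm_mul_le _) (Real.exp_pos _).le
      _ ≤ Real.exp M * (Real.exp (2 * M) * (Real.exp M * ‖comm A B‖)) := by gcongr
      _ = Real.exp (4 * M) * ‖comm A B‖ := by
          rw [← mul_assoc, ← mul_assoc, ← Real.exp_add, ← Real.exp_add]; congr 2; ring
  have hmv := norm_image_sub_le_of_norm_deriv_le_segment_01'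
    (f := g) (fun s _ => (hder s).hasDerivWithinAt) (fun s hs => hbd s ⟨hs.1, hs.2.le⟩)
  have e0 : g 0 = fc Real.exp (A + B) := by simp [hg, E_zero, E_one]
  have e1 : g 1 = fc Real.exp A * fc Real.exp B := by simp [hg, E_zero, E_one]
  rw [e0, e1, norm_sub_rev] at hmv
  exact hmv

end Crest.Agent.R332
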