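import Crest.Agent.R332.Mat

/-!
Row 332: basic facts on potentials and their continuous approximation.
-/

set_option autoImplicit false
set_option linter.unusedSectionVars false

open Matrix MeasureTheory Set Filter Topology Crest.Agent.R342
open scoped ComplexOrder Matrix.Norms.Frobenius

namespace Crest.Agent.R332

variable {m : ℕ} {p : ℝ} {W : ℝ → Matrix (Fin m) (Fin m) ℂ}

theorem Pot.measurable (hW : Pot p W) : Measurable W :=
  measurable_pi_iff.2 fun i => measurable_pi_iff.2 fun j => hW.meas i j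

theorem Pot.aesm (hW : Pot p W) (ν : Measure ℝ) : AEStronglyMeasurable W ν :=
  hW.measurable.aestronglyMeasurable

theorem Pot.integrable_norm_rpow (hW : Pot p W) (hp : 1 ≤ p) (hp2 : p ≤ 2) :
    Integrable fun x => ‖W x‖ ^ p := by
  refine hW.int.mono' ?_ (Eventually.of_forall fun x => ?_)
  · exact ((hW.aesm _).norm.aemeasurable.pow_const p).aestronglyMeasurable
  · rw [Real.norm_eq_abs, abs_of_nonneg (Real.rpow_nonneg (norm_nonneg _) _)]
    exact norm_rpow_le_trp (by linarith) hp2 (hW.psd x)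

theorem Pot.memLp (hW : Pot p W) (hp : 1 ≤ p) (hp2 : p ≤ 2) :
    MemLp W (ENNReal.ofReal p) volume := by
  have h0 : ENNReal.ofReal p ≠ 0 := by
    simp only [Ne, ENNReal.ofReal_eq_zero, not_le]; linarith
  refine (integrable_norm_rpow_iff (hW.aesm _) h0 ENNReal.ofReal_ne_top).1 ?_
  rw [ENNReal.toReal_ofReal (by linarith)]
  exact hW.integrable_norm_rpow hp hp2

theorem Pot.locallyIntegrable (hW : Pot p W) (hp : 1 ≤ p) (hp2 : p ≤ 2) :
    LocallyIntegrable W :=
  (hW.memLp hp hp2).locallyIntegrable (by simpa using hp)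

theorem Pot.intervalIntegrable (hW : Pot p W) (hp : 1 ≤ p) (hp2 : p ≤ 2) (a b : ℝ) :
    IntervalIntegrable W volume a b :=
  ((hW.locallyIntegrable hp hp2).integrableOn_isCompact isCompact_uIcc).intervalIntegrable

lemma excess_le {p c d : ℝ} (hp : 1 ≤ p) (hc : 0 < c) (hd : 0 ≤ d) :
    max (d - c) 0 ≤ c ^ (1 - p) * d ^ p := by
  have h0 : 0 ≤ c ^ (1 - p) * d ^ p := by positivity
  rcases le_total d c with h | h
  · rw [max_eq_right (by linarith)]; exact h0
  · rw [max_eq_left (by linarith)]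
    have hd' : 0 < d := lt_of_lt_of_le hc h
    have h1 : d ^ (1 - p) ≤ c ^ (1 - p) := Real.rpow_le_rpow_of_nonpos hc h (by linarith)
    have h2 : d ^ (1 - p) * d ^ p = d := by
      rw [← Real.rpow_add hd']; simp
    have h3 : d ^ (1 - p) * d ^ p ≤ c ^ (1 - p) * d ^ p :=
      mul_le_mul_of_nonneg_right h1 (by positivity)
    linarith

/-- the part of `‖W‖` above a level is integrable -/
theorem Pot.integrable_excess (hW : Pot p W) (hp : 1 ≤ p) (hp2 : p ≤ 2) {c : ℝ} (hc : 0 < c) :
    Integrable fun x => max (‖W x‖ - c) 0 := by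
  refine ((hW.integrable_norm_rpow hp hp2).const_mul (c ^ (1 - p))).mono' ?_
    (Eventually.of_forall fun x => ?_)
  · exact (((hW.aesm _).norm.aemeasurable.sub_const c).max aemeasurable_const).aestronglyMeasurable
  · rw [Real.norm_eq_abs, abs_of_nonneg (le_max_right _ _)]
    exact excess_le hp hc (norm_nonneg _)

/-- ... and small far away -/
theorem Pot.tail_excess (hW : Pot p W) (hp : 1 ≤ p) (hp2 : p ≤ 2) {c ε : ℝ} (hc : 0 < c)
    (hε : 0 < ε) : ∃ R : ℝ, 0 < R ∧ ∀ b, R ≤ b →
      (∫ x in R..b, max (‖W x‖ - c) 0) ≤ ε ∧ (∫ x in (-b)..(-R), max (‖W x‖ - c) 0) ≤ ε := by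
  have hi := hW.integrable_excess hp hp2 hc
  set f : ℝ → ℝ := fun x => max (‖W x‖ - c) 0 with hf
  have hf0 : ∀ x, 0 ≤ f x := fun x => le_max_right _ _
  have h1 : Tendsto (fun R : ℝ => ∫ x in (-R)..R, f x) atTop (𝓝 (∫ x, f x)) :=
    intervalIntegral_tendsto_integral hi tendsto_neg_atTop_atBot tendsto_id
  have h2 : ∀ᶠ R : ℝ in atTop, (∫ x, f x) - ε < ∫ x in (-R)..R, f x :=
    h1.eventually (lt_mem_nhds (by linarith))
  obtain ⟨R, hR1, hR2⟩ := (h2.and (eventually_gt_atTop 0)).exists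
  refine ⟨R, hR2, fun b hb => ?_⟩
  have h3 : ∫ x in (-b)..b, f x ≤ ∫ x, f x := by
    rw [intervalIntegral.integral_of_le (by linarith)]
    exact setIntegral_le_integral hi (Eventually.of_forall hf0)
  have h4 : ∫ x in (-b)..b, f x =
      (∫ x in (-b)..(-R), f x) + (∫ x in (-R)..R, f x) + ∫ x in R..b, f x := by
    rw [intervalIntegral.integral_add_adjacent_intervals hi.intervalIntegrable
      hi.intervalIntegrable, intervalIntegral.integral_add_adjacent_intervals
      hi.intervalIntegrable hi.intervalIntegrable]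
  have h5 : 0 ≤ ∫ x in (-b)..(-R), f x :=
    intervalIntegral.integral_nonneg (by linarith) fun x _ => hf0 x
  have h6 : 0 ≤ ∫ x in R..b, f x :=
    intervalIntegral.integral_nonneg hb fun x _ => hf0 x
  constructor <;> linarith

/-- sandwiching with continuous compactly supported matrix functions -/
theorem Pot.integrable_sandwich (hW : Pot p W) (hp : 1 ≤ p) (hp2 : p ≤ 2)
    {a b : Type} [Fintype a] [Fintype b] {Φ : ℝ → Matrix a (Fin m) ℂ} {Ψ : ℝ → Matrix (Fin m) b ℂ}
    (hΦ : Continuous Φ) (hΨ : Continuous Ψ) {R : ℝ} (hR : ∀ x, R ≤ |x| → Φ x = 0) :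
    Integrable fun x => Φ x * W x * Ψ x := by
  have hK : IsCompact (Icc (-R) R) := isCompact_Icc
  have hsupp : Function.support (fun x => Φ x * W x * Ψ x) ⊆ Icc (-R) R := by
    intro x hx
    by_contra hx'
    apply hx
    have : R ≤ |x| := by
      by_contra h
      push Not at h
      exact hx' ⟨by linarith [neg_abs_le x], by linarith [le_abs_self x]⟩
    simp [hR x this]
  rw [← integrableOn_iff_integrable_of_support_subset hsupp]
  have hWi : IntegrableOn W (Icc (-R) R) := (hW.locallyIntegrable hp hp2).integrableOn_isCompact hK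
  refine integrable_of_entry fun i j => ?_
  simp only [Matrix.mul_apply, Finset.sum_mul]
  refine integrable_finsetSum _ fun k _ => integrable_finsetSum _ fun l _ => ?_
  have h1 : IntegrableOn (fun x => W x l k) (Icc (-R) R) := integrable_entry hWi l k
  have h2 : ContinuousOn (fun x => Φ x i l) (Icc (-R) R) :=
    (hΦ.matrix_elem i l).continuousOn
  have h3 : ContinuousOn (fun x => Ψ x k j) (Icc (-R) R) :=
    (hΨ.matrix_elem k j).continuousOn
  exact (IntegrableOn.continuousOn_mul h2 h1 hK).mul_continuousOn h3 hK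

lemma add_rpow_le_split {p θ x d : ℝ} (hp : 0 ≤ p) (hθ : 0 < θ) (hx : 0 ≤ x) (hd : 0 ≤ d) :
    (x + d) ^ p ≤ (1 + θ) ^ p * x ^ p + (1 + 1 / θ) ^ p * d ^ p := by
  have h1 : 0 ≤ (1 + θ) ^ p * x ^ p := by positivity
  have h2 : 0 ≤ (1 + 1 / θ) ^ p * d ^ p := by positivity
  rcases le_total d (θ * x) with h | h
  · have : (x + d) ^ p ≤ ((1 + θ) * x) ^ p :=
      Real.rpow_le_rpow (by positivity) (by linarith) hp
    rw [Real.mul_rpow (by positivity) hx] at this
    linarith
  · have hx' : x ≤ 1 / θ * d := by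
      rw [one_div, ← div_eq_inv_mul, le_div_iff₀ hθ]; linarith
    have : (x + d) ^ p ≤ ((1 + 1 / θ) * d) ^ p :=
      Real.rpow_le_rpow (by positivity) (by linarith) hp
    rw [Real.mul_rpow (by positivity) hd] at this
    linarith

lemma trp_le_split {n : Type} [Fintype n] [DecidableEq n] {p θ : ℝ} (hp : 1 ≤ p) (hθ : 0 < θ)
    {A B : Matrix n n ℂ} (hA : A.PosSemidef) (hB : B.PosSemidef) :
    trp p B ≤ (1 + θ) ^ p * trp p A + (1 + 1 / θ) ^ p * Fintype.card n * ‖A - B‖ ^ p := by
  set d := ‖A - B‖ with hd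
  have hd0 : 0 ≤ d := norm_nonneg _
  have h1 : (A + d • (1 : Matrix n n ℂ) - B).PosSemidef := by
    have := (opLe_norm (A - B)).psd_add (hA.1.sub hB.1)
    convert this using 1
    abel
  refine (trp_mono hp hB h1).trans ?_
  have h2 : trp p (A + d • (1 : Matrix n n ℂ)) = ∑ i, (ev A i + d) ^ p := by
    unfold trp
    rw [← rtr_fc, fc_add_smul_one _ hA.1, rtr_fc]
    rfl
  rw [h2]
  calc ∑ i, (ev A i + d) ^ p
      ≤ ∑ i, ((1 + θ) ^ p * ev A i ^ p + (1 + 1 / θ) ^ p * d ^ p) :=
        Finset.sum_le_sum fun i _ => add_rpow_le_split (by linarith) hθ (ev_nonneg hA i) hd0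
    _ = _ := by
        rw [Finset.sum_add_distrib, ← Finset.mul_sum]
        simp only [Finset.sum_const, Finset.card_univ, nsmul_eq_mul]
        unfold trp trf
        ring

/-- continuous psd approximation in `L^p` -/
theorem Pot.exists_cont_psd (hW : Pot p W) (hp : 1 ≤ p) (hp2 : p ≤ 2) {η : ℝ} (hη : 0 < η) :
    ∃ Wc : ℝ → Matrix (Fin m) (Fin m) ℂ, Continuous Wc ∧ (∀ x, (Wc x).PosSemidef) ∧
      Integrable (fun x => ‖W x - Wc x‖ ^ p) ∧ (∫ x, ‖W x - Wc x‖ ^ p) ≤ η := by
  have hp0 : 0 < p := by linarith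
  obtain ⟨g, -, hg1, hg2, hg3⟩ :=
    (hW.memLp hp hp2).exists_hasCompactSupport_integral_rpow_sub_le hp0 hη
  set h : ℝ → Matrix (Fin m) (Fin m) ℂ := fun x => (1 / 2 : ℝ) • (g x + (g x)ᴴ) with hh
  have hherm : ∀ x, (h x).IsHermitian := by
    intro x
    simp only [hh, IsHermitian, conjTranspose_smul, conjTranspose_add,
      conjTranspose_conjTranspose, star_trivial]
    rw [add_comm]
  have hcont : Continuous h := by
    have h1 : Continuous fun x => g x + (g x)ᴴ := hg2.add hg2.matrix_conjTranspose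
    exact h1.const_smul (1 / 2 : ℝ)
  set Wc : ℝ → Matrix (Fin m) (Fin m) ℂ := fun x => fc (fun s => max s 0) (h x) with hWc
  have hWcc : Continuous Wc := by
    rw [← continuousOn_univ]
    exact continuousOn_fc (S := univ) (f := fun _ s => max s 0) hcont.continuousOn
      (fun x _ => hherm x) (fun _ _ _ => mem_univ _) (by fun_prop)
  have hle : ∀ x, ‖W x - Wc x‖ ≤ ‖W x - g x‖ := by
    intro x
    have e1 : fc (fun s => max s 0) (W x) = W x := by
      conv_rhs => rw [← fc_id (hW.psd x).1]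
      exact fc_congr_psd (hW.psd x) fun t ht => max_eq_left ht
    have e2 : ‖fc (fun s => max s 0) (W x) - fc (fun s => max s 0) (h x)‖ ≤ 1 * ‖W x - h x‖ :=
      norm_fc_sub_le zero_le_one (hW.psd x).1 (hherm x) fun i j => by
        rw [one_mul]; exact abs_max_sub_max_le_abs _ _ _
    rw [e1, one_mul] at e2
    refine e2.trans ?_
    have e3 : W x - h x = (1 / 2 : ℝ) • ((W x - g x) + (W x - g x)ᴴ) := by
      rw [conjTranspose_sub, (hW.psd x).1.eq]
      simp only [hh]
      module
    rw [e3, norm_smul]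
    have := norm_add_le (W x - g x) (W x - g x)ᴴ
    rw [norm_ct] at this
    rw [Real.norm_eq_abs, abs_of_pos (by norm_num)]
    linarith
  have hint : Integrable fun x => ‖W x - g x‖ ^ p := by
    have h0 : ENNReal.ofReal p ≠ 0 := by
      simp only [Ne, ENNReal.ofReal_eq_zero, not_le]; linarith
    have := ((hW.memLp hp hp2).sub hg3).integrable_norm_rpow h0 ENNReal.ofReal_ne_top
    rwa [ENNReal.toReal_ofReal hp0.le] at this
  have hle' : ∀ x, ‖W x - Wc x‖ ^ p ≤ ‖W x - g x‖ ^ p := fun x =>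
    Real.rpow_le_rpow (norm_nonneg _) (hle x) hp0.le
  have hint' : Integrable fun x => ‖W x - Wc x‖ ^ p := by
    refine hint.mono' ?_ (Eventually.of_forall fun x => ?_)
    · exact ((((hW.aesm _).sub hWcc.aestronglyMeasurable).norm).aemeasurable.pow_const
        p).aestronglyMeasurable
    · rw [Real.norm_eq_abs, abs_of_nonneg (Real.rpow_nonneg (norm_nonneg _) _)]
      exact hle' x
  exact ⟨Wc, hWcc, fun x => fc_psd fun i => le_max_right _ _, hint',
    (integral_mono hint' hint hle').trans hg1⟩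

theorem Pot.exists_cont_approx (hW : Pot p W) (hp : 1 ≤ p) (hp2 : p ≤ 2) {a b ε : ℝ}
    (hab : a ≤ b) (hε : 0 < ε) :
    ∃ Wc : ℝ → Matrix (Fin m) (Fin m) ℂ, Continuous Wc ∧ (∀ x, (Wc x).PosSemidef) ∧
      (∫ x in a..b, ‖W x - Wc x‖) ≤ ε ∧
      (∫ x in a..b, trp p (Wc x)) ≤ (∫ x, trp p (W x)) + ε := by
  have hp0 : 0 < p := by linarith
  set I := ∫ x, trp p (W x) with hI
  have hI0 : 0 ≤ I := integral_nonneg fun x => trp_nonneg (hW.psd x)
  -- choose the parameters
  obtain ⟨θ, hθ0, hθ1, hθ2⟩ : ∃ θ : ℝ, 0 < θ ∧ θ ≤ 1 ∧ 3 * θ * I ≤ ε / 2 := by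
    refine ⟨min 1 (ε / (6 * (I + 1))), lt_min one_pos (by positivity), min_le_left _ _, ?_⟩
    have h1 : min 1 (ε / (6 * (I + 1))) ≤ ε / (6 * (I + 1)) := min_le_right _ _
    have h2 : ε / (6 * (I + 1)) * (6 * (I + 1)) = ε := by field_simp
    have h3 : 0 < min 1 (ε / (6 * (I + 1))) := lt_min one_pos (by positivity)
    nlinarith
  have hθ3 : (1 + θ) ^ p ≤ 1 + 3 * θ := by
    have h1 : (1 + θ) ^ p ≤ (1 + θ) ^ (2 : ℝ) :=
      Real.rpow_le_rpow_of_exponent_le (by linarith) hp2
    rw [Real.rpow_two] at h1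
    nlinarith
  set c := ε / (2 * (b - a + 1)) with hc
  have hba : 0 < b - a + 1 := by linarith
  have hc0 : 0 < c := by positivity
  have hc1 : c * (b - a) ≤ ε / 2 := by
    have : c * (b - a + 1) = ε / 2 := by rw [hc]; field_simp
    nlinarith
  set M := c ^ (1 - p) + (1 + 1 / θ) ^ p * m with hM
  have hM1 : 0 < c ^ (1 - p) := by positivity
  have hM2 : 0 ≤ (1 + 1 / θ) ^ p * m := by positivity
  have hM0 : 0 < M := by positivity
  obtain ⟨Wc, hc', hpsd, hint, hle⟩ := hW.exists_cont_psd hp hp2 (η := ε / (2 * M)) (by positivity)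
  have hJ0 : ∀ x, 0 ≤ ‖W x - Wc x‖ ^ p := fun x => by positivity
  have hJ : ∫ x in a..b, ‖W x - Wc x‖ ^ p ≤ ε / (2 * M) := by
    rw [intervalIntegral.integral_of_le hab]
    exact (setIntegral_le_integral hint (Eventually.of_forall hJ0)).trans hle
  have hJ' : 0 ≤ ∫ x in a..b, ‖W x - Wc x‖ ^ p :=
    intervalIntegral.integral_nonneg hab fun x _ => hJ0 x
  have hMe : M * (ε / (2 * M)) = ε / 2 := by field_simp
  have hMJ : M * ∫ x in a..b, ‖W x - Wc x‖ ^ p ≤ ε / 2 :=
    hMe ▸ mul_le_mul_of_nonneg_left hJ hM0.le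
  refine ⟨Wc, hc', hpsd, ?_, ?_⟩
  · have h1 : ∫ x in a..b, ‖W x - Wc x‖ ≤
        ∫ x in a..b, (c + c ^ (1 - p) * ‖W x - Wc x‖ ^ p) := by
      refine intervalIntegral.integral_mono_on hab ?_ ?_ fun x _ => ?_
      · exact ((hW.intervalIntegrable hp hp2 a b).sub (hc'.intervalIntegrable a b)).norm
      · exact intervalIntegrable_const.add (hint.intervalIntegrable.const_mul _)
      · have := excess_le hp hc0 (norm_nonneg (W x - Wc x))
        linarith [le_max_left (‖W x - Wc x‖ - c) 0]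
    rw [intervalIntegral.integral_add intervalIntegrable_const
      (hint.intervalIntegrable.const_mul _), intervalIntegral.integral_const,
      intervalIntegral.integral_const_mul, smul_eq_mul] at h1
    nlinarith
  · have hct : Continuous fun x => trp p (Wc x) := by
      rw [← continuousOn_univ]
      exact continuousOn_trp hp0 hc'.continuousOn fun x _ => (hpsd x).1
    have h1 : ∫ x in a..b, trp p (Wc x) ≤
        ∫ x in a..b, ((1 + θ) ^ p * trp p (W x) + (1 + 1 / θ) ^ p * m * ‖W x - Wc x‖ ^ p) := by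
      refine intervalIntegral.integral_mono_on hab (hct.intervalIntegrable a b) ?_ fun x _ => ?_
      · exact (hW.int.intervalIntegrable.const_mul _).add (hint.intervalIntegrable.const_mul _)
      · simpa using trp_le_split hp hθ0 (hW.psd x) (hpsd x)
    rw [intervalIntegral.integral_add (hW.int.intervalIntegrable.const_mul _)
      (hint.intervalIntegrable.const_mul _), intervalIntegral.integral_const_mul,
      intervalIntegral.integral_const_mul] at h1
    have h2 : ∫ x in a..b, trp p (W x) ≤ I := by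
      rw [intervalIntegral.integral_of_le hab]
      exact setIntegral_le_integral hW.int (Eventually.of_forall fun x => trp_nonneg (hW.psd x))
    have h3 : 0 ≤ ∫ x in a..b, trp p (W x) :=
      intervalIntegral.integral_nonneg hab fun x _ => trp_nonneg (hW.psd x)
    have h4 : (1 + θ) ^ p * ∫ x in a..b, trp p (W x) ≤ (1 + 3 * θ) * I :=
      mul_le_mul hθ3 h2 h3 (by positivity)
    nlinarith

/-- summable integrals over exhausting intervals force a.e. convergence to zero -/
theorem ae_tendsto_zero_of_summable {g : ℕ → ℝ → ℝ} {a b e : ℕ → ℝ}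
    (ha : Tendsto a atTop atBot) (hb : Tendsto b atTop atTop) (hab : ∀ i, a i ≤ b i)
    (hg0 : ∀ i, ∀ x ∈ Icc (a i) (b i), 0 ≤ g i x)
    (hgi : ∀ i, IntervalIntegrable (g i) volume (a i) (b i))
    (hge : ∀ i, ∫ x in (a i)..(b i), g i x ≤ e i) (he : Summable e) :
    ∀ᵐ x : ℝ, Tendsto (fun i => g i x) atTop (𝓝 0) := by
  set G : ℕ → ℝ → ℝ := fun i => (Ioc (a i) (b i)).indicator (g i) with hG
  have hGi : ∀ i, Integrable (G i) := fun i =>
    (integrable_indicator_iff measurableSet_Ioc).2 (hgi i).1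
  have hG0 : ∀ i x, 0 ≤ G i x := fun i x =>
    indicator_nonneg (fun y hy => hg0 i y (Ioc_subset_Icc_self hy)) x
  have hGe : ∀ i, ∫ x, ‖G i x‖ ≤ e i := by
    intro i
    have : ∀ x, ‖G i x‖ = G i x := fun x => Real.norm_of_nonneg (hG0 i x)
    simp only [this]
    simp only [hG]
    rw [integral_indicator measurableSet_Ioc, ← intervalIntegral.integral_of_le (hab i)]
    exact hge i
  have hsum : Summable fun i => ∫ x, ‖G i x‖ :=
    he.of_nonneg_of_le (fun i => integral_nonneg fun x => norm_nonneg _) hGe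
  have h1 : ∫⁻ x, ∑' i, ‖G i x‖ₑ ≠ ⊤ := by
    rw [lintegral_tsum fun i => (hGi i).1.enorm]
    have : ∀ i, ∫⁻ x, ‖G i x‖ₑ = ENNReal.ofReal (∫ x, ‖G i x‖) := fun i =>
      (ofReal_integral_norm_eq_lintegral_enorm (hGi i)).symm
    simp only [this]
    rw [← ENNReal.ofReal_tsum_of_nonneg (fun i => integral_nonneg fun x => norm_nonneg _) hsum]
    exact ENNReal.ofReal_ne_top
  have h2 := ae_lt_top' (AEMeasurable.tsum fun i => (hGi i).1.enorm) h1
  filter_upwards [h2] with x hx
  have h3 : Tendsto (fun i => ‖G i x‖ₑ) atTop (𝓝 0) :=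
    ENNReal.tendsto_atTop_zero_of_tsum_ne_top hx.ne
  have h4 : Tendsto (fun i => G i x) atTop (𝓝 0) := by
    rw [tendsto_zero_iff_norm_tendsto_zero]
    have := (ENNReal.tendsto_toReal (a := 0) (by simp)).comp h3
    simpa [Function.comp_def] using this
  refine h4.congr' ?_
  filter_upwards [ha.eventually (eventually_lt_atBot x), hb.eventually (eventually_ge_atTop x)]
    with i h5 h6
  exact indicator_of_mem (show x ∈ Ioc (a i) (b i) from ⟨h5, h6⟩) _

end Crest.Agent.R332
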