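import Crest.Agent.R332.Defs

/-!
Row 332: scalar integrals and constants.
-/

set_option autoImplicit false
set_option linter.unusedSectionVars false

open Matrix MeasureTheory Set Filter Topology Crest.Agent.R342
open scoped ComplexOrder Matrix.Norms.Frobenius

namespace Crest.Agent.R332

open Crest.MathPhysics.LiebThirring

namespace Sc

lemma log_le_rpow {θ x : ℝ} (h0 : 0 < θ) (h1 : θ ≤ 1) (hx : 0 ≤ x) :
    Real.log (1 + x) ≤ x ^ θ / θ := by
  have h2 : (1 + x) ^ θ ≤ 1 ^ θ + x ^ θ := Real.rpow_add_le_add_rpow zero_le_one hx h0.le h1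
  rw [Real.one_rpow] at h2
  have h3 : θ * Real.log (1 + x) = Real.log ((1 + x) ^ θ) := by
    rw [Real.log_rpow (by linarith)]
  have h4 : Real.log ((1 + x) ^ θ) ≤ (1 + x) ^ θ - 1 :=
    Real.log_le_sub_one_of_pos (Real.rpow_pos_of_pos (by linarith) _)
  rw [le_div_iff₀ h0]
  linarith

lemma kern_nonneg {α u t : ℝ} (hu : 0 ≤ u) (ht : 0 < t) :
    0 ≤ t ^ (α - 1) * Real.log (1 + u / t) :=
  mul_nonneg (Real.rpow_nonneg ht.le _) (Real.log_nonneg (by have := div_nonneg hu ht.le; linarith))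

lemma E_int {α : ℝ} (h0 : 0 < α) (h1 : α < 1) :
    IntegrableOn (fun t : ℝ => t ^ (α - 1) * Real.log (1 + 1 / t)) (Ioi 0) := by
  have hm : Measurable fun t : ℝ => t ^ (α - 1) * Real.log (1 + 1 / t) := by fun_prop
  rw [← Ioc_union_Ioi_eq_Ioi (zero_le_one' ℝ)]
  refine IntegrableOn.union ?_ ?_
  · have hi : IntegrableOn (fun t : ℝ => (α / 2)⁻¹ * t ^ (α / 2 - 1)) (Ioc 0 1) :=
      ((intervalIntegral.intervalIntegrable_rpow' (a := 0) (b := 1)
        (r := α / 2 - 1) (by linarith)).1).const_mul _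
    refine Integrable.mono' hi hm.aestronglyMeasurable ?_
    refine ae_restrict_of_forall_mem measurableSet_Ioc fun t ht => ?_
    rw [Real.norm_of_nonneg (kern_nonneg zero_le_one ht.1)]
    have h2 := log_le_rpow (θ := α / 2) (x := 1 / t) (by linarith) (by linarith)
      (by have := ht.1; positivity)
    have h3 : (1 / t) ^ (α / 2) = t ^ (-(α / 2)) := by
      rw [one_div, Real.inv_rpow ht.1.le, Real.rpow_neg ht.1.le]
    calc t ^ (α - 1) * Real.log (1 + 1 / t) ≤ t ^ (α - 1) * (t ^ (-(α / 2)) / (α / 2)) := by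
          rw [← h3]; exact mul_le_mul_of_nonneg_left h2 (Real.rpow_nonneg ht.1.le _)
      _ = (α / 2)⁻¹ * (t ^ (α - 1) * t ^ (-(α / 2))) := by ring
      _ = _ := by rw [← Real.rpow_add ht.1]; congr 2; ring
  · have hi := integrableOn_Ioi_rpow_of_lt (a := α - 2) (c := 1) (by linarith) zero_lt_one
    refine Integrable.mono' hi hm.aestronglyMeasurable ?_
    refine ae_restrict_of_forall_mem measurableSet_Ioi fun t ht => ?_
    have ht0 : 0 < t := lt_trans zero_lt_one ht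
    rw [Real.norm_of_nonneg (kern_nonneg zero_le_one ht0)]
    have h2 : Real.log (1 + 1 / t) ≤ 1 / t := by
      have := Real.log_le_sub_one_of_pos (x := 1 + 1 / t) (by positivity)
      linarith
    calc t ^ (α - 1) * Real.log (1 + 1 / t) ≤ t ^ (α - 1) * (1 / t) :=
          mul_le_mul_of_nonneg_left h2 (Real.rpow_nonneg ht0.le _)
      _ = _ := by
          rw [one_div, ← Real.rpow_neg_one, ← Real.rpow_add ht0]; congr 1; ring

lemma kern_scale {α u t : ℝ} (hu : 0 < u) (ht : 0 < t) :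
    (u * t) ^ (α - 1) * Real.log (1 + u / (u * t)) =
      u ^ (α - 1) * (t ^ (α - 1) * Real.log (1 + 1 / t)) := by
  rw [Real.mul_rpow hu.le ht.le, mul_assoc]
  congr 4
  field_simp

lemma kern_int {α : ℝ} (h0 : 0 < α) (h1 : α < 1) {u : ℝ} (hu : 0 ≤ u) :
    IntegrableOn (fun t : ℝ => t ^ (α - 1) * Real.log (1 + u / t)) (Ioi 0) := by
  rcases hu.eq_or_lt with rfl | hu
  · simp
  · have h := (integrableOn_Ioi_comp_mul_left_iff
      (fun t : ℝ => t ^ (α - 1) * Real.log (1 + u / t)) 0 hu).1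
    rw [mul_zero] at h
    apply h
    refine IntegrableOn.congr_fun ((E_int h0 h1).const_mul (u ^ (α - 1))) ?_ measurableSet_Ioi
    intro t ht
    exact (kern_scale hu ht).symm

lemma kern_val {α : ℝ} (h0 : 0 < α) {u : ℝ} (hu : 0 ≤ u) :
    ∫ t in Ioi (0 : ℝ), t ^ (α - 1) * Real.log (1 + u / t) = Econst α * u ^ α := by
  rcases hu.eq_or_lt with rfl | hu
  · simp [Real.zero_rpow h0.ne']
  · have h := integral_comp_mul_left_Ioi' (fun t : ℝ => t ^ (α - 1) * Real.log (1 + u / t)) 0 hu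
    rw [mul_zero] at h
    rw [← h, setIntegral_congr_fun measurableSet_Ioi (fun t ht => kern_scale hu ht),
      integral_const_mul, smul_eq_mul, ← mul_assoc, mul_comm (Econst α)]
    congr 1
    rw [Real.rpow_sub_one hu.ne']
    field_simp

lemma fub {α : ℝ} (h0 : 0 < α) (h1 : α < 1) {u : ℝ → ℝ} (hu : Continuous u) {c d : ℝ}
    (hcd : c ≤ d) (h : ∀ g ∈ Ioc c d, 0 ≤ u g) :
    IntegrableOn (fun t : ℝ => t ^ (α - 1) * ∫ g in c..d, Real.log (1 + u g / t)) (Ioi 0) ∧
      ∫ t in Ioi (0 : ℝ), t ^ (α - 1) * ∫ g in c..d, Real.log (1 + u g / t) =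
        Econst α * ∫ g in c..d, u g ^ α := by
  have hmu := hu.measurable
  have hm : Measurable (Function.uncurry fun t g : ℝ => t ^ (α - 1) * Real.log (1 + u g / t)) := by
    unfold Function.uncurry
    fun_prop
  have hc : Continuous fun g => u g ^ α := hu.rpow_const fun _ => Or.inr h0.le
  have hi : Integrable (Function.uncurry fun t g : ℝ => t ^ (α - 1) * Real.log (1 + u g / t))
      ((volume.restrict (Ioi 0)).prod (volume.restrict (Ioc c d))) := by
    rw [integrable_prod_iff' hm.aestronglyMeasurable]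
    constructor
    · exact ae_restrict_of_forall_mem measurableSet_Ioc fun g hg => kern_int h0 h1 (h g hg)
    · have h2 : IntegrableOn (fun g => Econst α * u g ^ α) (Ioc c d) :=
        ((hc.intervalIntegrable c d).1).const_mul _
      refine IntegrableOn.congr_fun h2 (fun g hg => ?_) measurableSet_Ioc
      rw [← kern_val h0 (h g hg)]
      refine setIntegral_congr_fun measurableSet_Ioi fun t ht => ?_
      exact (Real.norm_of_nonneg (kern_nonneg (h g hg) ht)).symm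
  constructor
  · have h2 := hi.integral_prod_left
    simp only [Function.uncurry, integral_const_mul] at h2
    simp only [intervalIntegral.integral_of_le hcd]
    exact h2
  · have h2 := integral_integral_swap hi
    simp only [integral_const_mul] at h2
    simp only [intervalIntegral.integral_of_le hcd]
    rw [h2, ← integral_const_mul]
    exact setIntegral_congr_fun measurableSet_Ioc fun g hg => kern_val h0 (h g hg)

lemma hfun_eq {t y : ℝ} (ht : 0 < t) (hy : 0 ≤ y) :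
    hfun t y = ∫ v in (0 : ℝ)..y, Real.log (1 + v / t) := by
  have hd : ∀ v ∈ uIcc 0 y, HasDerivAt (fun v => hfun t v) (Real.log (1 + v / t)) v := by
    intro v hv
    rw [uIcc_of_le hy] at hv
    have hp : 0 < 1 + v / t := by have := div_nonneg hv.1 ht.le; linarith
    have h1 : HasDerivAt (fun v : ℝ => 1 + v / t) (1 / t) v :=
      ((hasDerivAt_id v).div_const t).const_add 1
    have h2 := (((hasDerivAt_id v).add_const t).mul (h1.log hp.ne')).sub (hasDerivAt_id v)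
    refine HasDerivAt.congr_deriv h2 ?_
    have : t + v ≠ 0 := by linarith [hv.1]
    simp only [id]
    field_simp
    ring
  have hc : ContinuousOn (fun v : ℝ => Real.log (1 + v / t)) (uIcc 0 y) := by
    refine ContinuousOn.log (by fun_prop) fun v hv => ?_
    rw [uIcc_of_le hy] at hv
    have := div_nonneg hv.1 ht.le
    linarith
  rw [intervalIntegral.integral_eq_sub_of_hasDerivAt hd hc.intervalIntegrable]
  simp [hfun]

lemma hasDerivAt_xlog {x : ℝ} (hx : x ≠ 0) : HasDerivAt xlog (Real.log x + 1) x :=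
  Real.hasDerivAt_mul_log hx

lemma lam_eq {κ f t : ℝ} (ht : 0 < t) (hκ : 0 < κ) (hf1 : -κ ≤ f) (hf2 : f ≤ κ) :
    lam κ κ t - lam κ f t = ∫ g in f..κ, Real.log (1 + (κ ^ 2 - g ^ 2) / t) := by
  have hk : κ < √(κ ^ 2 + t) := Real.lt_sqrt_of_sq_lt (by linarith)
  have hk2 : √(κ ^ 2 + t) ^ 2 = κ ^ 2 + t := Real.sq_sqrt (by positivity)
  have hd : ∀ g ∈ uIcc f κ, HasDerivAt (fun g => lam κ g t)
      (Real.log (1 + (κ ^ 2 - g ^ 2) / t)) g := by
    intro g hg
    rw [uIcc_of_le hf2] at hg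
    have hp1 : 0 < √(κ ^ 2 + t) + g := by linarith [hg.1]
    have hp2 : 0 < √(κ ^ 2 + t) - g := by linarith [hg.2]
    have h1 := (hasDerivAt_xlog hp1.ne').comp g ((hasDerivAt_id g).const_add √(κ ^ 2 + t))
    have h2 := (hasDerivAt_xlog hp2.ne').comp g ((hasDerivAt_id g).const_sub √(κ ^ 2 + t))
    have h3 := (h1.sub h2).sub ((hasDerivAt_id g).const_mul (2 + Real.log t))
    refine HasDerivAt.congr_deriv h3 ?_
    have e : 1 + (κ ^ 2 - g ^ 2) / t = (√(κ ^ 2 + t) + g) * (√(κ ^ 2 + t) - g) / t := by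
      field_simp
      nlinarith
    rw [e, Real.log_div (mul_pos hp1 hp2).ne' ht.ne', Real.log_mul hp1.ne' hp2.ne']
    ring
  have hc : ContinuousOn (fun g : ℝ => Real.log (1 + (κ ^ 2 - g ^ 2) / t)) (uIcc f κ) := by
    refine ContinuousOn.log (by fun_prop) fun g hg => ?_
    rw [uIcc_of_le hf2] at hg
    have : 0 ≤ (κ ^ 2 - g ^ 2) / t := div_nonneg (by nlinarith [hg.1, hg.2]) ht.le
    linarith
  rw [intervalIntegral.integral_eq_sub_of_hasDerivAt hd hc.intervalIntegrable]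

lemma beta_real {α : ℝ} (h0 : 0 < α) :
    ∫ u in (0 : ℝ)..1, u ^ α * (1 - u) ^ α =
      Real.Gamma (α + 1) * Real.Gamma (α + 1) / Real.Gamma (2 * (α + 1)) := by
  have h := ProbabilityTheory.beta_eq_betaIntegralReal (α + 1) (α + 1) (by linarith) (by linarith)
  have e : Complex.betaIntegral ((α + 1 : ℝ) : ℂ) ((α + 1 : ℝ) : ℂ) =
      ((∫ u in (0 : ℝ)..1, u ^ α * (1 - u) ^ α : ℝ) : ℂ) := by
    rw [Complex.betaIntegral, ← intervalIntegral.integral_ofReal]
    refine intervalIntegral.integral_congr fun u hu => ?_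
    rw [uIcc_of_le zero_le_one] at hu
    have e1 : ((α + 1 : ℝ) : ℂ) - 1 = (α : ℂ) := by push_cast; ring
    simp only [e1]
    rw [Complex.ofReal_mul, Complex.ofReal_cpow hu.1, Complex.ofReal_cpow (by linarith [hu.2])]
    push_cast; rfl
  rw [e, Complex.ofReal_re, ProbabilityTheory.beta] at h
  rw [← h, two_mul]

lemma beta_eq {α : ℝ} (h0 : 0 < α) :
    beta α = √Real.pi * Real.Gamma (α + 1) / Real.Gamma (α + 3 / 2) := by
  have h1 := intervalIntegral.smul_integral_comp_mul_add (a := 0) (b := 1)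
    (fun s : ℝ => (1 - s ^ 2) ^ α) (2 : ℝ) (-1)
  have h2 : ∫ u in (0 : ℝ)..1, (1 - (2 * u + -1) ^ 2) ^ α =
      ∫ u in (0 : ℝ)..1, (2 : ℝ) ^ (2 * α) * (u ^ α * (1 - u) ^ α) := by
    refine intervalIntegral.integral_congr fun u hu => ?_
    rw [uIcc_of_le zero_le_one] at hu
    have e : 1 - (2 * u + -1) ^ 2 = 2 ^ (2 : ℝ) * (u * (1 - u)) := by
      rw [Real.rpow_two]; ring
    have h3 : 0 ≤ 1 - u := by linarith [hu.2]
    simp only [e]
    rw [Real.mul_rpow (by positivity) (mul_nonneg hu.1 h3), Real.mul_rpow hu.1 h3,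
      ← Real.rpow_mul zero_le_two]
  rw [h2, intervalIntegral.integral_const_mul, beta_real h0] at h1
  have h3 : beta α = ∫ s in (2 * 0 + -1 : ℝ)..(2 * 1 + -1), (1 - s ^ 2) ^ α := by
    unfold beta; norm_num
  rw [h3, ← h1]
  have h4 := Real.Gamma_mul_Gamma_add_half (α + 1)
  have e : α + 1 + 1 / 2 = α + 3 / 2 := by ring
  rw [e] at h4
  have p1 : 0 < Real.Gamma (α + 3 / 2) := Real.Gamma_pos_of_pos (by linarith)
  have p2 : 0 < Real.Gamma (2 * (α + 1)) := Real.Gamma_pos_of_pos (by linarith)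
  have h5 : (2 : ℝ) * 2 ^ (2 * α) * 2 ^ (1 - 2 * (α + 1)) = 1 := by
    rw [mul_assoc, ← Real.rpow_add two_pos]
    have : 2 * α + (1 - 2 * (α + 1)) = -1 := by ring
    rw [this, Real.rpow_neg_one]; norm_num
  rw [smul_eq_mul, eq_div_iff p1.ne']
  calc 2 * (2 ^ (2 * α) * (Real.Gamma (α + 1) * Real.Gamma (α + 1) / Real.Gamma (2 * (α + 1)))) *
        Real.Gamma (α + 3 / 2)
      = 2 * 2 ^ (2 * α) * Real.Gamma (α + 1) *
        (Real.Gamma (α + 1) * Real.Gamma (α + 3 / 2)) / Real.Gamma (2 * (α + 1)) := by ring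
    _ = (2 * 2 ^ (2 * α) * 2 ^ (1 - 2 * (α + 1))) * (√Real.pi * Real.Gamma (α + 1)) := by
        rw [h4]; field_simp
    _ = _ := by rw [h5, one_mul]

lemma hasDerivAt_tanh (x : ℝ) : HasDerivAt Real.tanh (1 / Real.cosh x ^ 2) x := by
  have h := (Real.hasDerivAt_sinh x).div (Real.hasDerivAt_cosh x) (Real.cosh_pos x).ne'
  have e : Real.tanh = fun x => Real.sinh x / Real.cosh x := funext Real.tanh_eq_sinh_div_cosh
  rw [e]
  refine HasDerivAt.congr_deriv h ?_
  congr 1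
  have := Real.cosh_sq x
  linarith

lemma sech_eq {α : ℝ} (x : ℝ) :
    |1 / Real.cosh x ^ 2| • (1 - Real.tanh x ^ 2) ^ α = (1 / Real.cosh x ^ 2) ^ (α + 1) := by
  have hp : 0 < 1 / Real.cosh x ^ 2 := by have := Real.cosh_pos x; positivity
  have e : 1 - Real.tanh x ^ 2 = 1 / Real.cosh x ^ 2 := by
    rw [Real.tanh_eq_sinh_div_cosh]
    have := Real.cosh_pos x
    have h := Real.cosh_sq x
    field_simp
    linarith
  rw [e, abs_of_pos hp, Real.rpow_add_one hp.ne', smul_eq_mul, mul_comm]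

lemma sech_int {α : ℝ} (h0 : 0 < α) :
    Integrable fun x : ℝ => (1 / Real.cosh x ^ 2) ^ (α + 1) := by
  have h := (integrableOn_image_iff_integrableOn_abs_deriv_smul (s := univ) MeasurableSet.univ
    (fun x _ => (hasDerivAt_tanh x).hasDerivWithinAt) Real.tanh_injective.injOn
    (fun s : ℝ => (1 - s ^ 2) ^ α)).1
  rw [Real.tanh_bijOn.image_eq] at h
  have hc : Continuous fun s : ℝ => (1 - s ^ 2) ^ α :=
    Continuous.rpow_const (by fun_prop) fun _ => Or.inr h0.le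
  have h2 := h ((hc.intervalIntegrable (-1) 1).1.mono_set Ioo_subset_Ioc_self)
  simpa only [sech_eq, integrableOn_univ] using h2

lemma sech_val (α : ℝ) :
    ∫ x : ℝ, (1 / Real.cosh x ^ 2) ^ (α + 1) = beta α := by
  have h := integral_image_eq_integral_abs_deriv_smul (s := univ) MeasurableSet.univ
    (fun x _ => (hasDerivAt_tanh x).hasDerivWithinAt) Real.tanh_injective.injOn
    (fun s : ℝ => (1 - s ^ 2) ^ α)
  rw [Real.tanh_bijOn.image_eq] at h
  simp only [sech_eq, Measure.restrict_univ] at h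
  rw [← h, beta, intervalIntegral.integral_of_le (by norm_num), integral_Ioc_eq_integral_Ioo]

lemma soliton_rpow {r a : ℝ} (hr : 0 < r) (c x p : ℝ) :
    soliton r a c x ^ p = ((r + 1) * a ^ 2) ^ p * (1 / Real.cosh (r * a * (x - c)) ^ 2) ^ p := by
  rw [← Real.mul_rpow (by positivity) (by positivity), soliton, mul_one_div]

end Sc

open Sc

theorem Econst_pos {α : ℝ} (h0 : 0 < α) (h1 : α < 1) : 0 < Econst α := by
  unfold Econst
  rw [setIntegral_pos_iff_support_of_nonneg_ae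
    (ae_restrict_of_forall_mem measurableSet_Ioi fun t ht => kern_nonneg zero_le_one ht)
    (E_int h0 h1)]
  have : Ioi (0 : ℝ) ⊆ Function.support (fun t : ℝ => t ^ (α - 1) * Real.log (1 + 1 / t)) ∩ Ioi 0 := by
    intro t ht
    refine ⟨ne_of_gt (mul_pos (Real.rpow_pos_of_pos ht _) (Real.log_pos ?_)), ht⟩
    have : 0 < 1 / t := one_div_pos.2 ht
    linarith
  refine lt_of_lt_of_le ?_ (measure_mono this)
  simp

theorem beta_pos {α : ℝ} (h0 : 0 < α) : 0 < beta α := by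
  rw [beta_eq h0]
  exact div_pos (mul_pos (Real.sqrt_pos.2 Real.pi_pos) (Real.Gamma_pos_of_pos (by linarith)))
    (Real.Gamma_pos_of_pos (by linarith))

theorem sharpConst_eq {γ : ℝ} (hγ : 1 / 2 < γ) :
    sharpConst γ * (beta (γ - 1 / 2) * (γ + 1 / 2) * ((γ - 1 / 2)⁻¹ + 1) ^ (γ - 1 / 2)) = 1 := by
  have h0 : 0 < γ - 1 / 2 := by linarith
  have h1 : 0 < γ + 1 / 2 := by linarith
  rw [beta_eq h0, sharpConst]
  have e1 : γ - 1 / 2 + 1 = γ + 1 / 2 := by ring
  have e2 : γ - 1 / 2 + 3 / 2 = γ + 1 := by ring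
  have e3 : γ + 3 / 2 = (γ + 1 / 2) + 1 := by ring
  rw [e1, e2, e3, Real.Gamma_add_one h1.ne']
  have e4 : ((γ - 1 / 2) / (γ + 1 / 2)) ^ (γ - 1 / 2) * ((γ - 1 / 2)⁻¹ + 1) ^ (γ - 1 / 2) = 1 := by
    rw [← Real.mul_rpow (by positivity) (by positivity)]
    have : (γ - 1 / 2) / (γ + 1 / 2) * ((γ - 1 / 2)⁻¹ + 1) = 1 := by
      rw [← e1]
      generalize γ - 1 / 2 = α at h0
      field_simp
      ring
    rw [this, Real.one_rpow]
  have p1 : 0 < Real.Gamma (γ + 1) := Real.Gamma_pos_of_pos (by linarith)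
  have p2 : 0 < Real.Gamma (γ + 1 / 2) := Real.Gamma_pos_of_pos h1
  have p3 : 0 < √Real.pi := Real.sqrt_pos.2 Real.pi_pos
  generalize ((γ - 1 / 2) / (γ + 1 / 2)) ^ (γ - 1 / 2) = X at e4 ⊢
  generalize ((γ - 1 / 2)⁻¹ + 1) ^ (γ - 1 / 2) = Y at e4 ⊢
  generalize Real.Gamma (γ + 1) = G1 at p1 ⊢
  generalize Real.Gamma (γ + 1 / 2) = G2 at p2 ⊢
  generalize γ + 1 / 2 = p at h1 ⊢
  field_simp
  linarith

theorem sharpConst_pos {γ : ℝ} (hγ : 1 / 2 < γ) : 0 < sharpConst γ := by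
  unfold sharpConst
  exact div_pos (mul_pos (Real.rpow_pos_of_pos (div_pos (by linarith) (by linarith)) _)
    (Real.Gamma_pos_of_pos (by linarith)))
    (mul_pos (Real.sqrt_pos.2 Real.pi_pos) (Real.Gamma_pos_of_pos (by linarith)))

theorem hfun_int_le {α : ℝ} (h0 : 0 < α) (h1 : α < 1) {δ T y : ℝ} (hδ : 0 < δ) (hT : δ ≤ T)
    (hy : 0 ≤ y) :
    ∫ t in δ..T, t ^ (α - 1) * hfun t y ≤ Econst α * y ^ (α + 1) / (α + 1) := by
  obtain ⟨hi, hv⟩ := fub h0 h1 (u := fun v => v) continuous_id hy (fun g hg => hg.1.le)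
  rw [integral_rpow (Or.inl (by linarith)), Real.zero_rpow (by linarith), sub_zero,
    ← mul_div_assoc] at hv
  rw [← hv, intervalIntegral.integral_of_le hT,
    setIntegral_congr_fun measurableSet_Ioc
      (g := fun t => t ^ (α - 1) * ∫ v in (0 : ℝ)..y, Real.log (1 + v / t))
      (fun t ht => by simp only [hfun_eq (hδ.trans ht.1) hy])]
  refine setIntegral_mono_set hi ?_ (LE.le.eventuallyLE fun t ht => hδ.trans ht.1)
  refine ae_restrict_of_forall_mem measurableSet_Ioi fun t ht => ?_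
  refine mul_nonneg (Real.rpow_nonneg (le_of_lt ht) _) (intervalIntegral.integral_nonneg hy ?_)
  intro v hv
  exact Real.log_nonneg (by have := div_nonneg hv.1 (le_of_lt ht); linarith)

theorem lam_lim {α : ℝ} (h0 : 0 < α) (h1 : α < 1) {κ f : ℝ} (hκ : 0 < κ) (hf1 : -κ ≤ f)
    (hf2 : f ≤ κ) :
    Tendsto (fun j : ℕ => ∫ t in ((j : ℝ) + 1)⁻¹..((j : ℝ) + 2), t ^ (α - 1) * (lam κ κ t - lam κ f t))
      atTop (𝓝 (Econst α * ∫ g in f..κ, (κ ^ 2 - g ^ 2) ^ α)) := by
  obtain ⟨hi, hv⟩ := fub h0 h1 (u := fun g => κ ^ 2 - g ^ 2) (by fun_prop) hf2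
    (fun g hg => by nlinarith [hg.1, hg.2])
  have hU : (⋃ j : ℕ, Ioc ((j : ℝ) + 1)⁻¹ ((j : ℝ) + 2)) = Ioi 0 := by
    ext t
    simp only [mem_iUnion, mem_Ioc, mem_Ioi]
    constructor
    · rintro ⟨j, h, -⟩
      exact lt_trans (by positivity) h
    · intro ht
      obtain ⟨j, hj⟩ := exists_nat_gt (max t t⁻¹)
      refine ⟨j, ?_, by linarith [le_max_left t t⁻¹]⟩
      rw [inv_lt_comm₀ (by positivity) ht]
      linarith [le_max_right t t⁻¹]
  have hmono : Monotone fun j : ℕ => Ioc ((j : ℝ) + 1)⁻¹ ((j : ℝ) + 2) := by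
    intro i j hij
    have : (i : ℝ) ≤ j := by exact_mod_cast hij
    exact Ioc_subset_Ioc (inv_anti₀ (by positivity) (by linarith)) (by linarith)
  have h := tendsto_setIntegral_of_monotone (fun j => measurableSet_Ioc) hmono (hU.symm ▸ hi)
  rw [hU, hv] at h
  refine h.congr fun j => ?_
  have hj : ((j : ℝ) + 1)⁻¹ ≤ (j : ℝ) + 2 := by
    have : ((j : ℝ) + 1)⁻¹ ≤ 1 := inv_le_one_of_one_le₀ (by linarith [Nat.cast_nonneg (α := ℝ) j])
    linarith [Nat.cast_nonneg (α := ℝ) j]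
  rw [intervalIntegral.integral_of_le hj]
  refine setIntegral_congr_fun measurableSet_Ioc fun t ht => ?_
  have ht0 : 0 < t := lt_trans (by positivity) ht.1
  simp only [lam_eq ht0 hκ hf1 hf2]

theorem beta_scale {α : ℝ} (h0 : 0 < α) {κ η : ℝ} (hκ : 0 < κ) (hη : 0 ≤ η) (hηκ : η ≤ κ) :
    beta α * κ ^ (2 * α + 1) - 2 * η * κ ^ (2 * α) ≤
      ∫ g in (-κ + 2 * η)..κ, (κ ^ 2 - g ^ 2) ^ α := by
  have hc : Continuous fun g : ℝ => (κ ^ 2 - g ^ 2) ^ α :=
    Continuous.rpow_const (by fun_prop) fun _ => Or.inr h0.le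
  have e2 : (κ ^ 2) ^ α = κ ^ (2 * α) := by
    rw [Real.rpow_mul hκ.le, Real.rpow_two]
  have h1 : ∫ g in (-κ)..κ, (κ ^ 2 - g ^ 2) ^ α = beta α * κ ^ (2 * α + 1) := by
    have h := intervalIntegral.smul_integral_comp_mul_left (a := -1) (b := 1)
      (fun g : ℝ => (κ ^ 2 - g ^ 2) ^ α) κ
    rw [mul_neg, mul_one] at h
    rw [← h, intervalIntegral.integral_congr (g := fun s => κ ^ (2 * α) * (1 - s ^ 2) ^ α),
      intervalIntegral.integral_const_mul, Real.rpow_add_one hκ.ne', smul_eq_mul, beta]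
    · ring
    · intro s hs
      rw [uIcc_of_le (by norm_num)] at hs
      have : κ ^ 2 - (κ * s) ^ 2 = κ ^ 2 * (1 - s ^ 2) := by ring
      simp only [this]
      rw [Real.mul_rpow (by positivity) (by nlinarith [hs.1, hs.2]), e2]
  have h2 : ∫ g in (-κ)..(-κ + 2 * η), (κ ^ 2 - g ^ 2) ^ α ≤ 2 * η * κ ^ (2 * α) := by
    have h := intervalIntegral.integral_mono_on (μ := volume) (a := -κ) (b := -κ + 2 * η)
      (g := fun _ => κ ^ (2 * α)) (by linarith) (hc.intervalIntegrable _ _)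
      (continuous_const.intervalIntegrable _ _) (fun g hg => by
        rw [← e2]
        exact Real.rpow_le_rpow (by nlinarith [hg.1, hg.2]) (by nlinarith [sq_nonneg g]) h0.le)
    simpa using h
  have h3 := intervalIntegral.integral_add_adjacent_intervals (μ := volume)
    (hc.intervalIntegrable (-κ) (-κ + 2 * η)) (hc.intervalIntegrable (-κ + 2 * η) κ)
  linarith

theorem soliton_integrable {γ : ℝ} (hγ : 1 / 2 < γ) {a : ℝ} (ha : 0 ≤ a) (c : ℝ) :
    Integrable fun x => soliton (γ - 1 / 2)⁻¹ a c x ^ (γ + 1 / 2) := by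
  have h0 : 0 < γ - 1 / 2 := by linarith
  have hr : 0 < (γ - 1 / 2)⁻¹ := inv_pos.2 h0
  rcases ha.eq_or_lt with rfl | ha
  · simp [soliton, Real.zero_rpow (show γ + 2⁻¹ ≠ 0 by linarith)]
  · simp only [soliton_rpow hr]
    refine Integrable.const_mul ?_ _
    have e1 : γ + 1 / 2 = γ - 1 / 2 + 1 := by ring
    rw [e1]
    exact ((sech_int h0).comp_mul_left' (mul_pos hr ha).ne').comp_sub_right c

theorem soliton_integral {γ : ℝ} (hγ : 1 / 2 < γ) {a : ℝ} (ha : 0 ≤ a) (c : ℝ) :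
    sharpConst γ * ∫ x, soliton (γ - 1 / 2)⁻¹ a c x ^ (γ + 1 / 2) = a ^ (2 * γ) := by
  have h0 : 0 < γ - 1 / 2 := by linarith
  have hr : 0 < (γ - 1 / 2)⁻¹ := inv_pos.2 h0
  rcases ha.eq_or_lt with rfl | ha
  · simp [soliton, Real.zero_rpow (show γ + 2⁻¹ ≠ 0 by linarith),
      Real.zero_rpow (show 2 * γ ≠ 0 by linarith)]
  · simp only [soliton_rpow hr]
    have e1 : γ + 1 / 2 = γ - 1 / 2 + 1 := by ring
    have h1 : ∫ x, (1 / Real.cosh ((γ - 1 / 2)⁻¹ * a * (x - c)) ^ 2) ^ (γ + 1 / 2) =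
        ((γ - 1 / 2)⁻¹ * a)⁻¹ * beta (γ - 1 / 2) := by
      rw [integral_sub_right_eq_self
        (fun x => (1 / Real.cosh ((γ - 1 / 2)⁻¹ * a * x) ^ 2) ^ (γ + 1 / 2)) c,
        Measure.integral_comp_mul_left (fun x => (1 / Real.cosh x ^ 2) ^ (γ + 1 / 2)), e1, sech_val,
        abs_of_pos (inv_pos.2 (mul_pos hr ha)), smul_eq_mul]
    rw [integral_const_mul, h1, Real.mul_rpow (by positivity) (by positivity)]
    have h2 := sharpConst_eq hγ
    have e2 : (a ^ 2) ^ (γ + 1 / 2) = a ^ (2 * γ) * a := by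
      rw [← Real.rpow_two, ← Real.rpow_mul ha.le, ← Real.rpow_add_one ha.ne']
      congr 1; ring
    have e3 : ((γ - 1 / 2)⁻¹ + 1) ^ (γ + 1 / 2) =
        ((γ - 1 / 2)⁻¹ + 1) ^ (γ - 1 / 2) * ((γ - 1 / 2)⁻¹ + 1) := by
      rw [e1, Real.rpow_add_one (by positivity)]
    rw [e2, e3]
    rw [e1] at h2
    generalize ((γ - 1 / 2)⁻¹ + 1) ^ (γ - 1 / 2) = Y at h2 ⊢
    generalize beta (γ - 1 / 2) = b at h2 ⊢
    generalize γ - 1 / 2 = α at h0 h2 ⊢
    calc sharpConst γ * (Y * (α⁻¹ + 1) * (a ^ (2 * γ) * a) * ((α⁻¹ * a)⁻¹ * b))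
        = sharpConst γ * (b * (α + 1) * Y) * a ^ (2 * γ) := by field_simp; ring
      _ = _ := by rw [h2, one_mul]

end Crest.Agent.R332
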