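import Crest.Agent.R332.Point
import Crest.Agent.R332.Scalar

/-!
Row 332: the calibration inequality along a matrix Riccati flow.
-/

set_option autoImplicit false
set_option linter.unusedSectionVars false

open Matrix MeasureTheory Set Filter Topology Crest.Agent.R342
open scoped ComplexOrder Matrix.Norms.Frobenius

namespace Crest.Agent.R332

open Crest.MathPhysics.LiebThirring

section aux
variable {n : Type} [Fintype n] [DecidableEq n]

lemma cb_ev_pos {κ : n → ℝ} {k : ℝ} {F : Matrix n n ℂ} (h : Adm κ k F) {t : ℝ} (ht : 0 < t) :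
    (∀ i, 0 < ev (Kt κ t + F) i) ∧ ∀ i, 0 < ev (Kt κ t - F) i := by
  refine ⟨(dl_ev_bounds ht h.pos h.le le_rfl h.herm h.up h.lo).2.1, fun i => ?_⟩
  have := (dl_ev_bounds ht h.pos h.le le_rfl h.herm.neg
    (by rw [sub_neg_eq_add]; exact h.lo) (by rw [← sub_eq_add_neg]; exact h.up)).2.1 i
  rwa [← sub_eq_add_neg] at this

lemma cb_continuousOn_mul {X : Type*} [TopologicalSpace X] {s : Set X} {A B : X → Matrix n n ℂ}
    (hA : ContinuousOn A s) (hB : ContinuousOn B s) : ContinuousOn (fun x => A x * B x) s :=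
  hA.mul hB

/-- joint continuity of `Lhat` -/
lemma cb_continuousOn_Lhat {κ : n → ℝ} {k : ℝ} {F : ℝ → Matrix n n ℂ} {s : Set ℝ}
    (hF : ContinuousOn F s) (h : ∀ x ∈ s, Adm κ k (F x)) :
    ContinuousOn (fun q : ℝ × ℝ => Lhat κ (F q.1) q.2) (s ×ˢ Ioi 0) := by
  have hlog : ContinuousOn (fun q : (ℝ × ℝ) × ℝ => Real.log q.2)
      ((s ×ˢ Ioi (0 : ℝ)) ×ˢ Ioi (0 : ℝ)) :=
    ContinuousOn.log continuous_snd.continuousOn fun q hq => ne_of_gt hq.2
  have hK : ContinuousOn (fun q : ℝ × ℝ => Kt κ q.2) (s ×ˢ Ioi 0) :=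
    ((pt_continuous_Kt κ).comp continuous_snd).continuousOn
  have hF' : ContinuousOn (fun q : ℝ × ℝ => F q.1) (s ×ˢ Ioi 0) :=
    hF.comp continuous_fst.continuousOn fun q hq => hq.1
  have h1 : ContinuousOn (fun q : ℝ × ℝ => fc Real.log (Kt κ q.2 + F q.1)) (s ×ˢ Ioi 0) :=
    continuousOn_fc (S := Ioi 0) (f := fun _ => Real.log) (hK.add hF')
      (fun q hq => (rdiag_herm _).add (h _ hq.1).herm)
      (fun q hq i => (cb_ev_pos (h _ hq.1) hq.2).1 i) hlog
  have h2 : ContinuousOn (fun q : ℝ × ℝ => fc Real.log (Kt κ q.2 - F q.1)) (s ×ˢ Ioi 0) :=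
    continuousOn_fc (S := Ioi 0) (f := fun _ => Real.log) (hK.sub hF')
      (fun q hq => (rdiag_herm _).sub (h _ hq.1).herm)
      (fun q hq i => (cb_ev_pos (h _ hq.1) hq.2).2 i) hlog
  have h3 : ContinuousOn (fun q : ℝ × ℝ => Real.log q.2 • (1 : Matrix n n ℂ)) (s ×ˢ Ioi 0) :=
    (ContinuousOn.log continuous_snd.continuousOn fun q hq => ne_of_gt hq.2).smul
      continuousOn_const
  exact (h1.add h2).sub h3

lemma cb_continuousOn_Umat (K : Matrix n n ℂ) {F : ℝ → Matrix n n ℂ} {s : Set ℝ}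
    (hF : ContinuousOn F s) : ContinuousOn (fun x => Umat K (F x)) s :=
  continuousOn_const.sub (cb_continuousOn_mul hF hF)

lemma cb_continuousOn_defect (r : ℝ) (K : Matrix n n ℂ) {F A : ℝ → Matrix n n ℂ} {s : Set ℝ}
    (hF : ContinuousOn F s) (hA : ContinuousOn A s) :
    ContinuousOn (fun x => defect r K (F x) (A x)) s := by
  have h1 : ContinuousOn (fun x => err1 r K (F x) (A x)) s :=
    (hA.sub ((cb_continuousOn_Umat K hF).const_smul (r + 1))).norm
  have h2 : ContinuousOn (fun x => err2 K (F x)) s :=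
    ((cb_continuousOn_mul continuousOn_const hF).sub
      (cb_continuousOn_mul hF continuousOn_const)).norm
  exact (ContinuousOn.inf h1 (h1.pow 2)).add (h2.pow 2)

/-- derivative of `Lam` along a matrix path -/
lemma cb_hasDeriv_Lam {κ : n → ℝ} {k : ℝ} {F : ℝ → Matrix n n ℂ} {F' : Matrix n n ℂ} {s : Set ℝ}
    {x t : ℝ} (ht : 0 < t) (hx : x ∈ s) (h : ∀ y ∈ s, Adm κ k (F y))
    (hF : HasDerivWithinAt F F' s x) :
    HasDerivWithinAt (fun y => Lam κ (F y) t) (rtr (Lhat κ (F x) t * F')) s x := by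
  obtain ⟨p1, p2⟩ := cb_ev_pos (h x hx) ht
  have d1 := hasDerivWithinAt_trf (g := xlog) (g' := fun s => Real.log s + 1)
    (S := fun y => Kt κ t + F y) hx (hF.const_add (Kt κ t))
    (fun y hy => (rdiag_herm _).add (h y hy).herm) (fun j => Sc.hasDerivAt_xlog (p1 j).ne')
  have d2 := hasDerivWithinAt_trf (g := xlog) (g' := fun s => Real.log s + 1)
    (S := fun y => Kt κ t - F y) hx (hF.const_sub (Kt κ t))
    (fun y hy => (rdiag_herm _).sub (h y hy).herm) (fun j => Sc.hasDerivAt_xlog (p2 j).ne')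
  have d3 := (hdw_rtr hF).const_mul (2 + Real.log t)
  refine HasDerivWithinAt.congr_deriv ((d1.sub d2).sub d3) ?_
  have e : ∀ X : Matrix n n ℂ, fc (fun s => Real.log s + 1) X = fc Real.log X + 1 := by
    intro X
    rw [← fc_add Real.log (fun _ => 1) X, fc_const, one_smul]
  rw [e, e]
  unfold Lhat Lmat
  simp only [Matrix.add_mul, Matrix.sub_mul, Matrix.mul_neg, Matrix.one_mul, Matrix.smul_mul,
    rtr_add, rtr_sub, rtr_neg, rtr_smul]
  ring

lemma cb_Lam_rdiag (κ f : n → ℝ) (t : ℝ) : Lam κ (rdiag f) t = ∑ i, lam (κ i) (f i) t := by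
  unfold Lam Kt lam
  rw [rdiag_add, rdiag_sub, trf_rdiag, trf_rdiag, rtr_rdiag, Finset.mul_sum,
    ← Finset.sum_sub_distrib, ← Finset.sum_sub_distrib]

lemma cb_continuousOn_lam {κ f : ℝ} (hκ : 0 < κ) (h1 : -κ ≤ f) (h2 : f ≤ κ) :
    ContinuousOn (lam κ f) (Ioi 0) := by
  have hx : Continuous xlog := Real.continuous_mul_log
  unfold lam
  refine ContinuousOn.sub (Continuous.continuousOn (by fun_prop)) ?_
  exact (continuousOn_const.add (ContinuousOn.log continuousOn_id fun t ht => ne_of_gt ht)).mul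
    continuousOn_const

lemma cb_continuousOn_hfun {y : ℝ} (hy : 0 ≤ y) : ContinuousOn (fun t => hfun t y) (Ioi 0) := by
  unfold hfun
  refine ContinuousOn.sub (ContinuousOn.mul (by fun_prop) (ContinuousOn.log ?_ ?_))
    continuousOn_const
  · exact continuousOn_const.add (continuousOn_const.div continuousOn_id fun q hq => ne_of_gt hq)
  · intro q hq
    have h1 : 0 < q := hq
    positivity

lemma cb_continuousOn_rpow (β : ℝ) : ContinuousOn (fun t : ℝ => t ^ β) (Ioi 0) :=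
  continuousOn_id.rpow_const fun t ht => Or.inl (ne_of_gt ht)

lemma cb_ii {φ : ℝ → ℝ} (h : ContinuousOn φ (Ioi 0)) {δ T : ℝ} (hδ : 0 < δ) (hT : δ ≤ T) :
    IntervalIntegrable φ volume δ T :=
  (h.mono fun s hs => by
    rw [uIcc_of_le hT] at hs
    exact lt_of_lt_of_le hδ hs.1).intervalIntegrable

/-- the `hfun` term -/
lemma cb_hfun_trf {α : ℝ} (h0 : 0 < α) (h1 : α < 1) {δ T : ℝ} (hδ : 0 < δ) (hT : δ ≤ T)
    {Y : Matrix n n ℂ} (hY : Y.PosSemidef) :
    IntervalIntegrable (fun t => t ^ (α - 1) * trf (hfun t) Y) volume δ T ∧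
    ∫ t in δ..T, t ^ (α - 1) * trf (hfun t) Y ≤ Econst α / (α + 1) * trp (α + 1) Y := by
  have hi : ∀ i, IntervalIntegrable (fun t => t ^ (α - 1) * hfun t (ev Y i)) volume δ T :=
    fun i => cb_ii ((cb_continuousOn_rpow _).mul (cb_continuousOn_hfun (ev_nonneg hY i))) hδ hT
  have e : (fun t : ℝ => t ^ (α - 1) * trf (hfun t) Y) =
      fun t => ∑ i, t ^ (α - 1) * hfun t (ev Y i) := by
    funext t
    unfold trf
    rw [Finset.mul_sum]
  rw [e]
  constructor
  · refine cb_ii (continuousOn_finset_sum _ fun i _ => ?_) hδ hT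
    exact (cb_continuousOn_rpow _).mul (cb_continuousOn_hfun (ev_nonneg hY i))
  · rw [intervalIntegral.integral_finset_sum fun i _ => hi i]
    unfold trp trf
    rw [Finset.mul_sum]
    refine Finset.sum_le_sum fun i _ => (hfun_int_le h0 h1 hδ hT (ev_nonneg hY i)).trans ?_
    exact le_of_eq (by ring)

end aux

/-- the inequality at fixed cut-offs `δ`, `T` -/
lemma calib_cut {α k : ℝ} (h0 : 0 < α) (h1 : α < 1) {c C : ℝ}
    {n : Type} [Fintype n] [DecidableEq n] (κ : n → ℝ) (F A : ℝ → Matrix n n ℂ) (a b : ℝ)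
    (f : n → ℝ) {δ T : ℝ} (hδ : 0 < δ) (hT : δ ≤ T)
    (hc : ∀ F A : Matrix n n ℂ, Adm κ k F → A.PosSemidef →
        c * defect α⁻¹ (rdiag κ) F A ≤
          (∫ t in δ..T, t ^ (α - 1) * qfun α⁻¹ κ F A t) + δ ^ α * wfun κ F δ / α)
    (hC : ∀ F : Matrix n n ℂ, Adm κ k F → wfun κ F δ ≤ C)
    (hab : a ≤ b) (hA : ContinuousOn A (Icc a b)) (hAp : ∀ x ∈ Icc a b, (A x).PosSemidef)
    (hadm : ∀ x ∈ Icc a b, Adm κ k (F x))
    (hF : ∀ x ∈ Icc a b, HasDerivWithinAt F (Umat (rdiag κ) (F x) - A x) (Icc a b) x)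
    (hFa : F a = rdiag κ) (hFb : F b = rdiag f) (hf1 : ∀ i, -κ i ≤ f i) (hf2 : ∀ i, f i ≤ κ i) :
    c * (∫ x in a..b, defect α⁻¹ (rdiag κ) (F x) (A x)) +
        ∑ i, ∫ t in δ..T, t ^ (α - 1) * (lam (κ i) (κ i) t - lam (κ i) (f i) t) ≤
      (α⁻¹ + 1) * (Econst α / (α + 1) * (α⁻¹ + 1)⁻¹ ^ (α + 1)) * (∫ x in a..b, trp (α + 1) (A x)) +
        (b - a) * (δ ^ α * C / α) := by
  have hr : 0 < α⁻¹ := inv_pos.2 h0
  have hFc : ContinuousOn F (Icc a b) := fun x hx => (hF x hx).continuousWithinAt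
  have hκ : ∀ i, 0 < κ i := (hadm a (left_mem_Icc.2 hab)).pos
  set ψ : ℝ → ℝ → ℝ := fun x t =>
    t ^ (α - 1) * rtr (Lhat κ (F x) t * (A x - Umat (rdiag κ) (F x))) with hψ
  have hψ0 : ContinuousOn (fun q : ℝ × ℝ => rtr (Lhat κ (F q.1) q.2 *
      (A q.1 - Umat (rdiag κ) (F q.1)))) (Icc a b ×ˢ Ioi 0) :=
    continuous_rtr.comp_continuousOn (cb_continuousOn_mul (cb_continuousOn_Lhat hFc hadm)
      ((hA.sub (cb_continuousOn_Umat _ hFc)).comp continuous_fst.continuousOn fun q hq => hq.1))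
  have hψc : ContinuousOn (Function.uncurry ψ) (Icc a b ×ˢ Ioi 0) :=
    ((cb_continuousOn_rpow (α - 1)).comp continuous_snd.continuousOn fun q hq => hq.2).mul hψ0
  have hψi : IntegrableOn (Function.uncurry ψ) (uIoc a b ×ˢ uIoc δ T) := by
    have h2 : IntegrableOn (Function.uncurry ψ) (Icc a b ×ˢ Icc δ T) :=
      (hψc.mono (prod_mono le_rfl fun t ht => lt_of_lt_of_le hδ ht.1)).integrableOn_compact
        (isCompact_Icc.prod isCompact_Icc)
    refine h2.mono_set ?_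
    rw [uIoc_of_le hab, uIoc_of_le hT]
    exact prod_mono Ioc_subset_Icc_self Ioc_subset_Icc_self
  -- integrability of the inner integral
  have hin : IntervalIntegrable (fun x => ∫ t in δ..T, ψ x t) volume a b := by
    have h2 : Integrable (Function.uncurry ψ)
        ((volume.restrict (Ioc a b)).prod (volume.restrict (Ioc δ T))) := by
      rw [Measure.prod_restrict, ← Measure.volume_eq_prod]
      rw [uIoc_of_le hab, uIoc_of_le hT] at hψi
      exact hψi
    have h3 := h2.integral_prod_left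
    rw [intervalIntegrable_iff_integrableOn_Ioc_of_le hab]
    simp only [intervalIntegral.integral_of_le hT]
    exact h3
  -- the value of the double integral
  have hval : ∫ x in a..b, ∫ t in δ..T, ψ x t =
      ∑ i, ∫ t in δ..T, t ^ (α - 1) * (lam (κ i) (κ i) t - lam (κ i) (f i) t) := by
    rw [intervalIntegral_intervalIntegral_swap hψi, ← intervalIntegral.integral_finset_sum]
    · refine intervalIntegral.integral_congr fun t ht => ?_
      rw [uIcc_of_le hT] at ht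
      have ht0 : 0 < t := lt_of_lt_of_le hδ ht.1
      simp only [hψ]
      rw [intervalIntegral.integral_const_mul, ← Finset.mul_sum]
      congr 1
      have hd : ∀ x ∈ Icc a b, HasDerivWithinAt (fun y => -Lam κ (F y) t)
          (rtr (Lhat κ (F x) t * (A x - Umat (rdiag κ) (F x)))) (Icc a b) x := by
        intro x hx
        refine HasDerivWithinAt.congr_deriv (cb_hasDeriv_Lam ht0 hx hadm (hF x hx)).neg ?_
        rw [← rtr_neg, ← Matrix.mul_neg, neg_sub]
      have hcx : ContinuousOn (fun x => rtr (Lhat κ (F x) t * (A x - Umat (rdiag κ) (F x))))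
          (Icc a b) :=
        hψ0.comp (f := fun x : ℝ => (x, t)) (by fun_prop) fun x hx => ⟨hx, ht0⟩
      rw [intervalIntegral.integral_eq_sub_of_hasDerivAt_of_le hab
        (fun x hx => (hd x hx).continuousWithinAt)
        (fun x hx => (hd x (Ioo_subset_Icc_self hx)).hasDerivAt (Icc_mem_nhds hx.1 hx.2))
        (hcx.intervalIntegrable_of_Icc hab), hFa, hFb, cb_Lam_rdiag, cb_Lam_rdiag,
        Finset.sum_sub_distrib]
      ring
    · intro i _
      exact cb_ii ((cb_continuousOn_rpow _).mul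
        ((cb_continuousOn_lam (hκ i) (by linarith [hκ i]) le_rfl).sub
          (cb_continuousOn_lam (hκ i) (hf1 i) (hf2 i)))) hδ hT
  set B : ℝ := (α⁻¹ + 1) * (Econst α / (α + 1) * (α⁻¹ + 1)⁻¹ ^ (α + 1)) with hB
  -- the pointwise inequality
  have hpt : ∀ x ∈ Icc a b, c * defect α⁻¹ (rdiag κ) (F x) (A x) + ∫ t in δ..T, ψ x t ≤
      B * trp (α + 1) (A x) + δ ^ α * C / α := by
    intro x hx
    have b1 := hc (F x) (A x) (hadm x hx) (hAp x hx)
    have hY : ((α⁻¹ + 1)⁻¹ • A x).PosSemidef := psd_smul (hAp x hx) (by positivity)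
    obtain ⟨b2, b3⟩ := cb_hfun_trf h0 h1 hδ hT hY
    rw [trp_smul (by positivity) (hAp x hx)] at b3
    have b4 : IntervalIntegrable (ψ x) volume δ T :=
      cb_ii (hψc.comp (f := fun t : ℝ => (x, t)) (by fun_prop) fun t ht => ⟨hx, ht⟩) hδ hT
    have b5 : ∫ t in δ..T, t ^ (α - 1) * qfun α⁻¹ κ (F x) (A x) t =
        (α⁻¹ + 1) * (∫ t in δ..T, t ^ (α - 1) * trf (hfun t) ((α⁻¹ + 1)⁻¹ • A x)) -
          ∫ t in δ..T, ψ x t := by
      rw [← intervalIntegral.integral_const_mul, ← intervalIntegral.integral_sub (b2.const_mul _) b4]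
      congr 1
      funext t
      simp only [hψ, qfun]
      ring
    have b6 : δ ^ α * wfun κ (F x) δ / α ≤ δ ^ α * C / α :=
      div_le_div_of_nonneg_right (mul_le_mul_of_nonneg_left (hC _ (hadm x hx))
        (Real.rpow_nonneg hδ.le _)) h0.le
    have b7 := mul_le_mul_of_nonneg_left b3 (show 0 ≤ α⁻¹ + 1 by positivity)
    have b8 : (α⁻¹ + 1) * (Econst α / (α + 1) * ((α⁻¹ + 1)⁻¹ ^ (α + 1) * trp (α + 1) (A x))) =
        B * trp (α + 1) (A x) := by rw [hB]; ring
    linarith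
  have i1 : IntervalIntegrable (fun x => defect α⁻¹ (rdiag κ) (F x) (A x)) volume a b :=
    (cb_continuousOn_defect _ _ hFc hA).intervalIntegrable_of_Icc hab
  have i2 : IntervalIntegrable (fun x => trp (α + 1) (A x)) volume a b :=
    (continuousOn_trp (by linarith) hA fun x hx => (hAp x hx).1).intervalIntegrable_of_Icc hab
  have key := intervalIntegral.integral_mono_on hab ((i1.const_mul c).add hin)
    ((i2.const_mul B).add (intervalIntegrable_const (c := δ ^ α * C / α))) hpt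
  rw [intervalIntegral.integral_add (i1.const_mul c) hin,
    intervalIntegral.integral_add (i2.const_mul B) intervalIntegrable_const,
    intervalIntegral.integral_const_mul, intervalIntegral.integral_const_mul,
    intervalIntegral.integral_const, hval, smul_eq_mul] at key
  exact key

theorem calib (γ k : ℝ) (hγ : 1 / 2 < γ) (hγ' : γ < 3 / 2) : ∃ c : ℝ, 0 < c ∧
    ∀ (n : Type) [Fintype n] [DecidableEq n] (κ : n → ℝ) (F A : ℝ → Matrix n n ℂ) (a b η : ℝ),
      a ≤ b → 0 ≤ η → ContinuousOn A (Icc a b) → (∀ x ∈ Icc a b, (A x).PosSemidef) →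
      (∀ x ∈ Icc a b, Adm κ k (F x)) →
      (∀ x ∈ Icc a b, HasDerivWithinAt F (Umat (rdiag κ) (F x) - A x) (Icc a b) x) →
      F a = rdiag κ → F b = -rdiag κ + (2 * η) • (1 : Matrix n n ℂ) →
      c * (∫ x in a..b, defect (γ - 1 / 2)⁻¹ (rdiag κ) (F x) (A x)) + ∑ i, κ i ^ (2 * γ) -
          2 * η / beta (γ - 1 / 2) * ∑ i, κ i ^ (2 * γ - 1) ≤
        sharpConst γ * ∫ x in a..b, trp (γ + 1 / 2) (A x) := by
  have hS := sharpConst_eq hγ
  obtain ⟨α, hα⟩ : ∃ α, α = γ - 1 / 2 := ⟨_, rfl⟩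
  have g1 : γ + 1 / 2 = α + 1 := by rw [hα]; ring
  have g2 : 2 * γ = 2 * α + 1 := by rw [hα]; ring
  have g3 : 2 * α + 1 - 1 = 2 * α := by ring
  have h0 : 0 < α := by rw [hα]; linarith
  have h1 : α < 1 := by rw [hα]; linarith
  rw [g1, ← hα] at hS
  rw [g1, g2, g3, ← hα]
  obtain ⟨c, hc, hpt⟩ := point_ineq α k h0 h1
  obtain ⟨C, hC0, hC⟩ := wfun_small k
  have hE := Econst_pos h0 h1
  have hβ := beta_pos h0
  refine ⟨c / (Econst α * beta α), by positivity, ?_⟩
  intro n _ _ κ F A a b η hab hη hA hAp hadm hF hFa hFb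
  have hκ : ∀ i, 0 < κ i := (hadm a (left_mem_Icc.2 hab)).pos
  have hFb' : F b = rdiag fun i => -κ i + 2 * η := by
    rw [hFb, rdiag_neg, ← rdiag_const, rdiag_add]
  have hηκ : ∀ i, η ≤ κ i := by
    intro i
    have := (hadm b (right_mem_Icc.2 hab)).up
    rw [hFb', rdiag_sub, rdiag_psd_iff] at this
    linarith [this i]
  set I1 := ∫ x in a..b, defect α⁻¹ (rdiag κ) (F x) (A x) with hI1
  set I2 := ∫ x in a..b, trp (α + 1) (A x) with hI2
  set B : ℝ := (α⁻¹ + 1) * (Econst α / (α + 1) * (α⁻¹ + 1)⁻¹ ^ (α + 1)) with hB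
  have hcut : ∀ j : ℕ, c * I1 + ∑ i, ∫ t in ((j : ℝ) + 1)⁻¹..((j : ℝ) + 2),
      t ^ (α - 1) * (lam (κ i) (κ i) t - lam (κ i) (-κ i + 2 * η) t) ≤
      B * I2 + (b - a) * (((j : ℝ) + 1)⁻¹ ^ α *
        (C * Fintype.card n * (1 + |Real.log ((j : ℝ) + 1)⁻¹|)) / α) := by
    intro j
    have hj : (0 : ℝ) ≤ j := Nat.cast_nonneg j
    have hδ : 0 < ((j : ℝ) + 1)⁻¹ := by positivity
    have hδ1 : ((j : ℝ) + 1)⁻¹ ≤ 1 := inv_le_one_of_one_le₀ (by linarith)
    exact calib_cut h0 h1 κ F A a b (fun i => -κ i + 2 * η) hδ (by linarith)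
      (fun F A h hA => hpt n κ F A h hA _ _ hδ hδ1 (by linarith))
      (fun F h => hC n κ F h _ hδ hδ1) hab hA hAp hadm hF hFa hFb'
      (fun i => by linarith) (fun i => by linarith [hηκ i])
  have l1 : Tendsto (fun j : ℕ => c * I1 + ∑ i, ∫ t in ((j : ℝ) + 1)⁻¹..((j : ℝ) + 2),
      t ^ (α - 1) * (lam (κ i) (κ i) t - lam (κ i) (-κ i + 2 * η) t)) atTop
      (𝓝 (c * I1 + ∑ i, Econst α * ∫ g in (-κ i + 2 * η)..κ i, (κ i ^ 2 - g ^ 2) ^ α)) :=
    tendsto_const_nhds.add (tendsto_finset_sum _ fun i _ =>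
      lam_lim h0 h1 (hκ i) (by linarith) (by linarith [hηκ i]))
  have l2 : Tendsto (fun j : ℕ => B * I2 + (b - a) * (((j : ℝ) + 1)⁻¹ ^ α *
        (C * Fintype.card n * (1 + |Real.log ((j : ℝ) + 1)⁻¹|)) / α)) atTop (𝓝 (B * I2)) := by
    have t0 : Tendsto (fun j : ℕ => ((j : ℝ) + 1)⁻¹) atTop (𝓝[>] 0) :=
      tendsto_inv_atTop_nhdsGT_zero.comp
        (tendsto_atTop_add_const_right _ _ tendsto_natCast_atTop_atTop)
    have t1 : Tendsto (fun x : ℝ => x ^ α) (𝓝[>] 0) (𝓝 0) := by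
      have := (Real.continuousAt_rpow_const 0 α (Or.inr h0.le)).tendsto
      rw [Real.zero_rpow h0.ne'] at this
      exact this.mono_left nhdsWithin_le_nhds
    have t2 : Tendsto (fun x : ℝ => |Real.log x * x ^ α|) (𝓝[>] 0) (𝓝 0) := by
      simpa using (tendsto_log_mul_rpow_nhdsGT_zero h0).abs
    have t3 : Tendsto (fun x : ℝ => B * I2 + (b - a) * (C * Fintype.card n / α) *
        (x ^ α + |Real.log x * x ^ α|)) (𝓝[>] 0)
        (𝓝 (B * I2 + (b - a) * (C * Fintype.card n / α) * (0 + 0))) :=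
      tendsto_const_nhds.add ((t1.add t2).const_mul _)
    rw [add_zero, mul_zero, add_zero] at t3
    refine (t3.comp t0).congr fun j => ?_
    have hp : 0 ≤ ((j : ℝ) + 1)⁻¹ ^ α := Real.rpow_nonneg (by positivity) _
    simp only [Function.comp]
    rw [abs_mul, abs_of_nonneg hp]
    ring
  have key := le_of_tendsto_of_tendsto' l1 l2 hcut
  have k2 : Econst α * (beta α * ∑ i, κ i ^ (2 * α + 1) - 2 * η * ∑ i, κ i ^ (2 * α)) ≤
      ∑ i, Econst α * ∫ g in (-κ i + 2 * η)..κ i, (κ i ^ 2 - g ^ 2) ^ α := by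
    rw [Finset.mul_sum, Finset.mul_sum, ← Finset.sum_sub_distrib, Finset.mul_sum]
    exact Finset.sum_le_sum fun i _ =>
      mul_le_mul_of_nonneg_left (beta_scale h0 (hκ i) hη (hηκ i)) hE.le
  have k3 : B = Econst α * beta α * sharpConst γ := by
    have hr : 0 < α⁻¹ + 1 := by positivity
    have hY : 0 < (α⁻¹ + 1) ^ α := Real.rpow_pos_of_pos hr _
    rw [hB, Real.inv_rpow hr.le, Real.rpow_add_one hr.ne']
    have e : sharpConst γ = (beta α * (α + 1) * (α⁻¹ + 1) ^ α)⁻¹ :=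
      eq_inv_of_mul_eq_one_left hS
    rw [e]
    generalize (α⁻¹ + 1) ^ α = Y at hY ⊢
    generalize α⁻¹ + 1 = R at hr ⊢
    field_simp
  rw [k3] at key
  have hEβ : 0 < Econst α * beta α := mul_pos hE hβ
  refine le_of_mul_le_mul_left ?_ hEβ
  have e1 : Econst α * beta α * (c / (Econst α * beta α) * I1 + ∑ i, κ i ^ (2 * α + 1) -
      2 * η / beta α * ∑ i, κ i ^ (2 * α)) =
      c * I1 + Econst α * (beta α * ∑ i, κ i ^ (2 * α + 1) - 2 * η * ∑ i, κ i ^ (2 * α)) := by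
    field_simp
    ring
  rw [e1]
  linarith

end Crest.Agent.R332
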