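import Crest.Agent.R332.GT

/-!
Row 332: the two deficits control the distance from the equality case, dimension-free.
-/

set_option autoImplicit false
set_option linter.unusedSectionVars false

open Matrix MeasureTheory Set Filter Topology Crest.Agent.R342
open scoped ComplexOrder Matrix.Norms.Frobenius

namespace Crest.Agent.R332

namespace CloseAux

variable {n : Type} [Fintype n] [DecidableEq n]

lemma scalar_min {e u v R c : ℝ} (he : 0 ≤ e) (hu : 0 ≤ u) (hv : 0 ≤ v) (hR : 0 ≤ R) (hc : 0 ≤ c)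
    (h : e ≤ R * (c * (u + v) + u ^ 2)) :
    min e (e ^ 2) ≤ (2 * (R * (c + 1)) ^ 2 + R * (2 * c + 1)) * (u ^ 2 + v ^ 2) := by
  have hs : 0 ≤ u ^ 2 + v ^ 2 := by positivity
  have h1 : 0 ≤ 2 * (R * (c + 1)) ^ 2 * (u ^ 2 + v ^ 2) := by positivity
  have h2 : 0 ≤ R * (2 * c + 1) * (u ^ 2 + v ^ 2) := by positivity
  rcases le_total (u ^ 2 + v ^ 2) 1 with hle | hle
  · refine (min_le_right _ _).trans ?_
    have hu1 : u ≤ 1 := by nlinarith
    have h3 : e ≤ R * (c + 1) * (u + v) := by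
      refine h.trans ?_
      rw [mul_assoc]
      exact mul_le_mul_of_nonneg_left (by nlinarith) hR
    have h4 := pow_le_pow_left₀ he h3 2
    have h5 : (u + v) ^ 2 ≤ 2 * (u ^ 2 + v ^ 2) := by nlinarith [sq_nonneg (u - v)]
    have h6 := mul_le_mul_of_nonneg_left h5 (sq_nonneg (R * (c + 1)))
    rw [mul_pow] at h4
    linarith
  · refine (min_le_left _ _).trans ?_
    have h3 : u + v ≤ 2 * (u ^ 2 + v ^ 2) := by nlinarith [sq_nonneg (u - 1), sq_nonneg (v - 1)]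
    have h4 := mul_le_mul_of_nonneg_left h3 hc
    have h5 : c * (u + v) + u ^ 2 ≤ (2 * c + 1) * (u ^ 2 + v ^ 2) := by nlinarith
    have h6 := mul_le_mul_of_nonneg_left h5 hR
    linarith

lemma log_lip {b x y : ℝ} (hb : 0 < b) (hx : b⁻¹ ≤ x) (hy : b⁻¹ ≤ y) :
    |Real.log x - Real.log y| ≤ b * |x - y| := by
  have key : ∀ x y : ℝ, b⁻¹ ≤ x → b⁻¹ ≤ y → Real.log x - Real.log y ≤ b * |x - y| := by
    intro x y hx hy
    have hx0 : 0 < x := (inv_pos.2 hb).trans_le hx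
    have hy0 : 0 < y := (inv_pos.2 hb).trans_le hy
    rw [← Real.log_div hx0.ne' hy0.ne']
    refine (Real.log_le_sub_one_of_pos (div_pos hx0 hy0)).trans ?_
    rw [div_sub_one hy0.ne', div_le_iff₀ hy0]
    have h1 : 1 ≤ b * y := by rwa [inv_le_iff_one_le_mul₀' hb] at hy
    nlinarith [le_abs_self (x - y), abs_nonneg (x - y)]
  rw [abs_sub_le_iff]
  exact ⟨key x y hx hy, abs_sub_comm x y ▸ key y x hy hx⟩

lemma sqrt_bounds {κ k t : ℝ} (h0 : 0 < κ) (hk : κ ≤ k) (h1 : 1 ≤ t) (h2 : t ≤ 2) :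
    √(κ ^ 2 + t) ≤ √(k ^ 2 + 2) ∧ κ ≤ √(k ^ 2 + 2) ∧
      (2 * √(k ^ 2 + 2))⁻¹ ≤ √(κ ^ 2 + t) - κ := by
  have h3 : √(κ ^ 2 + t) ≤ √(k ^ 2 + 2) := Real.sqrt_le_sqrt (by nlinarith)
  have h4 : κ ≤ √(κ ^ 2 + t) := Real.le_sqrt_of_sq_le (by linarith)
  have h5 : 0 < √(k ^ 2 + 2) := Real.sqrt_pos.2 (by positivity)
  have h6 : √(κ ^ 2 + t) ^ 2 = κ ^ 2 + t := Real.sq_sqrt (by positivity)
  refine ⟨h3, h4.trans h3, ?_⟩
  rw [inv_le_iff_one_le_mul₀' (by positivity)]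
  nlinarith

lemma ev_bounds {κ : n → ℝ} {k t : ℝ} {G : Matrix n n ℂ} (h0 : ∀ i, 0 < κ i) (hk : ∀ i, κ i ≤ k)
    (hG : G.IsHermitian) (up : (rdiag κ - G).PosSemidef) (lo : (rdiag κ + G).PosSemidef)
    (h1 : 1 ≤ t) (h2 : t ≤ 2) (i : n) :
    (2 * √(k ^ 2 + 2))⁻¹ ≤ ev (Kt κ t + G) i ∧ ev (Kt κ t + G) i ≤ 2 * √(k ^ 2 + 2) := by
  have hX : (Kt κ t + G).IsHermitian := (rdiag_herm _).add hG
  have hb := fun i => sqrt_bounds (h0 i) (hk i) h1 h2
  refine ⟨(le_ev_iff hX _).2 ?_ i, (ev_le_iff hX _).2 ?_ i⟩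
  · have e : Kt κ t + G - (2 * √(k ^ 2 + 2))⁻¹ • (1 : Matrix n n ℂ) =
        rdiag (fun i => √(κ i ^ 2 + t) - κ i - (2 * √(k ^ 2 + 2))⁻¹) + (rdiag κ + G) := by
      rw [← rdiag_const, ← rdiag_sub, ← rdiag_sub, Kt]; abel
    rw [e]
    exact ((rdiag_psd_iff _).2 fun i => sub_nonneg.2 (hb i).2.2).add lo
  · have e : (2 * √(k ^ 2 + 2)) • (1 : Matrix n n ℂ) - (Kt κ t + G) =
        rdiag (fun i => 2 * √(k ^ 2 + 2) - √(κ i ^ 2 + t) - κ i) + (rdiag κ - G) := by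
      rw [← rdiag_const, ← rdiag_sub, ← rdiag_sub, Kt]; abel
    rw [e]
    exact ((rdiag_psd_iff _).2 fun i => by linarith [(hb i).1, (hb i).2.1]).add up

lemma ev_log_le {X : Matrix n n ℂ} {b : ℝ} (hb : 0 < b) (h : ∀ i, b⁻¹ ≤ ev X i ∧ ev X i ≤ b)
    (i : n) : ev (fc Real.log X) i ≤ b := by
  obtain ⟨j, hj⟩ := ev_fc Real.log X i
  rw [hj]
  have := Real.log_le_sub_one_of_pos ((inv_pos.2 hb).trans_le (h j).1)
  linarith [(h j).2]

lemma exp_log {X : Matrix n n ℂ} (hX : X.IsHermitian) {b : ℝ} (hb : 0 < b)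
    (h : ∀ i, b⁻¹ ≤ ev X i ∧ ev X i ≤ b) : fc Real.exp (fc Real.log X) = X := by
  rw [fc_comp]
  refine (fc_congr fun i => ?_).trans (fc_id hX)
  exact Real.exp_log ((inv_pos.2 hb).trans_le (h i).1)

lemma exp_log_close {X Z : Matrix n n ℂ} (hX : X.IsHermitian) (hZ : Z.IsHermitian) {b : ℝ}
    (hb : 0 < b) (h : ∀ i, b⁻¹ ≤ ev X i ∧ ev X i ≤ b) (h' : ∀ i, b⁻¹ ≤ ev Z i ∧ ev Z i ≤ b) :
    ‖fc Real.exp (fc Real.log X + fc Real.log Z) - X * Z‖ ≤
      Real.exp (4 * b) * (b * (b * ‖comm X Z‖)) := by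
  have h1 := exp_add_close (fc_herm Real.log X) (fc_herm Real.log Z) hb.le (ev_log_le hb h)
    (ev_log_le hb h')
  rw [exp_log hX hb h, exp_log hZ hb h'] at h1
  refine h1.trans (mul_le_mul_of_nonneg_left ?_ (Real.exp_pos _).le)
  refine (norm_comm_fc_le hb.le hX _ fun i j => log_lip hb (h i).1 (h j).1).trans
    (mul_le_mul_of_nonneg_left ?_ hb.le)
  rw [norm_comm_symm, norm_comm_symm X]
  exact norm_comm_fc_le hb.le hZ _ fun i j => log_lip hb (h' i).1 (h' j).1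

lemma sq_close {Y L : Matrix n n ℂ} (hY : Y.PosSemidef) {M : ℝ} (hL : ∀ i, ev L i ≤ 2 * M) :
    ‖Y - fc Real.exp L‖ ≤
      2 * Real.exp M * ‖fc Real.sqrt Y - fc (fun s => Real.exp (s / 2)) L‖ +
        ‖fc Real.sqrt Y - fc (fun s => Real.exp (s / 2)) L‖ ^ 2 := by
  set S := fc Real.sqrt Y with hS
  set P := fc (fun s => Real.exp (s / 2)) L with hP
  have h1 : S * S = Y := by
    rw [hS, fc_mul]
    exact (fc_congr_psd hY fun t ht => Real.mul_self_sqrt ht).trans (fc_id hY.1)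
  have h2 : P * P = fc Real.exp L := by
    rw [hP, fc_mul]
    exact fc_congr fun i => by rw [← Real.exp_add, add_halves]
  have h3 : OpLe P (Real.exp M) := opLe_fc (Real.exp_pos _).le fun i => by
    rw [abs_of_pos (Real.exp_pos _)]
    exact Real.exp_le_exp.2 (by linarith [hL i])
  have h4 : Y - fc Real.exp L = (S - P) * P + P * (S - P) + (S - P) * (S - P) := by
    rw [← h1, ← h2]; noncomm_ring
  rw [h4]
  have h5 := h3.norm_mul_le (S - P)
  have h6 := h3.norm_mul_le' (S - P)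
  have h7 := norm_mul_le' (S - P) (S - P)
  have h8 := norm_add₃_le (a := (S - P) * P) (b := P * (S - P)) (c := (S - P) * (S - P))
  rw [sq]
  linarith

end CloseAux

open CloseAux in
theorem defect_le (r k : ℝ) (hr : 0 < r) : ∃ C : ℝ, 0 < C ∧
    ∀ (n : Type) [Fintype n] [DecidableEq n] (κ : n → ℝ) (F A : Matrix n n ℂ), Adm κ k F →
      A.PosSemidef → ∀ t : ℝ, 1 ≤ t → t ≤ 2 →
        defect r (rdiag κ) F A ≤
          C * (D1 κ F ((r + 1)⁻¹ • A) t + ‖comm (Kt κ t) F‖ ^ 2) := by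
  set a := √(k ^ 2 + 2) with ha
  have ha0 : 0 < a := Real.sqrt_pos.2 (by positivity)
  set b := 2 * a with hb
  have hb0 : 0 < b := by positivity
  set c := 2 * Real.exp b + (Real.exp (4 * b) * (b * (b * 2)) + 1) with hc
  refine ⟨2 * ((r + 1) * (c + 1)) ^ 2 + (r + 1) * (2 * c + 1) + b ^ 2, by positivity, ?_⟩
  intro n _ _ κ F A hF hA t h1 h2
  set Y := (r + 1)⁻¹ • A with hY
  set K := Kt κ t with hK
  set u := ‖fc Real.sqrt (Y + t • (1 : Matrix n n ℂ)) -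
    fc (fun s => Real.exp (s / 2)) (Lmat κ F t)‖ with hu
  set v := ‖comm K F‖ with hv
  have hu0 : 0 ≤ u := norm_nonneg _
  have hv0 : 0 ≤ v := norm_nonneg _
  have hKh : K.IsHermitian := rdiag_herm _
  have bp := ev_bounds hF.pos hF.le hF.herm hF.up hF.lo h1 h2
  have bm := ev_bounds hF.pos hF.le hF.herm.neg (by simpa using hF.lo)
    (by simpa [← sub_eq_add_neg] using hF.up) h1 h2
  rw [← sub_eq_add_neg] at bm
  have hKK : K * K = rdiag κ * rdiag κ + t • (1 : Matrix n n ℂ) := by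
    rw [hK, Kt, rdiag_mul, rdiag_mul, ← rdiag_const, rdiag_add]
    congr 1
    funext i
    rw [Real.mul_self_sqrt (by positivity), sq]
  have e1 := exp_log_close (hKh.add hF.herm) (hKh.sub hF.herm) hb0 bp bm
  have e2 : comm (K + F) (K - F) = (-2 : ℝ) • comm K F := by
    simp only [comm, neg_smul, two_smul]; noncomm_ring
  rw [e2, norm_smul, ← hv, Real.norm_eq_abs, abs_neg, abs_two] at e1
  have hL : ∀ i, ev (Lmat κ F t) i ≤ 2 * b := by
    have hp := fc_herm Real.log (K + F)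
    have hm := fc_herm Real.log (K - F)
    have h3 := ((ev_le_iff hp b).1 (ev_log_le hb0 bp)).add ((ev_le_iff hm b).1 (ev_log_le hb0 bm))
    refine (ev_le_iff (hp.add hm) _).2 ?_
    rw [two_mul, add_smul]
    rwa [sub_add_sub_comm] at h3
  have hYt : (Y + t • (1 : Matrix n n ℂ)).PosSemidef :=
    (psd_smul hA (by positivity)).add (psd_smul PosSemidef.one (by linarith))
  have e3 := sq_close hYt hL
  rw [← hu] at e3
  have e4 : Y - Umat (rdiag κ) F = (Y + t • (1 : Matrix n n ℂ) - fc Real.exp (Lmat κ F t)) +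
      (fc Real.exp (Lmat κ F t) - (K + F) * (K - F)) + -comm K F := by
    rw [Umat, comm, eq_sub_of_add_eq hKK.symm]
    noncomm_ring
  have e5 : ‖Y - Umat (rdiag κ) F‖ ≤ c * (u + v) + u ^ 2 := by
    rw [e4]
    refine norm_add₃_le.trans ?_
    rw [norm_neg, ← hv]
    have h3 : 0 ≤ 2 * Real.exp b * v := by positivity
    have h4 : 0 ≤ (Real.exp (4 * b) * (b * (b * 2)) + 1) * u := by positivity
    have h5 : ‖fc Real.exp (Lmat κ F t) - (K + F) * (K - F)‖ ≤ _ := e1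
    rw [hc]
    nlinarith
  have e6 : err1 r (rdiag κ) F A ≤ (r + 1) * (c * (u + v) + u ^ 2) := by
    have : A - (r + 1) • Umat (rdiag κ) F = (r + 1) • (Y - Umat (rdiag κ) F) := by
      rw [smul_sub, hY, smul_smul, mul_inv_cancel₀ (by positivity), one_smul]
    rw [err1, this, norm_smul, Real.norm_eq_abs, abs_of_pos (by positivity)]
    exact mul_le_mul_of_nonneg_left e5 (by positivity)
  have e7 : err2 (rdiag κ) F ≤ b * v := by
    have hKo : OpLe K a := opLe_rdiag ha0.le fun i => by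
      rw [abs_of_nonneg (Real.sqrt_nonneg _)]
      exact (sqrt_bounds (hF.pos i) (hF.le i) h1 h2).1
    have : comm (rdiag κ * rdiag κ) F = K * comm K F + comm K F * K := by
      rw [eq_sub_of_add_eq hKK.symm]
      simp only [comm, Matrix.sub_mul, Matrix.mul_sub, Matrix.smul_mul, Matrix.mul_smul,
        Matrix.one_mul, Matrix.mul_one, Matrix.mul_assoc]
      abel
    rw [err2, this]
    refine (norm_add_le _ _).trans ?_
    have h3 := hKo.norm_mul_le (comm K F)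
    have h4 := hKo.norm_mul_le' (comm K F)
    rw [hb]
    linarith
  have e8 := scalar_min (norm_nonneg _) hu0 hv0 (by positivity) (by positivity) e6
  have e9 := pow_le_pow_left₀ (norm_nonneg _) e7 2
  have e10 : 0 ≤ b ^ 2 * u ^ 2 := by positivity
  change min (err1 r (rdiag κ) F A) (err1 r (rdiag κ) F A ^ 2) + err2 (rdiag κ) F ^ 2 ≤
    _ * (u ^ 2 + v ^ 2)
  rw [mul_pow] at e9
  unfold err1 err2 at *
  linarith

end Crest.Agent.R332
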