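import Crest.Agent.R332.Approx

/-!
Row 332: auxiliary lemmas for `Construct` (regularised polar part, completing the square).
-/

set_option autoImplicit false
set_option linter.unusedSectionVars false

open Matrix MeasureTheory Set Filter Topology Crest.Agent.R342
open scoped ComplexOrder Matrix.Norms.Frobenius

namespace Crest.Agent.R332

section polar
variable {n l : Type} [Fintype n] [DecidableEq n] [Fintype l] [DecidableEq l]

/-- regularised polar part -/
noncomputable def pol (δ : ℝ) (Z : Matrix n l ℂ) : Matrix n l ℂ :=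
  fc (fun s => (√(s + δ))⁻¹) (Z * Zᴴ) * Z

lemma opLe_pol {δ : ℝ} (hδ : 0 < δ) (Z : Matrix n l ℂ) : OpLe (pol δ Z) 1 := by
  have hP : (Z * Zᴴ).PosSemidef := posSemidef_self_mul_conjTranspose Z
  have h : OpLe (pol δ Z)ᴴ 1 := by
    rw [opLe_iff_psd zero_le_one, conjTranspose_conjTranspose]
    have e : pol δ Z * (pol δ Z)ᴴ = fc (fun s => (√(s + δ))⁻¹ * s * (√(s + δ))⁻¹) (Z * Zᴴ) := by
      rw [← fc_mul, ← fc_mul_self hP.1]
      simp only [pol, conjTranspose_mul, fc_conjTranspose, Matrix.mul_assoc]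
    rw [e, ← fc_const, fc_sub]
    refine fc_psd' hP fun s hs => ?_
    have h1 : 0 < s + δ := by linarith
    have h2 : (√(s + δ))⁻¹ * s * (√(s + δ))⁻¹ = s / (s + δ) := by
      rw [mul_right_comm, ← mul_inv, Real.mul_self_sqrt h1.le, div_eq_mul_inv, mul_comm]
    rw [h2, one_pow, sub_nonneg, div_le_one h1]
    linarith
  simpa using h.ct

lemma pol_ct_mul (δ : ℝ) (Z : Matrix n l ℂ) :
    (pol δ Z)ᴴ * Z = fc (fun s => s * (√(s + δ))⁻¹) (Zᴴ * Z) := by
  have hP : (Z * Zᴴ).PosSemidef := posSemidef_self_mul_conjTranspose Z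
  have hQ : (Zᴴ * Z).PosSemidef := posSemidef_conjTranspose_mul_self Z
  have h := fc_intertwine (fun s => (√(s + δ))⁻¹) hP.1 hQ.1 (V := Z) (Matrix.mul_assoc _ _ _)
  rw [pol, conjTranspose_mul, fc_conjTranspose, Matrix.mul_assoc, h, ← Matrix.mul_assoc,
    mul_fc hQ.1]

lemma pol_lower {δ : ℝ} (hδ : 0 < δ) (Z : Matrix n l ℂ) {W : Matrix l l ℂ} (hW : W.PosSemidef) :
    rtr (Z * W * Zᴴ) - δ * rtr W ≤ rtr (Zᴴ * (pol δ Z * W * (pol δ Z)ᴴ) * Z) := by
  have hQ : (Zᴴ * Z).PosSemidef := posSemidef_conjTranspose_mul_self Z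
  have e1 : rtr (Zᴴ * (pol δ Z * W * (pol δ Z)ᴴ) * Z) =
      rtr (W * (((pol δ Z)ᴴ * Z) * ((pol δ Z)ᴴ * Z)ᴴ)) := by
    calc rtr (Zᴴ * (pol δ Z * W * (pol δ Z)ᴴ) * Z)
        = rtr ((Zᴴ * pol δ Z) * (W * ((pol δ Z)ᴴ * Z))) := by simp only [Matrix.mul_assoc]
      _ = _ := by
        rw [rtr_mul_comm, conjTranspose_mul, conjTranspose_conjTranspose]
        simp only [Matrix.mul_assoc]
  have e2 : rtr (Z * W * Zᴴ) - δ * rtr W = rtr (W * (Zᴴ * Z - δ • (1 : Matrix l l ℂ))) := by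
    rw [Matrix.mul_sub, rtr_sub, Matrix.mul_smul, Matrix.mul_one, rtr_smul, Matrix.mul_assoc,
      rtr_mul_comm, Matrix.mul_assoc]
  rw [e1, e2]
  refine rtr_mul_mono hW ?_
  rw [pol_ct_mul, fc_conjTranspose, fc_mul]
  have e3 : Zᴴ * Z - δ • (1 : Matrix l l ℂ) = fc (fun s => s - δ) (Zᴴ * Z) := by
    rw [← fc_sub, fc_id hQ.1, fc_const]
  rw [e3, fc_sub]
  refine fc_psd' hQ fun s hs => ?_
  have h1 : 0 < s + δ := by linarith
  have h2 : s * (√(s + δ))⁻¹ * (s * (√(s + δ))⁻¹) = s ^ 2 / (s + δ) := by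
    rw [mul_mul_mul_comm, ← mul_inv, Real.mul_self_sqrt h1.le, div_eq_mul_inv, sq]
  rw [h2, sub_nonneg, le_div_iff₀ h1]
  nlinarith

lemma pol_conj (δ : ℝ) {U : Matrix n n ℂ} (h1 : Uᴴ * U = 1) (h2 : U * Uᴴ = 1) (Z : Matrix n l ℂ) :
    pol δ (U * Z) = U * pol δ Z := by
  have hP : (Z * Zᴴ).PosSemidef := posSemidef_self_mul_conjTranspose Z
  have e : U * Z * (U * Z)ᴴ = U * (Z * Zᴴ) * Uᴴ := by
    simp only [conjTranspose_mul, Matrix.mul_assoc]
  rw [pol, e, fc_conj _ h1 h2 hP.1, pol, Matrix.mul_assoc, ← Matrix.mul_assoc Uᴴ, h1,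
    Matrix.one_mul, Matrix.mul_assoc]

lemma continuousOn_pol {X : Type*} [TopologicalSpace X] {s : Set X} {δ : ℝ} (hδ : 0 < δ)
    {Z : X → Matrix n l ℂ} (hZ : ContinuousOn Z s) : ContinuousOn (fun x => pol δ (Z x)) s := by
  have hct : ContinuousOn (fun x => (Z x)ᴴ) s :=
    continuous_id.matrix_conjTranspose.comp_continuousOn hZ
  have hmul : ∀ {a b c : Type} [Fintype a] [Fintype b] [Fintype c] {A : X → Matrix a b ℂ}
      {B : X → Matrix b c ℂ}, ContinuousOn A s → ContinuousOn B s →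
      ContinuousOn (fun x => A x * B x) s := fun hA hB =>
    (continuous_fst.matrix_mul continuous_snd).comp_continuousOn (hA.prodMk hB)
  refine hmul (continuousOn_fc (S := Ici 0) (f := fun _ s => (√(s + δ))⁻¹) (hmul hZ hct)
    (fun x _ => (posSemidef_self_mul_conjTranspose _).1)
    (fun x _ i => ev_nonneg (posSemidef_self_mul_conjTranspose _) i) ?_) hZ
  refine ContinuousOn.inv₀ (by fun_prop) fun q hq => ?_
  have : (0 : ℝ) ≤ q.2 := hq.2
  exact (Real.sqrt_pos.2 (by linarith)).ne'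

lemma rtr_compress_le {V : Matrix n l ℂ} (hV : OpLe V 1) {W : Matrix l l ℂ} (hW : W.PosSemidef) :
    rtr (V * W * Vᴴ) ≤ rtr W := by
  have h := (opLe_iff_psd zero_le_one).1 hV
  rw [one_pow, one_smul] at h
  have := rtr_mul_mono hW h
  rwa [Matrix.mul_one, ← Matrix.mul_assoc, rtr_mul_comm, ← Matrix.mul_assoc] at this

lemma continuousOn_matMul {X : Type*} [TopologicalSpace X] {s : Set X} {a b c : Type} [Fintype a]
    [Fintype b] [Fintype c] {A : X → Matrix a b ℂ} {B : X → Matrix b c ℂ} (hA : ContinuousOn A s)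
    (hB : ContinuousOn B s) : ContinuousOn (fun x => A x * B x) s :=
  (continuous_fst.matrix_mul continuous_snd).comp_continuousOn (hA.prodMk hB)

lemma continuousOn_ct {X : Type*} [TopologicalSpace X] {s : Set X} {a b : Type} [Fintype a]
    [Fintype b] {A : X → Matrix a b ℂ} (hA : ContinuousOn A s) :
    ContinuousOn (fun x => (A x)ᴴ) s :=
  continuous_id.matrix_conjTranspose.comp_continuousOn hA

/-- completing the square -/
lemma complete_square {a b : ℝ} (hab : a ≤ b) {Z Z' : ℝ → Matrix n l ℂ}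
    (hZ : ∀ x, HasDerivAt Z (Z' x) x) (hZ' : Continuous Z') (hZa : Z a = 0) (hZb : Z b = 0)
    {K : Matrix n n ℂ} {F A : ℝ → Matrix n n ℂ} (hA : ContinuousOn A (Icc a b))
    (hF : ∀ x ∈ Icc a b, (F x).IsHermitian)
    (hode : ∀ x ∈ Icc a b, HasDerivWithinAt F (Umat K (F x) - A x) (Icc a b) x) :
    ∫ x in a..b, ‖Z' x - F x * Z x‖ ^ 2 =
      ∫ x in a..b, (‖Z' x‖ ^ 2 + rtr ((Z x)ᴴ * (K * K) * Z x) - rtr ((Z x)ᴴ * A x * Z x)) := by
  have hZc : Continuous Z := continuous_iff_continuousAt.2 fun x => (hZ x).continuousAt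
  have hFc : ContinuousOn F (Icc a b) := fun x hx => (hode x hx).continuousWithinAt
  set H' : ℝ → ℝ := fun x => rtr (((Z' x)ᴴ * F x + (Z x)ᴴ * (Umat K (F x) - A x)) * Z x +
    (Z x)ᴴ * F x * Z' x) with hH'
  have hH : ∀ x ∈ Icc a b,
      HasDerivWithinAt (fun y => rtr ((Z y)ᴴ * F y * Z y)) (H' x) (Icc a b) x := fun x hx =>
    hdw_rtr (hdw_mul (hdw_mul (hdw_ct (hZ x).hasDerivWithinAt) (hode x hx))
      (hZ x).hasDerivWithinAt)
  have hU : ContinuousOn (fun x => Umat K (F x) - A x) (Icc a b) :=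
    (continuousOn_const.sub (continuousOn_matMul hFc hFc)).sub hA
  have hH'c : ContinuousOn H' (Icc a b) := by
    refine continuous_rtr.comp_continuousOn (ContinuousOn.add (continuousOn_matMul
      ((continuousOn_matMul (continuousOn_ct hZ'.continuousOn) hFc).add
        (continuousOn_matMul (continuousOn_ct hZc.continuousOn) hU)) hZc.continuousOn)
      (continuousOn_matMul (continuousOn_matMul (continuousOn_ct hZc.continuousOn) hFc)
        hZ'.continuousOn))
  have hint : ∫ x in a..b, H' x = 0 := by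
    rw [intervalIntegral.integral_eq_sub_of_hasDerivAt_of_le hab
      (f := fun y => rtr ((Z y)ᴴ * F y * Z y)) (fun x hx => (hH x hx).continuousWithinAt)
      (fun x hx => (hH x (Ioo_subset_Icc_self hx)).hasDerivAt (Icc_mem_nhds hx.1 hx.2))
      (hH'c.intervalIntegrable_of_Icc hab)]
    simp [hZa, hZb, rtr_zero]
  have hsq : ContinuousOn (fun x => ‖Z' x - F x * Z x‖ ^ 2) (Icc a b) :=
    ((hZ'.continuousOn.sub (continuousOn_matMul hFc hZc.continuousOn)).norm).pow 2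
  calc ∫ x in a..b, ‖Z' x - F x * Z x‖ ^ 2
      = (∫ x in a..b, ‖Z' x - F x * Z x‖ ^ 2) + ∫ x in a..b, H' x := by rw [hint, add_zero]
    _ = ∫ x in a..b, (‖Z' x - F x * Z x‖ ^ 2 + H' x) :=
        (intervalIntegral.integral_add (hsq.intervalIntegrable_of_Icc hab)
          (hH'c.intervalIntegrable_of_Icc hab)).symm
    _ = _ := by
        refine intervalIntegral.integral_congr fun x hx => ?_
        rw [uIcc_of_le hab] at hx
        have e1 : rtr ((Z x)ᴴ * (F x * Z' x)) = rtr ((Z' x)ᴴ * (F x * Z x)) := by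
          rw [← rtr_ct]; simp [(hF x hx).eq, Matrix.mul_assoc]
        have e2 : ‖F x * Z x‖ ^ 2 = rtr ((Z x)ᴴ * (F x * F x) * Z x) := by
          rw [norm_sq_eq_rtr]; simp [(hF x hx).eq, Matrix.mul_assoc]
        simp only [hH', norm_sub_sq_rtr, rtr_add, e1, e2, Umat, Matrix.add_mul, Matrix.mul_sub,
          Matrix.sub_mul, rtr_sub, Matrix.mul_assoc]
        ring

end polar

/-- tangent line inequality for a concave power -/
lemma rpow_le_tangent {γ : ℝ} (h0 : 0 ≤ γ) (h1 : γ ≤ 1) {x y : ℝ} (hx : 0 < x) (hy : 0 ≤ y) :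
    y ^ γ ≤ x ^ γ + γ * x ^ (γ - 1) * (y - x) := by
  have h := rpow_one_add_le_one_add_mul_self (s := y / x - 1)
    (by have := div_nonneg hy hx.le; linarith) h0 h1
  rw [add_sub_cancel, Real.div_rpow hy hx.le, div_le_iff₀ (Real.rpow_pos_of_pos hx γ)] at h
  rw [Real.rpow_sub_one hx.ne']
  have e : x ^ γ + γ * (x ^ γ / x) * (y - x) = (1 + γ * (y / x - 1)) * x ^ γ := by
    field_simp
  linarith

section link
variable {m N : ℕ} {W : ℝ → Matrix (Fin m) (Fin m) ℂ} {γ ε : ℝ} {D : BData W ε N}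
  {Φ Φ' : ℝ → Matrix (Fin N) (Fin m) ℂ} {μ : Fin N → ℝ}

lemma sum_row_unit {T : Matrix (Fin N) (Fin N) ℂ} (h : T * Tᴴ = 1) (i : Fin N) :
    ∑ j, ‖T i j‖ ^ 2 = 1 := by
  have h1 := congrArg Complex.re (congrFun (congrFun h i) i)
  rw [mul_apply] at h1
  simp only [conjTranspose_apply, Complex.star_def, Complex.mul_conj', one_apply_eq,
    Complex.one_re, Complex.re_sum, ← Complex.ofReal_pow, Complex.ofReal_re] at h1
  exact h1

lemma sum_col_unit {T : Matrix (Fin N) (Fin N) ℂ} (h : T * Tᴴ = 1) (j : Fin N) :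
    ∑ i, ‖T i j‖ ^ 2 = 1 := by
  have h' : Tᴴ * Tᴴᴴ = 1 := by
    rw [conjTranspose_conjTranspose]; exact mul_eq_one_comm.1 h
  simpa using sum_row_unit h' j

lemma Link.kd_nonneg (L : Link γ D Φ Φ' μ) (hμ : ∀ i, 0 < μ i) : 0 ≤ L.kd := by
  unfold Link.kd
  split_ifs with h
  · exact le_rfl
  · refine Finset.sum_nonneg fun i _ => Finset.sum_nonneg fun j _ =>
      mul_nonneg (sq_nonneg _) ?_
    have := rpow_tangent_le (not_lt.1 h) (sq_nonneg (D.κ i)) (hμ j).le
    unfold breg; linarith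

lemma Link.klein_case (L : Link γ D Φ Φ' μ) (hγ : 0 < γ) (hμ : ∀ i, 0 < μ i) :
    γ * (rtr (D.K * D.K * (L.C * L.Cᴴ)) - rtr (L.C * rdiag μ * L.Cᴴ)) + L.kd ≤
      ∑ i, D.κ i ^ (2 * γ) - ∑ i, μ i ^ γ := by
  have hκ := D.κ_pos
  have hT := L.T_unit
  have hsq : ∀ i (s : ℝ), (D.κ i ^ 2) ^ s = D.κ i ^ (2 * s) := fun i s => by
    rw [← Real.rpow_two, ← Real.rpow_mul (hκ i).le]
  have hA : ∑ i, D.κ i ^ (2 * γ) = ∑ i, ∑ j, ‖L.T i j‖ ^ 2 * D.κ i ^ (2 * γ) := by
    simp only [← Finset.sum_mul, sum_row_unit hT, one_mul]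
  have hB : ∑ j, μ j ^ γ = ∑ i, ∑ j, ‖L.T i j‖ ^ 2 * μ j ^ γ := by
    rw [Finset.sum_comm]; simp only [← Finset.sum_mul, sum_col_unit hT, one_mul]
  unfold Link.kd
  have hC := L.hC
  split_ifs with h
  · rw [if_pos h] at hC
    have e1 : rtr (D.K * D.K * (L.C * L.Cᴴ)) = ∑ i, D.κ i ^ (2 * γ) := by
      rw [hC, conjTranspose_mul, rdiag_ct, Matrix.mul_assoc (rdiag _), ← Matrix.mul_assoc L.T, hT,
        Matrix.one_mul, BData.K, rdiag_mul, rdiag_mul, rdiag_mul, rtr_rdiag]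
      refine Finset.sum_congr rfl fun i _ => ?_
      rw [← Real.rpow_add (hκ i), ← pow_two, ← Real.rpow_two, ← Real.rpow_add (hκ i)]
      congr 1; ring
    have e2 : rtr (L.C * rdiag μ * L.Cᴴ) =
        ∑ i, ∑ j, ‖L.T i j‖ ^ 2 * (D.κ i ^ (2 * (γ - 1)) * μ j) := by
      rw [← rtr_rdiag_sandwich, hC, conjTranspose_mul, rdiag_ct, ← Matrix.mul_assoc, rtr_mul_comm,
        ← Matrix.mul_assoc, ← Matrix.mul_assoc, ← Matrix.mul_assoc, rdiag_mul]
      simp only [Matrix.mul_assoc]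
      congr 3
      funext i
      rw [← Real.rpow_add (hκ i)]; congr 1; ring
    rw [e1, e2, add_zero]
    rw [hA, hB]
    simp only [Finset.mul_sum, ← Finset.sum_sub_distrib]
    refine Finset.sum_le_sum fun i _ => Finset.sum_le_sum fun j _ => ?_
    have h1 := rpow_le_tangent hγ.le h.le (pow_pos (hκ i) 2) (hμ j).le
    rw [hsq, hsq] at h1
    have h2 : D.κ i ^ (2 * (γ - 1)) * D.κ i ^ 2 = D.κ i ^ (2 * γ) := by
      rw [← Real.rpow_two, ← Real.rpow_add (hκ i)]; congr 1; ring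
    have h3 : γ * (D.κ i ^ (2 * γ) - D.κ i ^ (2 * (γ - 1)) * μ j) ≤
        D.κ i ^ (2 * γ) - μ j ^ γ := by nlinarith
    have := mul_le_mul_of_nonneg_left h3 (sq_nonneg ‖L.T i j‖)
    linarith
  · rw [if_neg h] at hC
    have e0 : ∀ j, μ j ^ ((γ - 1) / 2) * μ j ^ ((γ - 1) / 2) = μ j ^ (γ - 1) := fun j => by
      rw [← Real.rpow_add (hμ j)]; congr 1; ring
    have e1 : rtr (D.K * D.K * (L.C * L.Cᴴ)) =
        ∑ i, ∑ j, ‖L.T i j‖ ^ 2 * (D.κ i ^ 2 * μ j ^ (γ - 1)) := by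
      rw [← rtr_rdiag_sandwich, hC, conjTranspose_mul, rdiag_ct, BData.K, rdiag_mul,
        Matrix.mul_assoc L.T, ← Matrix.mul_assoc (rdiag _) (rdiag _), rdiag_mul]
      simp only [e0, pow_two, Matrix.mul_assoc]
    have e2 : rtr (L.C * rdiag μ * L.Cᴴ) = ∑ i, ∑ j, ‖L.T i j‖ ^ 2 * (μ j ^ (γ - 1) * μ j) := by
      have := rtr_rdiag_sandwich (fun _ => 1) (fun j => μ j ^ (γ - 1) * μ j) L.T
      simp only [one_mul] at this
      rw [← this, rdiag_const, one_smul, Matrix.one_mul, hC, conjTranspose_mul, rdiag_ct]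
      simp only [Matrix.mul_assoc]
      rw [← Matrix.mul_assoc (rdiag μ), rdiag_mul, ← Matrix.mul_assoc (rdiag _), rdiag_mul]
      congr 4
      funext j
      rw [← e0]; ring
    rw [e1, e2, hA, hB]
    simp only [Finset.mul_sum, ← Finset.sum_sub_distrib, ← Finset.sum_add_distrib]
    refine le_of_eq (Finset.sum_congr rfl fun i _ => Finset.sum_congr rfl fun j _ => ?_)
    unfold breg
    rw [hsq]; ring

lemma Link.sq_bound (L : Link γ D Φ Φ' μ) {p : ℝ} (hW : Pot p W) (hp : 1 ≤ p) (hp2 : p ≤ 2)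
    (h : MTrial W Φ Φ' μ) (hab : D.a ≤ D.b) {M : ℝ}
    (hM : ∀ x ∈ Icc D.a D.b, ‖L.C * Φ x‖ ^ 2 ≤ M) :
    L.sq ≤ rtr (D.K * D.K * (L.C * L.Cᴴ)) - rtr (L.C * rdiag μ * L.Cᴴ) +
      L.δ * (∫ x in D.a..D.b, rtr (D.Wc x)) + M * ∫ x in D.a..D.b, ‖W x - D.Wc x‖ := by
  set Z : ℝ → Matrix (Fin N) (Fin m) ℂ := fun x => L.C * Φ x with hZ
  set Z' : ℝ → Matrix (Fin N) (Fin m) ℂ := fun x => L.C * Φ' x with hZ'
  have hΦc : Continuous Φ := continuous_iff_continuousAt.2 fun x => (h.deriv x).continuousAt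
  have hZd : ∀ x, HasDerivAt Z (Z' x) x := fun x => by
    simpa using hda_mul (hasDerivAt_const x L.C) (h.deriv x)
  have hZc : Continuous Z := continuous_const.matrix_mul hΦc
  have hZ'c : Continuous Z' := continuous_const.matrix_mul h.cont'
  have hAc : Continuous D.A :=
    (D.V_cont.matrix_mul D.Wc_cont).matrix_mul D.V_cont.matrix_conjTranspose
  have hs : ∀ x, x ∉ Ioo D.a D.b → Φ x = 0 ∧ Φ' x = 0 := L.supp
  have h1 := complete_square hab hZd hZ'c (by simp [hZ, (hs D.a (by simp)).1])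
    (by simp [hZ, (hs D.b (by simp)).1]) (K := D.K) hAc.continuousOn D.herm D.ode
  obtain ⟨R, hR⟩ := h.supp
  -- integrals over the line
  have iG : Integrable fun x => Φ x * (Φ x)ᴴ :=
    (hΦc.matrix_mul hΦc.matrix_conjTranspose).integrable_of_hasCompactSupport
      (HasCompactSupport.intro (isCompact_Icc (a := D.a) (b := D.b)) fun x hx => by
        simp [(hs x fun h => hx (Ioo_subset_Icc_self h)).1])
  have iG' : Integrable fun x => Φ' x * (Φ' x)ᴴ :=
    (h.cont'.matrix_mul h.cont'.matrix_conjTranspose).integrable_of_hasCompactSupport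
      (HasCompactSupport.intro (isCompact_Icc (a := D.a) (b := D.b)) fun x hx => by
        simp [(hs x fun h => hx (Ioo_subset_Icc_self h)).2])
  have iW : Integrable fun x => Φ x * W x * (Φ x)ᴴ :=
    hW.integrable_sandwich hp hp2 hΦc hΦc.matrix_conjTranspose fun x hx => (hR x hx).1
  have iE : Integrable fun x => Φ' x * (Φ' x)ᴴ - Φ x * W x * (Φ x)ᴴ := iG'.sub iW
  set g : ℝ → ℝ := fun x => rtr (D.K * D.K * (L.C * (Φ x * (Φ x)ᴴ) * L.Cᴴ)) +
    rtr (L.C * (Φ' x * (Φ' x)ᴴ - Φ x * W x * (Φ x)ᴴ) * L.Cᴴ) with hg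
  have ig1 := integrable_mul_left (D.K * D.K) (integrable_mul_right L.Cᴴ (integrable_mul_left L.C iG))
  have ig2 := integrable_mul_right L.Cᴴ (integrable_mul_left L.C iE)
  have ig : Integrable g := (integrable_rtr ig1).add (integrable_rtr ig2)
  have hgi : ∫ x in D.a..D.b, g x =
      rtr (D.K * D.K * (L.C * L.Cᴴ)) - rtr (L.C * rdiag μ * L.Cᴴ) := by
    rw [intervalIntegral.integral_eq_integral_of_support_subset]
    · rw [hg, integral_add (integrable_rtr ig1) (integrable_rtr ig2), integral_rtr ig1,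
        integral_rtr ig2,
        integral_mul_left _ (integrable_mul_right L.Cᴴ (integrable_mul_left L.C iG)),
        integral_mul_right _ (integrable_mul_left L.C iG), integral_mul_left _ iG,
        integral_mul_right _ (integrable_mul_left L.C iE), integral_mul_left _ iE, h.orth, h.energy]
      simp [rtr_neg, sub_eq_add_neg]
    · intro x hx
      by_contra hc
      have := hs x fun h => hc (Ioo_subset_Ioc_self h)
      exact hx (by simp [hg, this.1, this.2, rtr_zero])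
  have iWc : IntervalIntegrable (fun x => rtr (D.Wc x)) volume D.a D.b :=
    (continuous_rtr.comp D.Wc_cont).intervalIntegrable _ _
  have iD : IntervalIntegrable (fun x => ‖W x - D.Wc x‖) volume D.a D.b :=
    ((hW.intervalIntegrable hp hp2 _ _).sub (D.Wc_cont.intervalIntegrable _ _)).norm
  have iL : IntervalIntegrable (fun x => ‖Z' x‖ ^ 2 + rtr ((Z x)ᴴ * (D.K * D.K) * Z x) -
      rtr ((Z x)ᴴ * D.A x * Z x)) volume D.a D.b := by
    refine Continuous.intervalIntegrable ?_ _ _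
    exact ((hZ'c.norm.pow 2).add (continuous_rtr.comp
      ((hZc.matrix_conjTranspose.matrix_mul continuous_const).matrix_mul hZc))).sub
      (continuous_rtr.comp ((hZc.matrix_conjTranspose.matrix_mul hAc).matrix_mul hZc))
  calc L.sq = _ := h1
    _ ≤ ∫ x in D.a..D.b, (g x + L.δ * rtr (D.Wc x) + M * ‖W x - D.Wc x‖) := by
        refine intervalIntegral.integral_mono_on hab iL
          ((ig.intervalIntegrable.add (iWc.const_mul _)).add (iD.const_mul _)) fun x hx => ?_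
        have a1 : rtr (Z x * D.Wc x * (Z x)ᴴ) - L.δ * rtr (D.Wc x) ≤
            rtr ((Z x)ᴴ * D.A x * Z x) := by
          have := pol_lower L.δ_pos (Z x) (D.Wc_psd x)
          rwa [BData.A, L.hV x]
        have a2 : rtr (Z x * W x * (Z x)ᴴ) - rtr (Z x * D.Wc x * (Z x)ᴴ) ≤
            M * ‖W x - D.Wc x‖ := by
          rw [← rtr_sub, ← Matrix.sub_mul, ← Matrix.mul_sub]
          refine (le_abs_self _).trans ((abs_rtr_mul_le _ _).trans ?_)
          rw [norm_ct]
          calc ‖Z x * (W x - D.Wc x)‖ * ‖Z x‖ ≤ (‖Z x‖ * ‖W x - D.Wc x‖) * ‖Z x‖ :=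
                mul_le_mul_of_nonneg_right (norm_mul_le' _ _) (norm_nonneg _)
            _ = ‖Z x‖ ^ 2 * ‖W x - D.Wc x‖ := by ring
            _ ≤ _ := mul_le_mul_of_nonneg_right (hM x hx) (norm_nonneg _)
        have a3 : g x = ‖Z' x‖ ^ 2 + rtr ((Z x)ᴴ * (D.K * D.K) * Z x) -
            rtr (Z x * W x * (Z x)ᴴ) := by
          rw [norm_sq_eq_rtr', Matrix.mul_assoc (Z x)ᴴ, rtr_mul_comm (Z x)ᴴ]
          simp only [hg, hZ, hZ', conjTranspose_mul, Matrix.mul_sub, Matrix.sub_mul, rtr_sub,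
            Matrix.mul_assoc]
          ring
        linarith
    _ = _ := by
        rw [intervalIntegral.integral_add (ig.intervalIntegrable.add (iWc.const_mul _))
          (iD.const_mul _), intervalIntegral.integral_add ig.intervalIntegrable (iWc.const_mul _),
          hgi, intervalIntegral.integral_const_mul, intervalIntegral.integral_const_mul]

end link

end Crest.Agent.R332
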