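import Crest.Agent.R332.Riccati
import Crest.Agent.R332.ConstructAux

/-!
Row 332: Riccati data attached to a matrix trial function (completing the square).
-/

set_option autoImplicit false
set_option linter.unusedSectionVars false

open Matrix MeasureTheory Set Filter Topology Crest.Agent.R342
open scoped ComplexOrder Matrix.Norms.Frobenius

namespace Crest.Agent.R332

variable {m : ℕ} {W : ℝ → Matrix (Fin m) (Fin m) ℂ}

/-- the weight matrix, as a function of the unknown `K` -/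
noncomputable def wgt (γ : ℝ) {N : ℕ} (μ : Fin N → ℝ) (K : Matrix (Fin N) (Fin N) ℂ) :
    Matrix (Fin N) (Fin N) ℂ :=
  if γ < 1 then fc (fun s => s ^ (γ - 1)) K else rdiag fun j => μ j ^ ((γ - 1) / 2)

lemma herm_of_sub_psd {n : Type} [Fintype n] [DecidableEq n] {K : Matrix n n ℂ} {η : ℝ}
    (h : (K - η • (1 : Matrix n n ℂ)).PosSemidef) : K.IsHermitian := by
  have e : K = (K - η • (1 : Matrix n n ℂ)) + rdiag fun _ => η := by rw [rdiag_const]; abel
  rw [e]; exact h.1.add (rdiag_herm _)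

lemma wgt_opLe {γ η : ℝ} (hη : 0 < η) {N : ℕ} {μ : Fin N → ℝ} (hμ : ∀ i, 0 < μ i)
    {K : Matrix (Fin N) (Fin N) ℂ} (hK : (K - η • (1 : Matrix (Fin N) (Fin N) ℂ)).PosSemidef) :
    OpLe (wgt γ μ K) (η ^ (γ - 1) + ∑ j, μ j ^ ((γ - 1) / 2)) := by
  have h1 : 0 ≤ η ^ (γ - 1) := Real.rpow_nonneg hη.le _
  have h2 : 0 ≤ ∑ j, μ j ^ ((γ - 1) / 2) :=
    Finset.sum_nonneg fun j _ => Real.rpow_nonneg (hμ j).le _
  unfold wgt
  split_ifs with h
  · refine opLe_fc (by positivity) fun i => ?_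
    have h3 := (le_ev_iff (herm_of_sub_psd hK) η).2 hK i
    rw [abs_of_nonneg (Real.rpow_nonneg (hη.le.trans h3) _)]
    have := Real.rpow_le_rpow_of_nonpos hη h3 (show γ - 1 ≤ 0 by linarith)
    linarith
  · refine opLe_rdiag (by positivity) fun i => ?_
    rw [abs_of_nonneg (Real.rpow_nonneg (hμ i).le _)]
    have := Finset.single_le_sum (f := fun j => μ j ^ ((γ - 1) / 2))
      (fun j _ => Real.rpow_nonneg (hμ j).le _) (Finset.mem_univ i)
    linarith

lemma wgt_cont {γ η : ℝ} (hη : 0 < η) {N : ℕ} (μ : Fin N → ℝ) :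
    ContinuousOn (wgt γ μ) {K | (K - η • (1 : Matrix (Fin N) (Fin N) ℂ)).PosSemidef} := by
  unfold wgt
  split_ifs with h
  · refine continuousOn_fc (S := Ici η) (f := fun _ s => s ^ (γ - 1)) continuousOn_id
      (fun K hK => herm_of_sub_psd hK) (fun K hK i => (le_ev_iff (herm_of_sub_psd hK) η).2 hK i) ?_
    refine continuous_snd.continuousOn.rpow_const fun q hq => Or.inl ?_
    have : η ≤ q.2 := hq.2
    exact (hη.trans_le this).ne'
  · exact continuousOn_const

theorem construct {γ : ℝ} (hγ : 1 / 2 < γ) (hγ' : γ < 3 / 2) (hW : Pot (γ + 1 / 2) W) {N : ℕ}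
    {Φ Φ' : ℝ → Matrix (Fin N) (Fin m) ℂ} {μ : Fin N → ℝ} (h : MTrial W Φ Φ' μ) {ε : ℝ}
    (hε : 0 < ε) :
    ∃ (D : BData W ε N) (L : Link γ D Φ Φ' μ),
      (∫ x in D.a..D.b, trp (γ + 1 / 2) (D.Wc x)) ≤ (∫ x, trp (γ + 1 / 2) (W x)) + ε ∧
      0 ≤ L.kd ∧ γ * L.sq + L.kd ≤ ∑ i, D.κ i ^ (2 * γ) - ∑ i, μ i ^ γ + ε := by
  have hp : 1 ≤ γ + 1 / 2 := by linarith
  have hp2 : γ + 1 / 2 ≤ 2 := by linarith
  obtain ⟨R, hR⟩ := h.supp
  set b : ℝ := |R| + ε⁻¹ with hb
  have hεi : 0 < ε⁻¹ := inv_pos.2 hε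
  have hb0 : 0 < b := by positivity
  have hab : -b ≤ b := by linarith
  have hsupp : ∀ x, x ∉ Ioo (-b) b → Φ x = 0 ∧ Φ' x = 0 := by
    intro x hx
    refine hR x ?_
    have h1 : b ≤ |x| := by
      by_contra hc
      exact hx (abs_lt.1 (not_le.1 hc))
    linarith [le_abs_self R]
  set η : ℝ := ε / (N + 1) with hη
  have hη0 : 0 < η := by positivity
  have hΦc : Continuous Φ := continuous_iff_continuousAt.2 fun x => (h.deriv x).continuousAt
  obtain ⟨MΦ, hMΦ⟩ := isCompact_Icc.exists_bound_of_continuousOn (hΦc.continuousOn (s := Icc (-b) b))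
  set cη : ℝ := η ^ (γ - 1) + ∑ j, μ j ^ ((γ - 1) / 2) with hcη
  set M : ℝ := (cη * MΦ) ^ 2 with hM
  have hM0 : 0 ≤ M := sq_nonneg _
  obtain ⟨Wc, hWc, hWp, hW1, hW2⟩ := hW.exists_cont_approx hp hp2 hab
    (ε := min ε (ε / (4 * (M + 1)))) (by positivity)
  set I : ℝ := ∫ x in (-b)..b, rtr (Wc x) with hI
  have hI0 : 0 ≤ I := intervalIntegral.integral_nonneg hab fun x _ => rtr_nonneg (hWp x)
  set δ : ℝ := min ε (ε / (4 * (I + 1))) with hδ
  have hδ0 : 0 < δ := by positivity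
  obtain ⟨B, hB⟩ := isCompact_Icc.exists_bound_of_continuousOn
    ((continuous_rtr.comp hWc).continuousOn (s := Icc (-b) b))
  obtain ⟨K, F, hK, hode, hKF, hFa, hFb⟩ := exists_riccati (B := B) hab hη0
    (fun K x => pol δ (wgt γ μ K * Φ x) * Wc x * (pol δ (wgt γ μ K * Φ x))ᴴ)
    (by
      have h1 : ContinuousOn (fun q : Matrix (Fin N) (Fin N) ℂ × ℝ => pol δ (wgt γ μ q.1 * Φ q.2))
          ({K | (K - η • (1 : Matrix (Fin N) (Fin N) ℂ)).PosSemidef} ×ˢ Icc (-b) b) :=
        continuousOn_pol hδ0 (continuousOn_matMul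
          ((wgt_cont hη0 μ).comp continuous_fst.continuousOn fun q hq => hq.1)
          (hΦc.comp continuous_snd).continuousOn)
      exact continuousOn_matMul (continuousOn_matMul h1 (hWc.comp continuous_snd).continuousOn)
        (continuousOn_ct h1))
    (fun K _ x hx => ⟨(hWp x).mul_mul_conjTranspose_same _,
      (rtr_compress_le (opLe_pol hδ0 _) (hWp x)).trans ((le_abs_self _).trans (hB x hx))⟩)
  have hKh := herm_of_sub_psd hK
  obtain ⟨U, κ, hU1, hU2, hanti, hκev, hKU⟩ := exists_sorted_diag hKh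
  have hκη : ∀ i, η ≤ κ i := fun i => by
    obtain ⟨j, hj⟩ := hκev i
    rw [hj]; exact (le_ev_iff hKh η).2 hK j
  have hU1' : Uᴴᴴ * Uᴴ = 1 := by rw [conjTranspose_conjTranspose, hU2]
  have hU2' : Uᴴ * Uᴴᴴ = 1 := by rw [conjTranspose_conjTranspose, hU1]
  have hKd : Uᴴ * K * U = rdiag κ := by
    rw [hKU]
    calc Uᴴ * (U * rdiag κ * Uᴴ) * U = (Uᴴ * U) * rdiag κ * (Uᴴ * U) := by
          simp only [Matrix.mul_assoc]
      _ = _ := by rw [hU1]; simp
  have hmul : ∀ X Y : Matrix (Fin N) (Fin N) ℂ,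
      (Uᴴ * X * U) * (Uᴴ * Y * U) = Uᴴ * (X * Y) * U := fun X Y => by
    calc (Uᴴ * X * U) * (Uᴴ * Y * U) = Uᴴ * X * (U * Uᴴ) * Y * U := by
          simp only [Matrix.mul_assoc]
      _ = _ := by rw [hU2]; simp only [Matrix.mul_one, Matrix.mul_assoc]
  have hVc : Continuous fun x => pol δ (wgt γ μ K * Φ x) :=
    continuousOn_univ.1 (continuousOn_pol hδ0 (continuous_const.matrix_mul hΦc).continuousOn)
  let D : BData W ε N :=
    { a := -b, b := b, η := η, κ := κ, F := fun x => Uᴴ * F x * U, Wc := Wc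
      V := fun x => Uᴴ * pol δ (wgt γ μ K * Φ x)
      ha := by linarith [abs_nonneg R]
      hb := by linarith [abs_nonneg R]
      η_pos := hη0
      η_le := by rw [hη, div_mul_cancel₀ _ (by positivity)]
      anti := hanti
      κ_pos := fun i => hη0.trans_le (hκη i)
      herm := fun x hx => by
        have e : F x = K - (K - F x) := by abel
        exact isHermitian_conjTranspose_mul_mul _ (e ▸ hKh.sub (hKF x hx).1.1)
      up := fun x hx => by
        rw [← hKd, ← Matrix.sub_mul, ← Matrix.mul_sub]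
        exact (hKF x hx).1.conjTranspose_mul_mul_same U
      lo := fun x hx => by
        rw [← hKd, ← Matrix.add_mul, ← Matrix.mul_add]
        exact (hKF x hx).2.conjTranspose_mul_mul_same U
      Wc_cont := hWc
      Wc_psd := hWp
      V_cont := continuous_const.matrix_mul hVc
      V_le := fun x => by
        simpa using (opLe_of_isometry hU1').mul (opLe_pol hδ0 (wgt γ μ K * Φ x))
      Wc_close := hW1.trans (min_le_left _ _)
      ode := fun x hx => by
        have := hdw_mul (hdw_mul (hasDerivWithinAt_const x (Icc (-b) b) Uᴴ) (hode x hx))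
          (hasDerivWithinAt_const x (Icc (-b) b) U)
        convert this using 1
        rw [← hKd, Umat, hmul, hmul, Umat]
        simp only [Matrix.zero_mul, Matrix.mul_zero, zero_add, add_zero, Matrix.mul_sub,
          Matrix.sub_mul, conjTranspose_mul, conjTranspose_conjTranspose, Matrix.mul_assoc]
      Fa := by simp only [hFa, hKd]
      Fb := by
        simp only [hFb, Matrix.mul_add, Matrix.add_mul, Matrix.mul_neg, Matrix.neg_mul, hKd,
          Matrix.mul_smul, Matrix.smul_mul, Matrix.mul_one, hU1] }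
  let L : Link γ D Φ Φ' μ :=
    { C := Uᴴ * wgt γ μ K, T := Uᴴ, δ := δ
      δ_pos := hδ0
      δ_le := min_le_left _ _
      T_unit := hU2'
      supp := hsupp
      hV := fun x => by
        have := pol_conj δ hU1' hU2' (wgt γ μ K * Φ x)
        rw [← Matrix.mul_assoc] at this
        exact this.symm
      hC := by
        unfold wgt
        split_ifs with hc
        · rw [hKU, fc_conj _ hU1 hU2 (rdiag_herm _), fc_rdiag, ← Matrix.mul_assoc,
            ← Matrix.mul_assoc, hU1, Matrix.one_mul]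
        · rfl }
  refine ⟨D, L, hW2.trans (by gcongr; exact min_le_left _ _), L.kd_nonneg h.pos, ?_⟩
  have k1 := L.klein_case (by linarith) h.pos
  have k2 := L.sq_bound hW hp hp2 h hab (M := M) fun x hx => by
    have a1 : ‖Uᴴ * wgt γ μ K * Φ x‖ ≤ cη * MΦ := by
      rw [Matrix.mul_assoc, norm_isometry_mul hU1']
      exact ((wgt_opLe hη0 h.pos hK).norm_mul_le _).trans
        (mul_le_mul_of_nonneg_left (hMΦ x hx) (wgt_opLe hη0 h.pos hK).1)
    exact pow_le_pow_left₀ (norm_nonneg _) a1 2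
  have k3 : L.δ * (∫ x in D.a..D.b, rtr (D.Wc x)) ≤ ε / 4 := by
    change δ * I ≤ ε / 4
    calc δ * I ≤ ε / (4 * (I + 1)) * (I + 1) :=
          mul_le_mul (min_le_right _ _) (by linarith) hI0 (by positivity)
      _ = ε / 4 := by field_simp
  have k4 : M * (∫ x in D.a..D.b, ‖W x - D.Wc x‖) ≤ ε / 4 := by
    change M * (∫ x in (-b)..b, ‖W x - Wc x‖) ≤ ε / 4
    calc M * (∫ x in (-b)..b, ‖W x - Wc x‖) ≤ (M + 1) * (ε / (4 * (M + 1))) :=
          mul_le_mul (by linarith) (hW1.trans (min_le_right _ _))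
            (intervalIntegral.integral_nonneg hab fun x _ => norm_nonneg _) (by positivity)
      _ = ε / 4 := by field_simp
  have k5 : L.sq ≤ rtr (D.K * D.K * (L.C * L.Cᴴ)) - rtr (L.C * rdiag μ * L.Cᴴ) + ε / 2 := by
    linarith
  have k6 := mul_le_mul_of_nonneg_left k5 (show 0 ≤ γ by linarith)
  nlinarith

end Crest.Agent.R332
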