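import Crest.Agent.R332.Mat

/-!
Row 332: the derivative of `wfun` in the parameter `t`.
-/

set_option autoImplicit false
set_option linter.unusedSectionVars false

open Matrix MeasureTheory Set Filter Topology Crest.Agent.R342
open scoped ComplexOrder Matrix.Norms.Frobenius

namespace Crest.Agent.R332

section dlog
variable {n : Type} [Fintype n] [DecidableEq n]

/-- rank-one spectral projections -/
noncomputable def dlP (B : Matrix n n ℂ) (j : n) : Matrix n n ℂ :=
  eU B * rdiag (Pi.single j 1) * (eU B)ᴴ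

lemma dl_conj_mul (B : Matrix n n ℂ) (v w : n → ℝ) :
    eU B * rdiag v * (eU B)ᴴ * (eU B * rdiag w * (eU B)ᴴ) =
      eU B * rdiag (fun i => v i * w i) * (eU B)ᴴ := by
  rw [← rdiag_mul]
  calc eU B * rdiag v * (eU B)ᴴ * (eU B * rdiag w * (eU B)ᴴ)
      = eU B * (rdiag v * ((eU B)ᴴ * eU B) * rdiag w) * (eU B)ᴴ := by
        simp only [Matrix.mul_assoc]
    _ = _ := by rw [eU_mul', Matrix.mul_one]

lemma dl_fc_mul_P (f : ℝ → ℝ) (B : Matrix n n ℂ) (j : n) :
    fc f B * dlP B j = f (ev B j) • dlP B j := by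
  rw [fc_eq, dlP, dl_conj_mul, ← Matrix.smul_mul, ← Matrix.mul_smul, rdiag_smul]
  congr 3
  funext i
  by_cases h : i = j
  · subst h; simp
  · simp [h]

lemma dl_P_mul_fc (f : ℝ → ℝ) (B : Matrix n n ℂ) (j : n) :
    dlP B j * fc f B = f (ev B j) • dlP B j := by
  rw [fc_eq, dlP, dl_conj_mul, ← Matrix.smul_mul, ← Matrix.mul_smul, rdiag_smul]
  congr 3
  funext i
  by_cases h : i = j
  · subst h; simp
  · simp [h]

lemma dl_P_mul_P (B : Matrix n n ℂ) (i j : n) :
    dlP B i * dlP B j = if i = j then dlP B i else 0 := by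
  rw [dlP, dlP, dl_conj_mul]
  split_ifs with h
  · subst h
    congr 3
    funext l
    by_cases h : l = i
    · subst h; simp
    · simp [h]
  · have : (fun l => (Pi.single i 1 : n → ℝ) l * (Pi.single j 1 : n → ℝ) l) = fun _ => 0 := by
      funext l
      by_cases h1 : l = i
      · subst h1; simp [h]
      · simp [h1]
    rw [this, rdiag_const]
    simp

lemma dl_sum_P (B : Matrix n n ℂ) : ∑ j, dlP B j = 1 := by
  unfold dlP
  rw [← Matrix.sum_mul, ← Matrix.mul_sum]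
  have : ∑ j, rdiag (Pi.single j 1 : n → ℝ) = (1 : Matrix n n ℂ) := by
    ext a b
    rw [Matrix.sum_apply]
    by_cases h : a = b
    · subst h
      simp [rdiag, Pi.single_apply, apply_ite]
    · simp [rdiag, h]
  rw [this, Matrix.mul_one, eU_mul]

lemma dl_fc_eq_sum (f : ℝ → ℝ) (B : Matrix n n ℂ) : fc f B = ∑ j, f (ev B j) • dlP B j := by
  conv_lhs => rw [← Matrix.mul_one (fc f B), ← dl_sum_P B, Matrix.mul_sum]
  exact Finset.sum_congr rfl fun j _ => dl_fc_mul_P f B j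

lemma dl_fc_sub (f : ℝ → ℝ) {A B : Matrix n n ℂ} (hA : A.IsHermitian) (hB : B.IsHermitian) :
    fc f A - fc f B = ∑ j, fc (dslope f (ev B j)) A * (A - B) * dlP B j := by
  conv_lhs => rw [← Matrix.mul_one (fc f A - fc f B), ← dl_sum_P B, Matrix.mul_sum]
  refine Finset.sum_congr rfl fun j _ => ?_
  have h1 : B * dlP B j = ev B j • dlP B j := by
    have := dl_fc_mul_P (fun t => t) B j
    rwa [fc_id hB] at this
  have h2 : fc (dslope f (ev B j)) A * A - ev B j • fc (dslope f (ev B j)) A =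
      fc f A - f (ev B j) • (1 : Matrix n n ℂ) := by
    rw [fc_mul_self hA, fc_smul, fc_sub, ← fc_const _ A, fc_sub]
    refine fc_congr fun i => ?_
    have := sub_smul_dslope f (ev B j) (ev A i)
    rw [smul_eq_mul] at this
    linarith
  rw [Matrix.sub_mul, dl_fc_mul_P, Matrix.mul_sub, Matrix.sub_mul, Matrix.mul_assoc _ B, h1,
    Matrix.mul_smul, ← Matrix.smul_mul, ← Matrix.sub_mul, h2, Matrix.sub_mul, Matrix.smul_mul,
    Matrix.one_mul]

/-- Daleckii-Krein formula. -/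
lemma dl_hasDerivAt (f : ℝ → ℝ) {X : ℝ → Matrix n n ℂ} {H : Matrix n n ℂ} {t : ℝ}
    (hX : HasDerivAt X H t) (hh : ∀ s, (X s).IsHermitian)
    (hf : ∀ j, DifferentiableAt ℝ f (ev (X t) j)) :
    HasDerivAt (fun s => fc f (X s))
      (∑ j, fc (dslope f (ev (X t) j)) (X t) * H * dlP (X t) j) t := by
  have hc : Tendsto X (𝓝[≠] t) (𝓝 (X t)) :=
    hX.continuousAt.tendsto.mono_left nhdsWithin_le_nhds
  replace hX := hasDerivAt_iff_tendsto_slope.1 hX
  refine hasDerivAt_iff_tendsto_slope.2 ?_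
  have e : slope (fun s => fc f (X s)) t =
      fun s => ∑ j, fc (dslope f (ev (X t) j)) (X s) * slope X t s * dlP (X t) j := by
    funext s
    rw [slope_def_module, dl_fc_sub f (hh s) (hh t), Finset.smul_sum]
    refine Finset.sum_congr rfl fun j _ => ?_
    rw [slope_def_module, Matrix.mul_smul, Matrix.smul_mul]
  rw [e]
  refine tendsto_finsetSum _ fun j _ => ?_
  have h1 : Tendsto (fun s => fc (dslope f (ev (X t) j)) (X s)) (𝓝[≠] t)
      (𝓝 (fc (dslope f (ev (X t) j)) (X t))) := by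
    refine tendsto_fc (f := fun _ => dslope f (ev (X t) j)) hc (Eventually.of_forall hh) (hh t)
      fun i => ?_
    have hcont : ContinuousAt (dslope f (ev (X t) j)) (ev (X t) i) := by
      by_cases h : ev (X t) i = ev (X t) j
      · rw [h]; exact continuousAt_dslope_same.2 (hf j)
      · exact (continuousAt_dslope_of_ne h).2 (hf i).continuousAt
    exact hcont.tendsto.comp tendsto_snd
  exact (h1.mul hX).mul tendsto_const_nhds

/-- antiderivative of `s (1/(x+s) - 1/(y+s))²` vanishing at infinity -/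
noncomputable def dlPhi (x y s : ℝ) : ℝ :=
  if x = y then 0 else
    x / (x + s) + y / (y + s) + (x + y) / (x - y) * (Real.log (y + s) - Real.log (x + s))

lemma dlPhi_deriv {x y s : ℝ} (hx : 0 < x) (hy : 0 < y) (hs : 0 ≤ s) :
    HasDerivAt (dlPhi x y) (s * ((x + s)⁻¹ - (y + s)⁻¹) ^ 2) s := by
  unfold dlPhi
  by_cases h : x = y
  · subst h
    simpa using hasDerivAt_const s (0 : ℝ)
  · simp only [if_neg h]
    have hxs : x + s ≠ 0 := by positivity
    have hys : y + s ≠ 0 := by positivity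
    have hxy : x - y ≠ 0 := sub_ne_zero.2 h
    have a1 : HasDerivAt (fun s => x + s) 1 s := (hasDerivAt_id s).const_add x
    have a2 : HasDerivAt (fun s => y + s) 1 s := (hasDerivAt_id s).const_add y
    have := (((hasDerivAt_const s x).div a1 hxs).add ((hasDerivAt_const s y).div a2 hys)).add
      (((a2.log hys).sub (a1.log hxs)).const_mul ((x + y) / (x - y)))
    refine this.congr_deriv ?_
    field_simp
    ring

lemma dlPhi_tendsto {x y : ℝ} (hx : 0 < x) (hy : 0 < y) :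
    Tendsto (dlPhi x y) atTop (𝓝 0) := by
  unfold dlPhi
  by_cases h : x = y
  · simp [h]
  · simp only [if_neg h]
    have t1 : ∀ a b : ℝ, Tendsto (fun s => a / (b + s)) atTop (𝓝 0) := fun a b =>
      tendsto_const_nhds.div_atTop (tendsto_atTop_add_const_left _ b tendsto_id)
    have t2 : Tendsto (fun s => Real.log (y + s) - Real.log (x + s)) atTop (𝓝 0) := by
      have h1 : Tendsto (fun s => Real.log (1 + (y - x) / (x + s))) atTop (𝓝 0) := by
        have := ((t1 (y - x) x).const_add 1).log (by norm_num)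
        simpa using this
      refine h1.congr' ?_
      filter_upwards [eventually_ge_atTop 0] with s hs
      have hxs : x + s ≠ 0 := by positivity
      have hys : y + s ≠ 0 := by positivity
      rw [← Real.log_div hys hxs]
      congr 1
      field_simp
      ring
    simpa using ((t1 x x).add (t1 y y)).add (t2.const_mul ((x + y) / (x - y)))

lemma dlPhi_zero {x y : ℝ} (hx : 0 < x) (hy : 0 < y) :
    (x + y) * dslope Real.log y x = 2 - dlPhi x y 0 := by
  unfold dlPhi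
  by_cases h : x = y
  · subst h
    rw [dslope_same, Real.deriv_log, if_pos rfl]
    field_simp
    ring
  · have hxy : x - y ≠ 0 := sub_ne_zero.2 h
    rw [if_neg h, dslope_of_ne _ h, slope_def_field, add_zero, add_zero]
    field_simp
    ring

lemma dl_mono {Ψ Ψ' : ℝ → ℝ} {c : ℝ} (hd : ∀ s, 0 ≤ s → HasDerivAt Ψ (Ψ' s) s)
    (hneg : ∀ s, 0 ≤ s → Ψ' s ≤ 0) (hc : ∀ s, 1 ≤ s → s ≤ 2 → Ψ' s ≤ -c)
    (hlim : Tendsto Ψ atTop (𝓝 0)) : c ≤ Ψ 0 := by
  have hanti : AntitoneOn Ψ (Ici 0) := by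
    refine antitoneOn_of_deriv_nonpos (convex_Ici 0)
      (fun s hs => (hd s hs).continuousAt.continuousWithinAt)
      (fun s hs => (hd s (interior_subset hs)).differentiableAt.differentiableWithinAt)
      fun s hs => ?_
    rw [(hd s (interior_subset hs)).deriv]
    exact hneg s (interior_subset hs)
  have h2 : 0 ≤ Ψ 2 := by
    refine le_of_tendsto hlim ?_
    filter_upwards [eventually_ge_atTop 2] with s hs
    exact hanti (by norm_num : (2 : ℝ) ∈ Ici 0) (show (0 : ℝ) ≤ s by linarith) hs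
  have h1 : Ψ 1 ≤ Ψ 0 := hanti (le_refl (0 : ℝ)) (by norm_num : (1 : ℝ) ∈ Ici 0) zero_le_one
  obtain ⟨s, hs, hsl⟩ := exists_hasDerivAt_eq_slope Ψ Ψ' (by norm_num : (1 : ℝ) < 2)
    (fun s hs => (hd s (by linarith [hs.1])).continuousAt.continuousWithinAt)
    (fun s hs => hd s (by linarith [hs.1]))
  have := hc s hs.1.le hs.2.le
  rw [hsl] at this
  norm_num at this
  linarith

lemma dl_comm_ineq {k : n → ℝ} {kT : ℝ} (hkT0 : 0 < kT) (hk : ∀ i, 0 < k i) (hkT : ∀ i, k i ≤ kT)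
    {R : Matrix n n ℂ} (hR : R.IsHermitian) :
    2 * rtr (R * R) - 2 * rtr (R * rdiag k * R * rdiag fun i => (k i)⁻¹) ≤
      -(kT⁻¹ ^ 2 * ‖comm R (rdiag k)‖ ^ 2) := by
  set K := rdiag k with hK
  set G := rdiag fun i => (k i)⁻¹ with hG
  set C := comm R K with hC
  have hKG : K * G = 1 := by
    rw [hK, hG, rdiag_mul]
    simp only [mul_inv_cancel₀ (hk _).ne']
    rw [rdiag_const, one_smul]
  have hGK : G * K = 1 := by
    rw [hK, hG, rdiag_mul]
    simp only [inv_mul_cancel₀ (hk _).ne']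
    rw [rdiag_const, one_smul]
  have hCt : Cᴴ = K * R - R * K := by
    rw [hC, comm, conjTranspose_sub, conjTranspose_mul, conjTranspose_mul, hR.eq, hK, rdiag_ct]
  have hGp : G.PosSemidef := (rdiag_psd_iff _).2 fun i => (inv_pos.2 (hk i)).le
  have hGl : (G - kT⁻¹ • (1 : Matrix n n ℂ)).PosSemidef := by
    rw [← rdiag_const, hG, rdiag_sub]
    exact (rdiag_psd_iff _).2 fun i => sub_nonneg.2 (inv_anti₀ (hk i) (hkT i))
  have h1 : rtr (Cᴴ * G * C * G) = 2 * rtr (R * K * R * G) - 2 * rtr (R * R) := by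
    have e : Cᴴ * G * C * G = K * (R * G * R) * (K * G) - K * R * (G * K) * R * G
        - R * (K * G) * R * (K * G) + R * (K * G) * K * R * G := by
      rw [hCt, hC, comm]
      simp only [Matrix.mul_sub, Matrix.sub_mul, Matrix.mul_assoc]
      abel
    rw [e, hKG, hGK]
    simp only [Matrix.mul_one]
    rw [rtr_add, rtr_sub, rtr_sub]
    have e1 : rtr (K * (R * G * R)) = rtr (R * K * R * G) := by
      rw [show K * (R * G * R) = K * R * G * R by simp only [Matrix.mul_assoc], rtr_mul_comm]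
      simp only [Matrix.mul_assoc]
    have e2 : rtr (K * R * R * G) = rtr (R * R) := by
      rw [rtr_mul_comm, ← Matrix.mul_assoc, ← Matrix.mul_assoc, hGK, Matrix.one_mul]
    rw [e1, e2]; ring
  have h2 : kT⁻¹ * rtr (Cᴴ * G * C) ≤ rtr (Cᴴ * G * C * G) := by
    have := rtr_mul_mono (hGp.conjTranspose_mul_mul_same C) hGl
    rwa [Matrix.mul_smul, Matrix.mul_one, rtr_smul] at this
  have h3 : kT⁻¹ * ‖C‖ ^ 2 ≤ rtr (Cᴴ * G * C) := by
    have := rtr_mul_mono (posSemidef_self_mul_conjTranspose C) hGl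
    rw [Matrix.mul_smul, Matrix.mul_one, rtr_smul, ← norm_sq_eq_rtr'] at this
    rw [rtr_mul_comm, ← Matrix.mul_assoc]
    exact this
  have h4 : kT⁻¹ * (kT⁻¹ * ‖C‖ ^ 2) ≤ kT⁻¹ * rtr (Cᴴ * G * C) :=
    mul_le_mul_of_nonneg_left h3 (inv_pos.2 hkT0).le
  nlinarith

lemma dl_comm_res {X K : Matrix n n ℂ} (hX : X.IsHermitian) {M s : ℝ} (hs : 0 ≤ s) (hM : 0 ≤ M)
    (hpos : ∀ i, 0 < ev X i) (hub : ∀ i, ev X i ≤ M) :
    ‖comm K X‖ ≤ (M + s) ^ 2 * ‖comm (fc (fun x => (x + s)⁻¹) X) K‖ := by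
  set R := fc (fun x => (x + s)⁻¹) X with hR
  set Y := fc (fun x => x + s) X with hY
  have hne : ∀ i, ev X i + s ≠ 0 := fun i => by have := hpos i; positivity
  have hYR : Y * R = 1 := by
    rw [hY, hR, fc_mul, ← fc_one X]
    exact fc_congr fun i => mul_inv_cancel₀ (hne i)
  have hRY : R * Y = 1 := by
    rw [hY, hR, fc_mul, ← fc_one X]
    exact fc_congr fun i => inv_mul_cancel₀ (hne i)
  have hY2 : Y = X + s • (1 : Matrix n n ℂ) := by
    rw [hY, ← fc_const s X, ← fc_add, fc_id hX]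
  have hop : OpLe Y (M + s) := opLe_fc (by positivity) fun i => by
    have := hpos i
    have := hub i
    rw [abs_of_pos (by positivity)]; linarith
  have e : comm K X = Y * comm R K * Y := by
    have : Y * comm R K * Y = Y * R * K * Y - Y * K * (R * Y) := by
      simp only [comm, Matrix.mul_sub, Matrix.sub_mul, Matrix.mul_assoc]
    rw [this, hYR, hRY, Matrix.one_mul, Matrix.mul_one, hY2, comm]
    simp [Matrix.mul_add, Matrix.add_mul]
  rw [e]
  calc ‖Y * comm R K * Y‖ ≤ (M + s) * ‖Y * comm R K‖ := hop.norm_mul_le' _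
    _ ≤ (M + s) * ((M + s) * ‖comm R K‖) :=
        mul_le_mul_of_nonneg_left (hop.norm_mul_le _) (by positivity)
    _ = _ := by ring

lemma dl_key {k : n → ℝ} {kT : ℝ} (hkT0 : 0 < kT) (hk : ∀ i, 0 < k i) (hkT : ∀ i, k i ≤ kT)
    {X : Matrix n n ℂ} (hX : X.IsHermitian) (hpos : ∀ i, 0 < ev X i)
    (hub : ∀ i, ev X i ≤ 2 * kT) :
    rtr ((X * rdiag k + rdiag k * X - X * X) *
      ∑ j, fc (dslope Real.log (ev X j)) X * (rdiag fun i => (2 * k i)⁻¹) * dlP X j) ≤
      Fintype.card n - 1 / 2 * rtr (X * rdiag fun i => (k i)⁻¹) -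
        1 / 2 * (kT⁻¹ ^ 2 * ((2 * kT + 2) ^ 4)⁻¹) * ‖comm (rdiag k) X‖ ^ 2 := by
  set K := rdiag k with hK
  set G := rdiag fun i => (k i)⁻¹ with hG
  set b := ev X with hb
  set P := dlP X with hP
  have hKG : K * G = 1 := by
    rw [hK, hG, rdiag_mul]
    simp only [mul_inv_cancel₀ (hk _).ne']
    rw [rdiag_const, one_smul]
  have hGK : G * K = 1 := by
    rw [hK, hG, rdiag_mul]
    simp only [inv_mul_cancel₀ (hk _).ne']
    rw [rdiag_const, one_smul]
  have hH : (rdiag fun i => (2 * k i)⁻¹) = (1 / 2 : ℝ) • G := by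
    rw [hG, rdiag_smul]
    congr 1
    funext i
    rw [mul_inv]; norm_num
  have hXP : ∀ j, X * P j = b j • P j := fun j => by
    have := dl_fc_mul_P (fun t => t) X j
    rwa [fc_id hX] at this
  have hPX : ∀ j, P j * X = b j • P j := fun j => by
    have := dl_P_mul_fc (fun t => t) X j
    rwa [fc_id hX] at this
  set c : n → n → ℝ := fun i j => rtr (P j * K * P i * G) with hc
  -- quadratic form identity
  have hQ : ∀ r : ℝ → ℝ, ∑ i, ∑ j, (r (b i) - r (b j)) ^ 2 * c i j =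
      2 * rtr (fc r X * fc r X) - 2 * rtr (fc r X * K * fc r X * G) := by
    intro r
    have s1 : ∀ i, ∑ j, c i j = rtr (P i) := fun i => by
      simp only [hc]
      rw [← rtr_sum, ← Matrix.sum_mul, ← Matrix.sum_mul, ← Matrix.sum_mul, hP, dl_sum_P,
        Matrix.one_mul, rtr_mul_comm, ← Matrix.mul_assoc, hGK, Matrix.one_mul]
    have s2 : ∀ j, ∑ i, c i j = rtr (P j) := fun j => by
      simp only [hc]
      rw [← rtr_sum, ← Matrix.sum_mul, ← Matrix.mul_sum, hP, dl_sum_P, Matrix.mul_one,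
        Matrix.mul_assoc, hKG, Matrix.mul_one]
    have s3 : rtr (fc r X * fc r X) = ∑ i, r (b i) ^ 2 * rtr (P i) := by
      rw [fc_mul, dl_fc_eq_sum, rtr_sum]
      exact Finset.sum_congr rfl fun i _ => by rw [rtr_smul, sq]
    have s4 : rtr (fc r X * K * fc r X * G) = ∑ i, ∑ j, r (b i) * r (b j) * c i j := by
      rw [dl_fc_eq_sum r X, Matrix.mul_sum, Matrix.sum_mul, rtr_sum]
      refine Finset.sum_congr rfl fun i _ => ?_
      rw [Matrix.sum_mul, Matrix.sum_mul, Matrix.sum_mul, rtr_sum]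
      refine Finset.sum_congr rfl fun j _ => ?_
      simp only [Matrix.smul_mul, Matrix.mul_smul, rtr_smul, hc]
      ring
    have s5 : ∑ i, ∑ j, r (b i) ^ 2 * c i j = ∑ i, r (b i) ^ 2 * rtr (P i) :=
      Finset.sum_congr rfl fun i _ => by rw [← Finset.mul_sum, s1]
    have s6 : ∑ i, ∑ j, r (b j) ^ 2 * c i j = ∑ i, r (b i) ^ 2 * rtr (P i) := by
      rw [Finset.sum_comm]
      exact Finset.sum_congr rfl fun j _ => by rw [← Finset.mul_sum, s2]
    rw [s3, s4, two_mul (∑ i, r (b i) ^ 2 * rtr (P i))]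
    nth_rewrite 1 [← s5]
    rw [← s6, Finset.mul_sum, ← Finset.sum_add_distrib, ← Finset.sum_sub_distrib]
    refine Finset.sum_congr rfl fun i _ => ?_
    rw [Finset.mul_sum, ← Finset.sum_add_distrib, ← Finset.sum_sub_distrib]
    exact Finset.sum_congr rfl fun j _ => by ring
  -- the monotonicity estimate
  have hmono : kT⁻¹ ^ 2 * ((2 * kT + 2) ^ 4)⁻¹ * ‖comm K X‖ ^ 2 ≤
      ∑ i, ∑ j, dlPhi (b i) (b j) 0 * c i j := by
    refine dl_mono (Ψ := fun s => ∑ i, ∑ j, dlPhi (b i) (b j) s * c i j)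
      (Ψ' := fun s => s * ∑ i, ∑ j, ((b i + s)⁻¹ - (b j + s)⁻¹) ^ 2 * c i j) ?_ ?_ ?_ ?_
    · intro s hs
      have := HasDerivAt.fun_sum (u := Finset.univ) fun i _ =>
        HasDerivAt.fun_sum (u := Finset.univ) fun j _ =>
          (dlPhi_deriv (hpos i) (hpos j) hs).mul_const (c i j)
      refine this.congr_deriv ?_
      simp only [Finset.mul_sum, mul_assoc]
    · intro s hs
      refine mul_nonpos_of_nonneg_of_nonpos hs ?_
      rw [hQ fun x => (x + s)⁻¹]
      refine (dl_comm_ineq hkT0 hk hkT (fc_herm _ _)).trans ?_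
      rw [neg_nonpos]; positivity
    · intro s h1 h2
      rw [hQ fun x => (x + s)⁻¹]
      have a1 := dl_comm_ineq hkT0 hk hkT (fc_herm (fun x => (x + s)⁻¹) X)
      have a2 := dl_comm_res (K := K) hX (by linarith : 0 ≤ s) (by positivity : 0 ≤ 2 * kT) hpos hub
      rw [← hK, ← hG] at a1
      set u := ‖comm (fc (fun x => (x + s)⁻¹) X) K‖
      have hu : 0 ≤ u := norm_nonneg _
      have a3 : ‖comm K X‖ ^ 2 ≤ (2 * kT + 2) ^ 4 * u ^ 2 := by
        have : ‖comm K X‖ ≤ (2 * kT + 2) ^ 2 * u := a2.trans (by gcongr)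
        calc ‖comm K X‖ ^ 2 ≤ ((2 * kT + 2) ^ 2 * u) ^ 2 := by gcongr
          _ = _ := by ring
      have a4 : kT⁻¹ ^ 2 * ((2 * kT + 2) ^ 4)⁻¹ * ‖comm K X‖ ^ 2 ≤ kT⁻¹ ^ 2 * u ^ 2 := by
        rw [mul_assoc]
        refine mul_le_mul_of_nonneg_left ?_ (by positivity)
        rw [inv_mul_le_iff₀ (by positivity)]
        exact a3
      have a5 : 0 ≤ kT⁻¹ ^ 2 * u ^ 2 := by positivity
      nlinarith
    · have := tendsto_finsetSum (Finset.univ : Finset n) fun i _ =>
        tendsto_finsetSum (Finset.univ : Finset n) fun j _ =>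
          (dlPhi_tendsto (hpos i) (hpos j)).mul_const (c i j)
      simpa using this
  -- the trace formula
  have hT : rtr ((X * K + K * X - X * X) *
      ∑ j, fc (dslope Real.log (b j)) X * ((1 / 2 : ℝ) • G) * P j) =
      1 / 2 * (∑ i, ∑ j, (2 - dlPhi (b i) (b j) 0) * c i j) - 1 / 2 * rtr (X * G) := by
    have t1 : rtr (X * G) = ∑ j, b j * rtr (P j * G) := by
      conv_lhs => rw [← fc_id hX, dl_fc_eq_sum, Matrix.sum_mul, rtr_sum]
      exact Finset.sum_congr rfl fun j _ => by rw [Matrix.smul_mul, rtr_smul]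
    rw [t1, Finset.sum_comm, Matrix.mul_sum, rtr_sum, Finset.mul_sum, Finset.mul_sum,
      ← Finset.sum_sub_distrib]
    refine Finset.sum_congr rfl fun j _ => ?_
    rw [← Matrix.mul_assoc, rtr_mul_comm, dl_fc_eq_sum, Matrix.sum_mul, Matrix.mul_sum,
      Matrix.mul_sum, rtr_sum]
    have t2 : ∀ i, rtr (P j * ((X * K + K * X - X * X) *
        (dslope Real.log (b j) (ev X i) • dlP X i * ((1 / 2 : ℝ) • G)))) =
        1 / 2 * ((2 - dlPhi (b i) (b j) 0) * c i j) -
          if j = i then 1 / 2 * (b j * rtr (P j * G)) else 0 := by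
      intro i
      have u1 : P j * (X * K + K * X - X * X) * P i =
          (b i + b j) • (P j * K * P i) - (b j * b i) • (P j * P i) := by
        have v1 : P j * (X * K + K * X - X * X) * P i =
            P j * X * K * P i + P j * K * (X * P i) - P j * X * (X * P i) := by
          simp only [Matrix.mul_add, Matrix.mul_sub, Matrix.add_mul, Matrix.sub_mul,
            Matrix.mul_assoc]
        rw [v1, hPX, hXP]
        simp only [Matrix.smul_mul, Matrix.mul_smul, smul_smul, add_smul]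
        rw [mul_comm (b i) (b j)]
        abel
      have u2 : P j * ((X * K + K * X - X * X) *
          (dslope Real.log (b j) (b i) • P i * ((1 / 2 : ℝ) • G))) =
          (1 / 2 * dslope Real.log (b j) (b i)) • (P j * (X * K + K * X - X * X) * P i * G) := by
        simp only [Matrix.smul_mul, Matrix.mul_smul, smul_smul, Matrix.mul_assoc]
      change rtr (P j * ((X * K + K * X - X * X) *
          (dslope Real.log (b j) (b i) • P i * ((1 / 2 : ℝ) • G)))) = _
      rw [u2, u1, rtr_smul, Matrix.sub_mul, Matrix.smul_mul, Matrix.smul_mul, rtr_sub, rtr_smul,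
        rtr_smul, ← dlPhi_zero (hpos i) (hpos j), hP, dl_P_mul_P]
      split_ifs with h
      · subst h
        rw [dslope_same, Real.deriv_log]
        have := (hpos j).ne'
        simp only [hc, hP]
        field_simp
      · rw [Matrix.zero_mul, rtr_zero]
        simp only [hc, hP]
        ring
    rw [Finset.sum_congr rfl fun i _ => t2 i, Finset.sum_sub_distrib, Finset.sum_ite_eq,
      if_pos (Finset.mem_univ _), Finset.mul_sum]
  have hN : ∑ i, ∑ j, c i j = Fintype.card n := by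
    simp only [hc]
    rw [← rtr_one, ← hKG]
    simp only [← rtr_sum, ← Matrix.sum_mul, ← Matrix.mul_sum, hP, dl_sum_P, Matrix.one_mul,
      Matrix.mul_one]
  have hsplit : ∑ i, ∑ j, (2 - dlPhi (b i) (b j) 0) * c i j =
      2 * Fintype.card n - ∑ i, ∑ j, dlPhi (b i) (b j) 0 * c i j := by
    rw [← hN, Finset.mul_sum, ← Finset.sum_sub_distrib]
    refine Finset.sum_congr rfl fun i _ => ?_
    rw [Finset.mul_sum, ← Finset.sum_sub_distrib]
    exact Finset.sum_congr rfl fun j _ => by ring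
  rw [hH, hT, hsplit]
  linarith

lemma dl_ev_bounds {κ : n → ℝ} {k t kT : ℝ} (ht : 0 < t) (hpos : ∀ i, 0 < κ i)
    (hle : ∀ i, κ i ≤ k) (hkT : √(k ^ 2 + t) ≤ kT) {F : Matrix n n ℂ} (hF : F.IsHermitian)
    (up : (rdiag κ - F).PosSemidef) (lo : (rdiag κ + F).PosSemidef) :
    (∀ i, √(κ i ^ 2 + t) ≤ kT) ∧ (∀ i, 0 < ev (Kt κ t + F) i) ∧
      ∀ i, ev (Kt κ t + F) i ≤ 2 * kT := by
  have hX : (Kt κ t + F).IsHermitian := (rdiag_herm _).add hF
  have h0 : 0 < √(k ^ 2 + t) := Real.sqrt_pos.2 (by positivity)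
  have h1 : ∀ i, √(κ i ^ 2 + t) ≤ √(k ^ 2 + t) := fun i => by
    apply Real.sqrt_le_sqrt
    have := hpos i
    have := hle i
    nlinarith
  have h2 : ∀ i, κ i ≤ √(κ i ^ 2 + t) := fun i => Real.le_sqrt_of_sq_le (by linarith)
  refine ⟨fun i => (h1 i).trans hkT, fun i => ?_, ?_⟩
  · have hm : 0 < t / (2 * √(k ^ 2 + t)) := by positivity
    refine hm.trans_le ((le_ev_iff hX _).2 ?_ i)
    have e : Kt κ t + F - (t / (2 * √(k ^ 2 + t))) • (1 : Matrix n n ℂ) =
        rdiag (fun i => √(κ i ^ 2 + t) - κ i - t / (2 * √(k ^ 2 + t))) + (rdiag κ + F) := by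
      rw [← rdiag_const, ← rdiag_sub, ← rdiag_sub, Kt]; abel
    rw [e]
    refine PosSemidef.add ((rdiag_psd_iff _).2 fun j => ?_) lo
    rw [sub_nonneg, div_le_iff₀ (by positivity)]
    have a1 : √(κ j ^ 2 + t) * √(κ j ^ 2 + t) = κ j ^ 2 + t :=
      Real.mul_self_sqrt (by positivity)
    have a2 := h1 j
    have a3 := h2 j
    nlinarith
  · refine (ev_le_iff hX _).2 ?_
    have e : (2 * kT) • (1 : Matrix n n ℂ) - (Kt κ t + F) =
        rdiag (fun i => 2 * kT - √(κ i ^ 2 + t) - κ i) + (rdiag κ - F) := by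
      rw [← rdiag_const, ← rdiag_sub, ← rdiag_sub, Kt]; abel
    rw [e]
    refine PosSemidef.add ((rdiag_psd_iff _).2 fun j => ?_) up
    have a2 := h1 j
    have a3 := h2 j
    linarith

lemma dl_wfun {κ : n → ℝ} {k t kT : ℝ} {F : Matrix n n ℂ} (hA : Adm κ k F) (ht : 0 < t)
    (hkT : √(k ^ 2 + t) ≤ kT) :
    ∃ w' : ℝ, HasDerivAt (wfun κ F) w' t ∧ w' ≤ -mfun κ F t / t -
      (kT⁻¹ ^ 2 * ((2 * kT + 2) ^ 4)⁻¹) * ‖comm (Kt κ t) F‖ ^ 2 := by
  have hkT0 : 0 < kT := (Real.sqrt_pos.2 (by positivity)).trans_le hkT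
  obtain ⟨b0, b1, b2⟩ := dl_ev_bounds ht hA.pos hA.le hkT hA.herm hA.up hA.lo
  obtain ⟨-, c1, c2⟩ := dl_ev_bounds ht hA.pos hA.le hkT hA.herm.neg
    (by rw [sub_neg_eq_add]; exact hA.lo) (by rw [← sub_eq_add_neg]; exact hA.up)
  rw [← sub_eq_add_neg] at c1 c2
  have hk : ∀ i, 0 < √(κ i ^ 2 + t) := fun i => Real.sqrt_pos.2 (by positivity)
  have hK : HasDerivAt (Kt κ) (rdiag fun i => (2 * √(κ i ^ 2 + t))⁻¹) t := by
    refine hasDerivAt_rdiag (v := fun y i => √(κ i ^ 2 + y)) fun i => ?_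
    have := ((hasDerivAt_id t).const_add (κ i ^ 2)).sqrt (by simp only [id]; positivity)
    simpa using this
  have hXp : ∀ s, (Kt κ s + F).IsHermitian := fun s => (rdiag_herm _).add hA.herm
  have hXm : ∀ s, (Kt κ s - F).IsHermitian := fun s => (rdiag_herm _).sub hA.herm
  have d1 := dl_hasDerivAt Real.log (hK.add_const F) hXp
    fun j => Real.differentiableAt_log (b1 j).ne'
  have d2 := dl_hasDerivAt Real.log (hK.sub_const F) hXm
    fun j => Real.differentiableAt_log (c1 j).ne'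
  have k1 := dl_key hkT0 hk b0 (hXp t) b1 b2
  have k2 := dl_key hkT0 hk b0 (hXm t) c1 c2
  set D1 := ∑ j, fc (dslope Real.log (ev (Kt κ t + F) j)) (Kt κ t + F) *
    (rdiag fun i => (2 * √(κ i ^ 2 + t))⁻¹) * dlP (Kt κ t + F) j
  set D2 := ∑ j, fc (dslope Real.log (ev (Kt κ t - F) j)) (Kt κ t - F) *
    (rdiag fun i => (2 * √(κ i ^ 2 + t))⁻¹) * dlP (Kt κ t - F) j
  have dL : HasDerivAt (Lhat κ F) (D1 + D2 - t⁻¹ • (1 : Matrix n n ℂ)) t :=
    (d1.add d2).sub ((Real.hasDerivAt_log ht.ne').smul_const _)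
  have dU : HasDerivAt (fun s : ℝ => Umat (rdiag κ) F + s • (1 : Matrix n n ℂ))
      ((1 : ℝ) • (1 : Matrix n n ℂ)) t := ((hasDerivAt_id t).smul_const _).const_add _
  refine ⟨_, (hda_rtr (hda_mul dU dL)).sub_const _, ?_⟩
  have hKK : Umat (rdiag κ) F + t • (1 : Matrix n n ℂ) = Kt κ t * Kt κ t - F * F := by
    rw [Kt, rdiag_mul, Umat, rdiag_mul, ← rdiag_const]
    have : (fun i => √(κ i ^ 2 + t) * √(κ i ^ 2 + t)) = fun i => κ i * κ i + t := by
      funext i
      rw [Real.mul_self_sqrt (by positivity), sq]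
    rw [this, ← rdiag_add]; abel
  have hKdef : (rdiag fun i => √(κ i ^ 2 + t)) = Kt κ t := rfl
  rw [hKdef] at k1 k2
  have e1 : (Kt κ t + F) * Kt κ t + Kt κ t * (Kt κ t + F) - (Kt κ t + F) * (Kt κ t + F) =
      Umat (rdiag κ) F + t • (1 : Matrix n n ℂ) := by
    rw [hKK]; noncomm_ring
  have e2 : (Kt κ t - F) * Kt κ t + Kt κ t * (Kt κ t - F) - (Kt κ t - F) * (Kt κ t - F) =
      Umat (rdiag κ) F + t • (1 : Matrix n n ℂ) := by
    rw [hKK]; noncomm_ring
  have e3 : comm (Kt κ t) (Kt κ t + F) = comm (Kt κ t) F := by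
    simp only [comm]; noncomm_ring
  have e4 : ‖comm (Kt κ t) (Kt κ t - F)‖ = ‖comm (Kt κ t) F‖ := by
    rw [← norm_neg]
    congr 1
    simp only [comm]; noncomm_ring
  rw [e1, e3] at k1
  rw [e2, e4] at k2
  have e5 : rtr ((Kt κ t + F) * rdiag fun i => (√(κ i ^ 2 + t))⁻¹) +
      rtr ((Kt κ t - F) * rdiag fun i => (√(κ i ^ 2 + t))⁻¹) = 2 * Fintype.card n := by
    have : Kt κ t * (rdiag fun i => (√(κ i ^ 2 + t))⁻¹) = 1 := by
      rw [Kt, rdiag_mul]
      simp only [mul_inv_cancel₀ (hk _).ne']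
      rw [rdiag_const, one_smul]
    rw [Matrix.add_mul, Matrix.sub_mul, rtr_add, rtr_sub, this, rtr_one]; ring
  rw [rtr_add, one_smul, Matrix.one_mul, Matrix.mul_sub, Matrix.mul_add, rtr_sub, rtr_add,
    Matrix.mul_smul, Matrix.mul_one, rtr_smul, rtr_add, rtr_smul, rtr_one, mfun]
  have e6 : t⁻¹ * (rtr (Umat (rdiag κ) F) + t * Fintype.card n) =
      rtr (Umat (rdiag κ) F) / t + Fintype.card n := by field_simp
  have e7 : -(rtr (Umat (rdiag κ) F) - t * rtr (Lhat κ F t)) / t =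
      -(rtr (Umat (rdiag κ) F) / t) + rtr (Lhat κ F t) := by field_simp; ring
  rw [e6, e7]
  linarith

end dlog

/-- `w'(t) ≤ -m(t)/t - c ‖[K_t, F]‖²` -/
theorem wfun_deriv (k : ℝ) : ∃ c : ℝ, 0 < c ∧
    ∀ (n : Type) [Fintype n] [DecidableEq n] (κ : n → ℝ) (F : Matrix n n ℂ), Adm κ k F →
      ∀ t : ℝ, 0 < t → ∃ w' : ℝ, HasDerivAt (wfun κ F) w' t ∧ w' ≤ -mfun κ F t / t ∧
        (t ≤ 2 → w' ≤ -mfun κ F t / t - c * ‖comm (Kt κ t) F‖ ^ 2) := by
  have h0 : 0 < √(k ^ 2 + 2) := Real.sqrt_pos.2 (by positivity)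
  refine ⟨(√(k ^ 2 + 2))⁻¹ ^ 2 * ((2 * √(k ^ 2 + 2) + 2) ^ 4)⁻¹, by positivity, ?_⟩
  intro n _ _ κ F hA t ht
  obtain ⟨w', hw, hle⟩ := dl_wfun hA ht le_rfl
  refine ⟨w', hw, hle.trans (sub_le_self _ (by positivity)), fun h2 => ?_⟩
  obtain ⟨w'', hw', hle'⟩ := dl_wfun hA ht (kT := √(k ^ 2 + 2)) (Real.sqrt_le_sqrt (by linarith))
  rw [hw.unique hw']
  exact hle'

end Crest.Agent.R332
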