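import Crest.Agent.R332.Construct
import Crest.Agent.R332.Calib
import Crest.Agent.R332.Scalar

/-!
Row 332: the inequality for matrix trial functions, and nearly saturating data.
-/

set_option autoImplicit false
set_option linter.unusedSectionVars false

open Matrix MeasureTheory Set Filter Topology Crest.Agent.R342
open scoped ComplexOrder Matrix.Norms.Frobenius

namespace Crest.Agent.R332

open Crest.MathPhysics.LiebThirring

variable {m : ℕ} {W : ℝ → Matrix (Fin m) (Fin m) ℂ}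

/-- weakening the accuracy parameter -/
def BData.weaken {ε₁ ε : ℝ} {N : ℕ} (D : BData W ε₁ N) (h0 : 0 < ε₁) (h : ε₁ ≤ ε) :
    BData W ε N :=
  { D with
    ha := D.ha.trans (neg_le_neg (inv_anti₀ h0 h))
    hb := (inv_anti₀ h0 h).trans D.hb
    η_le := D.η_le.trans h
    Wc_close := D.Wc_close.trans h }

/-- weakening the accuracy parameter -/
def Link.weaken {γ ε₁ ε : ℝ} {N : ℕ} {D : BData W ε₁ N} {Φ Φ' : ℝ → Matrix (Fin N) (Fin m) ℂ}
    {μ : Fin N → ℝ} (L : Link γ D Φ Φ' μ) (h0 : 0 < ε₁) (h : ε₁ ≤ ε) :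
    Link γ (D.weaken h0 h) Φ Φ' μ where
  C := L.C
  T := L.T
  δ := L.δ
  δ_pos := L.δ_pos
  δ_le := L.δ_le.trans h
  T_unit := L.T_unit
  supp := L.supp
  hV := L.hV
  hC := L.hC

lemma data_ab {ε : ℝ} {N : ℕ} (D : BData W ε N) (hε : 0 < ε) : D.a ≤ D.b := by
  have := inv_pos.2 hε
  linarith [D.ha, D.hb]

lemma data_sq_nonneg {γ ε : ℝ} {N : ℕ} {D : BData W ε N} {Φ Φ' : ℝ → Matrix (Fin N) (Fin m) ℂ}
    {μ : Fin N → ℝ} (L : Link γ D Φ Φ' μ) (hε : 0 < ε) : 0 ≤ L.sq :=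
  intervalIntegral.integral_nonneg (data_ab D hε) fun _ _ => sq_nonneg _

lemma data_core (γ k : ℝ) (hγ : 1 / 2 < γ) (hγ' : γ < 3 / 2) : ∃ c : ℝ, 0 < c ∧
    ∀ (ε : ℝ) (N : ℕ) (D : BData W ε N), 0 < ε → (∀ i, D.κ i ≤ k) →
      0 ≤ (∫ x in D.a..D.b, defect (γ - 1 / 2)⁻¹ D.K (D.F x) (D.A x)) ∧
      0 ≤ (∫ x in D.a..D.b, (trp (γ + 1 / 2) (D.Wc x) - trp (γ + 1 / 2) (D.A x))) ∧
      c * (∫ x in D.a..D.b, defect (γ - 1 / 2)⁻¹ D.K (D.F x) (D.A x)) +
        sharpConst γ * (∫ x in D.a..D.b, (trp (γ + 1 / 2) (D.Wc x) - trp (γ + 1 / 2) (D.A x))) +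
        ∑ i, D.κ i ^ (2 * γ) ≤ sharpConst γ * (∫ x in D.a..D.b, trp (γ + 1 / 2) (D.Wc x)) +
          2 * ε / beta (γ - 1 / 2) * (1 + ∑ i, D.κ i ^ (2 * γ)) := by
  obtain ⟨c, hc, h⟩ := calib γ k hγ hγ'
  refine ⟨c, hc, fun ε N D hε hk => ?_⟩
  have hab := data_ab D hε
  have hA : Continuous D.A := (D.V_cont.matrix_mul D.Wc_cont).matrix_mul
    D.V_cont.matrix_conjTranspose
  have hAp : ∀ x, (D.A x).PosSemidef := fun x => (D.Wc_psd x).mul_mul_conjTranspose_same _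
  have h1 := h (Fin N) D.κ D.F D.A D.a D.b D.η hab D.η_pos.le hA.continuousOn (fun x _ => hAp x)
    (fun x hx => ⟨D.κ_pos, hk, D.herm x hx, D.up x hx, D.lo x hx⟩) D.ode D.Fa D.Fb
  have i1 : IntervalIntegrable (fun x => trp (γ + 1 / 2) (D.Wc x)) volume D.a D.b :=
    (continuousOn_trp (by linarith) D.Wc_cont.continuousOn
      fun x _ => (D.Wc_psd x).1).intervalIntegrable
  have i2 : IntervalIntegrable (fun x => trp (γ + 1 / 2) (D.A x)) volume D.a D.b :=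
    (continuousOn_trp (by linarith) hA.continuousOn fun x _ => (hAp x).1).intervalIntegrable
  refine ⟨intervalIntegral.integral_nonneg hab fun x _ => ?_,
    intervalIntegral.integral_nonneg hab fun x _ => ?_, ?_⟩
  · exact add_nonneg (le_min (norm_nonneg _) (sq_nonneg _)) (sq_nonneg _)
  · exact sub_nonneg.2 (trp_compress_le (by linarith) (D.V_le x) (D.Wc_psd x))
  · rw [intervalIntegral.integral_sub i1 i2]
    have hβ : 0 < beta (γ - 1 / 2) := beta_pos (by linarith)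
    have h2 : ∀ i, D.κ i ^ (2 * γ - 1) ≤ 1 + D.κ i ^ (2 * γ) := by
      intro i
      have p := D.κ_pos i
      rcases le_total (D.κ i) 1 with q | q
      · have := Real.rpow_le_one p.le q (show 0 ≤ 2 * γ - 1 by linarith)
        linarith [Real.rpow_nonneg p.le (2 * γ)]
      · have := Real.rpow_le_rpow_of_exponent_le q (show 2 * γ - 1 ≤ 2 * γ by linarith)
        linarith
    have h3 := Finset.sum_le_sum fun i (_ : i ∈ Finset.univ) => h2 i
    rw [Finset.sum_add_distrib] at h3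
    simp only [Finset.sum_const, Finset.card_univ, Fintype.card_fin, nsmul_eq_mul, mul_one] at h3
    have h4 : 0 ≤ ∑ i, D.κ i ^ (2 * γ) :=
      Finset.sum_nonneg fun i _ => Real.rpow_nonneg (D.κ_pos i).le _
    have h5 : D.η * ∑ i, D.κ i ^ (2 * γ - 1) ≤ ε * (1 + ∑ i, D.κ i ^ (2 * γ)) := by
      have a1 := D.η_le
      have a2 := D.η_pos
      have a3 : (0 : ℝ) ≤ N := Nat.cast_nonneg N
      have a4 : D.η ≤ ε := by nlinarith
      nlinarith [mul_le_mul_of_nonneg_left h3 a2.le, mul_le_mul_of_nonneg_right a4 h4]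
    have h6 : 2 * D.η / beta (γ - 1 / 2) * ∑ i, D.κ i ^ (2 * γ - 1)
        ≤ 2 * ε / beta (γ - 1 / 2) * (1 + ∑ i, D.κ i ^ (2 * γ)) := by
      rw [div_mul_eq_mul_div, div_mul_eq_mul_div]
      exact div_le_div_of_nonneg_right (by linarith) hβ.le
    unfold BData.K
    linarith

lemma data_sum_le {γ : ℝ} (hγ : 1 / 2 < γ) (hγ' : γ < 3 / 2) {ε I : ℝ} {N : ℕ} (D : BData W ε N)
    (hε : 0 < ε) (h1 : ε ≤ 1) (h2 : ε ≤ beta (γ - 1 / 2) / 4)
    (hI : (∫ x in D.a..D.b, trp (γ + 1 / 2) (D.Wc x)) ≤ I + ε) :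
    ∑ i, D.κ i ^ (2 * γ) ≤ 2 * (sharpConst γ * I + sharpConst γ) + 1 ∧
    ∑ i, D.κ i ^ (2 * γ) ≤ sharpConst γ * I + ε * (sharpConst γ +
      2 / beta (γ - 1 / 2) * (2 * (sharpConst γ * I + sharpConst γ) + 2)) := by
  obtain ⟨c, hc, h⟩ := data_core (W := W) γ (∑ i, D.κ i) hγ hγ'
  obtain ⟨a1, a2, a3⟩ := h ε N D hε fun i =>
    Finset.single_le_sum (fun j _ => (D.κ_pos j).le) (Finset.mem_univ i)
  have hC := sharpConst_pos hγ
  have hβ : 0 < beta (γ - 1 / 2) := beta_pos (by linarith)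
  have h4 : 0 ≤ ∑ i, D.κ i ^ (2 * γ) :=
    Finset.sum_nonneg fun i _ => Real.rpow_nonneg (D.κ_pos i).le _
  have b1 := mul_nonneg hc.le a1
  have b2 := mul_nonneg hC.le a2
  have b3 := mul_le_mul_of_nonneg_left hI hC.le
  have b4 : 2 * ε / beta (γ - 1 / 2) ≤ 1 / 2 := by rw [div_le_iff₀ hβ]; linarith
  have b5 := mul_le_mul_of_nonneg_right b4 (show 0 ≤ 1 + ∑ i, D.κ i ^ (2 * γ) by linarith)
  have b6 : ∑ i, D.κ i ^ (2 * γ) ≤ 2 * (sharpConst γ * I + sharpConst γ) + 1 := by nlinarith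
  refine ⟨b6, ?_⟩
  have b7 : 2 * ε / beta (γ - 1 / 2) * (1 + ∑ i, D.κ i ^ (2 * γ))
      ≤ 2 * ε / beta (γ - 1 / 2) * (2 * (sharpConst γ * I + sharpConst γ) + 2) :=
    mul_le_mul_of_nonneg_left (by linarith) (by positivity)
  have b8 : ε * (sharpConst γ + 2 / beta (γ - 1 / 2) * (2 * (sharpConst γ * I + sharpConst γ) + 2))
      = sharpConst γ * ε
        + 2 * ε / beta (γ - 1 / 2) * (2 * (sharpConst γ * I + sharpConst γ) + 2) := by ring
  linarith

theorem mtrial_le {γ : ℝ} (hγ : 1 / 2 < γ) (hγ' : γ < 3 / 2) (hW : Pot (γ + 1 / 2) W) {N : ℕ}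
    {Φ Φ' : ℝ → Matrix (Fin N) (Fin m) ℂ} {μ : Fin N → ℝ} (h : MTrial W Φ Φ' μ) :
    ∑ i, μ i ^ γ ≤ sharpConst γ * ∫ x, trp (γ + 1 / 2) (W x) := by
  set I := ∫ x, trp (γ + 1 / 2) (W x) with hI
  have hβ : 0 < beta (γ - 1 / 2) := beta_pos (by linarith)
  set B := sharpConst γ + 2 / beta (γ - 1 / 2) * (2 * (sharpConst γ * I + sharpConst γ) + 2)
  have hlim : Tendsto (fun ε : ℝ => sharpConst γ * I + ε * (B + 1)) (𝓝[>] 0)
      (𝓝 (sharpConst γ * I)) := by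
    have : Continuous fun ε : ℝ => sharpConst γ * I + ε * (B + 1) := by fun_prop
    simpa using (this.tendsto 0).mono_left nhdsWithin_le_nhds
  refine ge_of_tendsto hlim ?_
  filter_upwards [Ioc_mem_nhdsGT (show (0 : ℝ) < 1 by norm_num),
    Ioc_mem_nhdsGT (show 0 < beta (γ - 1 / 2) / 4 by positivity)] with ε h1 h2
  obtain ⟨D, L, a1, a2, a3⟩ := construct hγ hγ' hW h h1.1
  have b1 := (data_sum_le hγ hγ' D h1.1 h1.2 h2.2 a1).2
  have b2 := mul_nonneg (show 0 ≤ γ by linarith) (data_sq_nonneg L h1.1)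
  linarith

theorem exists_sat {γ : ℝ} (hγ : 1 / 2 < γ) (hγ' : γ < 3 / 2) (hW : Pot (γ + 1 / 2) W) :
    ∃ k : ℝ, 0 < k ∧ ∀ ε : ℝ, 0 < ε → ∃ ε' : ℝ, 0 < ε' ∧
      ∀ (N : ℕ) (Φ Φ' : ℝ → Matrix (Fin N) (Fin m) ℂ) (μ : Fin N → ℝ), MTrial W Φ Φ' μ →
        sharpConst γ * (∫ x, trp (γ + 1 / 2) (W x)) - ε' ≤ ∑ i, μ i ^ γ →
        (∀ i, μ i ≤ k) ∧
          ∃ (D : BData W ε N) (L : Link γ D Φ Φ' μ), Sat γ k D ∧ L.sq ≤ ε ∧ L.kd ≤ ε := by
  set I := ∫ x, trp (γ + 1 / 2) (W x) with hI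
  have hI0 : 0 ≤ I := integral_nonneg fun x => trp_nonneg (hW.psd x)
  have hβ : 0 < beta (γ - 1 / 2) := beta_pos (by linarith)
  have hC := sharpConst_pos hγ
  set C := sharpConst γ with hCdef
  set k0 := 2 * (C * I + C) + 1 with hk0
  have hk01 : 1 ≤ k0 := by have : 0 ≤ C * I + C := by positivity
                           linarith
  set k := k0 + (C * I) ^ 2 with hk
  have hkk : k0 ≤ k := by nlinarith [sq_nonneg (C * I)]
  obtain ⟨c, hc, hcore⟩ := data_core (W := W) γ k hγ hγ'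
  set B := C + 2 / beta (γ - 1 / 2) * (1 + k0) + 2 with hB
  have hB0 : 0 < B := by positivity
  set d := min (min c C) (1 / 2) with hd
  have hd0 : 0 < d := by positivity
  have d1 : d ≤ c := (min_le_left _ _).trans (min_le_left _ _)
  have d2 : d ≤ C := (min_le_left _ _).trans (min_le_right _ _)
  have d3 : d ≤ 1 / 2 := min_le_right _ _
  refine ⟨k, by linarith, fun ε hε => ?_⟩
  set e := min (min 1 (beta (γ - 1 / 2) / 4)) (min ε (ε * d / B)) with he
  have he0 : 0 < e := by positivity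
  have e1 : e ≤ 1 := (min_le_left _ _).trans (min_le_left _ _)
  have e2 : e ≤ beta (γ - 1 / 2) / 4 := (min_le_left _ _).trans (min_le_right _ _)
  have e3 : e ≤ ε := (min_le_right _ _).trans (min_le_left _ _)
  have e4 : e * B ≤ ε * d :=
    (le_div_iff₀ hB0).1 ((min_le_right _ _).trans (min_le_right _ _))
  refine ⟨e, he0, fun N Φ Φ' μ h hμ => ⟨fun i => ?_, ?_⟩⟩
  · have a1 := mtrial_le hγ hγ' hW h
    have a2 : μ i ^ γ ≤ C * I := (Finset.single_le_sum (f := fun j => μ j ^ γ)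
      (fun j _ => Real.rpow_nonneg (h.pos j).le _) (Finset.mem_univ i)).trans a1
    rcases le_total (μ i) 1 with q | q
    · linarith
    · have a3 := Real.rpow_le_rpow_of_exponent_le q (show 1 / 2 ≤ γ by linarith)
      rw [← Real.sqrt_eq_rpow] at a3
      have a4 := Real.sq_sqrt (h.pos i).le
      have a5 := pow_le_pow_left₀ (Real.sqrt_nonneg _) (a3.trans a2) 2
      linarith
  obtain ⟨D, L, a1, a2, a3⟩ := construct hγ hγ' hW h he0
  have b1 : ∑ i, D.κ i ^ (2 * γ) ≤ k0 := (data_sum_le hγ hγ' D he0 e1 e2 a1).1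
  have b2 : ∀ i, D.κ i ≤ k := by
    intro i
    rcases le_total (D.κ i) 1 with q | q
    · linarith
    · have c1 := Real.rpow_le_rpow_of_exponent_le q (show 1 ≤ 2 * γ by linarith)
      rw [Real.rpow_one] at c1
      have c2 := Finset.single_le_sum (f := fun j => D.κ j ^ (2 * γ))
        (fun j _ => Real.rpow_nonneg (D.κ_pos j).le _) (Finset.mem_univ i)
      linarith
  obtain ⟨c1, c2, c3⟩ := hcore e N D he0 b2
  have c4 := data_sq_nonneg L he0
  have c5 := mul_le_mul_of_nonneg_left a1 hC.le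
  have c6 : 2 * e / beta (γ - 1 / 2) * (1 + ∑ i, D.κ i ^ (2 * γ))
      ≤ 2 * e / beta (γ - 1 / 2) * (1 + k0) :=
    mul_le_mul_of_nonneg_left (by linarith) (by positivity)
  have c7 : e * B = C * e + 2 * e / beta (γ - 1 / 2) * (1 + k0) + 2 * e := by rw [hB]; ring
  set u := ∫ x in D.a..D.b, defect (γ - 1 / 2)⁻¹ D.K (D.F x) (D.A x) with hu
  set v := ∫ x in D.a..D.b, (trp (γ + 1 / 2) (D.Wc x) - trp (γ + 1 / 2) (D.A x)) with hv
  have tot : c * u + C * v + γ * L.sq + L.kd ≤ ε * d := by linarith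
  have f1 := mul_le_mul_of_nonneg_right d1 c1
  have f2 := mul_le_mul_of_nonneg_right d2 c2
  have f3 := mul_le_mul_of_nonneg_right (show d ≤ γ by linarith) c4
  have f4 := mul_le_mul_of_nonneg_right (show d ≤ 1 by linarith) a2
  have g1 := mul_nonneg hd0.le c1
  have g2 := mul_nonneg hd0.le c2
  have g3 := mul_nonneg hd0.le c4
  have g4 := mul_nonneg hd0.le a2
  have fin : ∀ x : ℝ, d * x ≤ ε * d → x ≤ ε := fun x hx =>
    le_of_mul_le_mul_left (by linarith) hd0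
  exact ⟨D.weaken he0 e3, L.weaken he0 e3, ⟨b2, b1.trans hkk, fin u (by linarith),
    fin v (by linarith)⟩, fin L.sq (by linarith), fin L.kd (by linarith)⟩

end Crest.Agent.R332
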