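import Crest.Agent.R342.FC
import Crest.Prelude.Def_LiebThirring

/-!
Row 332 (sharp one-dimensional matrix Lieb–Thirring inequality): shared definitions.
All matrix norms are Frobenius norms (`open scoped Matrix.Norms.Frobenius`).
The functional calculus `fc`, eigenvalues `ev` and eigenvector matrix `eU` come from row 342.
-/

set_option autoImplicit false

open Matrix MeasureTheory Set Filter Topology Crest.Agent.R342
open scoped ComplexOrder Matrix.Norms.Frobenius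

namespace Crest.Agent.R332

section inst
variable {a b : Type} [Fintype a] [Fintype b]

noncomputable scoped instance instENA : ENormedAddCommMonoid (Matrix a b ℂ) :=
  NormedAddCommGroup.toENormedAddCommMonoid
noncomputable scoped instance instMeas : MeasurableSpace (Matrix a b ℂ) :=
  inferInstanceAs (MeasurableSpace (a → b → ℂ))
scoped instance instBorel : BorelSpace (Matrix a b ℂ) :=
  inferInstanceAs (BorelSpace (a → b → ℂ))
scoped instance instSC : SecondCountableTopology (Matrix a b ℂ) :=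
  inferInstanceAs (SecondCountableTopology (a → b → ℂ))

/-- operator-norm bound `‖A‖_op ≤ c` -/
def OpLe (A : Matrix a b ℂ) (c : ℝ) : Prop :=
  0 ≤ c ∧ ∀ X : Matrix b Unit ℂ, ‖A * X‖ ≤ c * ‖X‖

end inst

section basic
variable {n : Type} [Fintype n] [DecidableEq n]

/-- real part of the trace -/
noncomputable def rtr (A : Matrix n n ℂ) : ℝ := (trace A).re

/-- real diagonal matrix -/
noncomputable def rdiag (v : n → ℝ) : Matrix n n ℂ := diagonal fun i => (v i : ℂ)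

/-- `tr f(A)` -/
noncomputable def trf (f : ℝ → ℝ) (A : Matrix n n ℂ) : ℝ := ∑ i, f (ev A i)

/-- `tr A^p` -/
noncomputable def trp (p : ℝ) (A : Matrix n n ℂ) : ℝ := trf (fun s => s ^ p) A

/-- doubly stochastic overlap weights of two eigenbases -/
noncomputable def ovl (A B : Matrix n n ℂ) (i j : n) : ℝ := ‖((eU A)ᴴ * eU B) i j‖ ^ 2

/-- commutator -/
def comm (A B : Matrix n n ℂ) : Matrix n n ℂ := A * B - B * A

/-- `K² - F²` -/
def Umat (K F : Matrix n n ℂ) : Matrix n n ℂ := K * K - F * F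

noncomputable def err1 (r : ℝ) (K F A : Matrix n n ℂ) : ℝ := ‖A - (r + 1) • Umat K F‖

noncomputable def err2 (K F : Matrix n n ℂ) : ℝ := ‖comm (K * K) F‖

/-- pointwise defect from the equality case -/
noncomputable def defect (r : ℝ) (K F A : Matrix n n ℂ) : ℝ :=
  min (err1 r K F A) (err1 r K F A ^ 2) + err2 K F ^ 2

/-- `0 < κ ≤ k` and `-diag κ ≤ F ≤ diag κ` -/
structure Adm (κ : n → ℝ) (k : ℝ) (F : Matrix n n ℂ) : Prop where
  pos : ∀ i, 0 < κ i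
  le : ∀ i, κ i ≤ k
  herm : F.IsHermitian
  up : (rdiag κ - F).PosSemidef
  lo : (rdiag κ + F).PosSemidef

noncomputable def xlog (x : ℝ) : ℝ := x * Real.log x

noncomputable def hfun (t y : ℝ) : ℝ := (y + t) * Real.log (1 + y / t) - y

/-- `K_t = √(K² + t)` -/
noncomputable def Kt (κ : n → ℝ) (t : ℝ) : Matrix n n ℂ := rdiag fun i => √(κ i ^ 2 + t)

/-- `log (K_t + F) + log (K_t - F)` -/
noncomputable def Lmat (κ : n → ℝ) (F : Matrix n n ℂ) (t : ℝ) : Matrix n n ℂ :=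
  fc Real.log (Kt κ t + F) + fc Real.log (Kt κ t - F)

noncomputable def Lhat (κ : n → ℝ) (F : Matrix n n ℂ) (t : ℝ) : Matrix n n ℂ :=
  Lmat κ F t - Real.log t • (1 : Matrix n n ℂ)

noncomputable def mfun (κ : n → ℝ) (F : Matrix n n ℂ) (t : ℝ) : ℝ :=
  rtr (Umat (rdiag κ) F) - t * rtr (Lhat κ F t)

noncomputable def wfun (κ : n → ℝ) (F : Matrix n n ℂ) (t : ℝ) : ℝ :=
  rtr ((Umat (rdiag κ) F + t • (1 : Matrix n n ℂ)) * Lhat κ F t) - rtr (Umat (rdiag κ) F)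

noncomputable def Lam (κ : n → ℝ) (F : Matrix n n ℂ) (t : ℝ) : ℝ :=
  trf xlog (Kt κ t + F) - trf xlog (Kt κ t - F) - (2 + Real.log t) * rtr F

noncomputable def D1 (κ : n → ℝ) (F Y : Matrix n n ℂ) (t : ℝ) : ℝ :=
  ‖fc Real.sqrt (Y + t • (1 : Matrix n n ℂ)) - fc (fun s => Real.exp (s / 2)) (Lmat κ F t)‖ ^ 2

noncomputable def qfun (r : ℝ) (κ : n → ℝ) (F A : Matrix n n ℂ) (t : ℝ) : ℝ :=
  (r + 1) * trf (hfun t) ((r + 1)⁻¹ • A) - rtr (Lhat κ F t * (A - Umat (rdiag κ) F))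

/-- scalar version of `Lam` -/
noncomputable def lam (κ f t : ℝ) : ℝ :=
  xlog (√(κ ^ 2 + t) + f) - xlog (√(κ ^ 2 + t) - f) - (2 + Real.log t) * f

noncomputable def Econst (α : ℝ) : ℝ := ∫ t in Ioi (0 : ℝ), t ^ (α - 1) * Real.log (1 + 1 / t)

noncomputable def beta (α : ℝ) : ℝ := ∫ s in (-1 : ℝ)..1, (1 - s ^ 2) ^ α

/-- Bregman divergence of `x ^ γ` -/
noncomputable def breg (γ x y : ℝ) : ℝ := x ^ γ - y ^ γ - γ * y ^ (γ - 1) * (x - y)

end basic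

section data
variable {m : ℕ}

/-- measurable psd potential with `∫ tr W^p < ∞` -/
structure Pot (p : ℝ) (W : ℝ → Matrix (Fin m) (Fin m) ℂ) : Prop where
  meas : ∀ i j, Measurable fun x => W x i j
  psd : ∀ x, (W x).PosSemidef
  int : Integrable fun x => trp p (W x)

/-- a trial family written as the rows of a matrix function, with negative diagonal energy -/
structure MTrial {N : ℕ} (W : ℝ → Matrix (Fin m) (Fin m) ℂ)
    (Φ Φ' : ℝ → Matrix (Fin N) (Fin m) ℂ) (μ : Fin N → ℝ) : Prop where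
  deriv : ∀ x, HasDerivAt Φ (Φ' x) x
  cont' : Continuous Φ'
  supp : ∃ R : ℝ, ∀ x, R ≤ |x| → Φ x = 0 ∧ Φ' x = 0
  orth : ∫ x, Φ x * (Φ x)ᴴ = 1
  energy : ∫ x, (Φ' x * (Φ' x)ᴴ - Φ x * W x * (Φ x)ᴴ) = -rdiag μ
  pos : ∀ i, 0 < μ i

/-- the common part of all Riccati data -/
structure BData (W : ℝ → Matrix (Fin m) (Fin m) ℂ) (ε : ℝ) (N : ℕ) where
  a : ℝ
  b : ℝ
  η : ℝ
  κ : Fin N → ℝ
  F : ℝ → Matrix (Fin N) (Fin N) ℂ
  Wc : ℝ → Matrix (Fin m) (Fin m) ℂ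
  V : ℝ → Matrix (Fin N) (Fin m) ℂ
  ha : a ≤ -ε⁻¹
  hb : ε⁻¹ ≤ b
  η_pos : 0 < η
  η_le : η * (N + 1) ≤ ε
  anti : Antitone κ
  κ_pos : ∀ i, 0 < κ i
  herm : ∀ x ∈ Icc a b, (F x).IsHermitian
  up : ∀ x ∈ Icc a b, (rdiag κ - F x).PosSemidef
  lo : ∀ x ∈ Icc a b, (rdiag κ + F x).PosSemidef
  Wc_cont : Continuous Wc
  Wc_psd : ∀ x, (Wc x).PosSemidef
  V_cont : Continuous V
  V_le : ∀ x, OpLe (V x) 1
  Wc_close : ∫ x in a..b, ‖W x - Wc x‖ ≤ ε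
  ode : ∀ x ∈ Icc a b,
    HasDerivWithinAt F (Umat (rdiag κ) (F x) - V x * Wc x * (V x)ᴴ) (Icc a b) x
  Fa : F a = rdiag κ
  Fb : F b = -rdiag κ + (2 * η) • (1 : Matrix (Fin N) (Fin N) ℂ)

/-- the compressed potential -/
noncomputable def BData.A {W : ℝ → Matrix (Fin m) (Fin m) ℂ} {ε : ℝ} {N : ℕ} (D : BData W ε N)
    (x : ℝ) : Matrix (Fin N) (Fin N) ℂ := D.V x * D.Wc x * (D.V x)ᴴ

/-- the diagonal matrix of the `κ`'s -/
noncomputable def BData.K {W : ℝ → Matrix (Fin m) (Fin m) ℂ} {ε : ℝ} {N : ℕ} (D : BData W ε N) :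
    Matrix (Fin N) (Fin N) ℂ := rdiag D.κ

/-- link of Riccati data with a trial family -/
structure Link (γ : ℝ) {W : ℝ → Matrix (Fin m) (Fin m) ℂ} {ε : ℝ} {N : ℕ} (D : BData W ε N)
    (Φ Φ' : ℝ → Matrix (Fin N) (Fin m) ℂ) (μ : Fin N → ℝ) where
  C : Matrix (Fin N) (Fin N) ℂ
  T : Matrix (Fin N) (Fin N) ℂ
  δ : ℝ
  δ_pos : 0 < δ
  δ_le : δ ≤ ε
  T_unit : T * Tᴴ = 1
  supp : ∀ x, x ∉ Ioo D.a D.b → Φ x = 0 ∧ Φ' x = 0
  hV : ∀ x, D.V x = fc (fun s => (√(s + δ))⁻¹) ((C * Φ x) * (C * Φ x)ᴴ) * (C * Φ x)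
  hC : C = if γ < 1 then rdiag (fun i => D.κ i ^ (γ - 1)) * T
    else T * rdiag (fun j => μ j ^ ((γ - 1) / 2))

/-- the completed square -/
noncomputable def Link.sq {γ : ℝ} {W : ℝ → Matrix (Fin m) (Fin m) ℂ} {ε : ℝ} {N : ℕ}
    {D : BData W ε N} {Φ Φ' : ℝ → Matrix (Fin N) (Fin m) ℂ} {μ : Fin N → ℝ}
    (L : Link γ D Φ Φ' μ) : ℝ :=
  ∫ x in D.a..D.b, ‖L.C * Φ' x - D.F x * (L.C * Φ x)‖ ^ 2

/-- the Klein defect (only recorded for `1 ≤ γ`) -/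
noncomputable def Link.kd {γ : ℝ} {W : ℝ → Matrix (Fin m) (Fin m) ℂ} {ε : ℝ} {N : ℕ}
    {D : BData W ε N} {Φ Φ' : ℝ → Matrix (Fin N) (Fin m) ℂ} {μ : Fin N → ℝ}
    (L : Link γ D Φ Φ' μ) : ℝ :=
  if γ < 1 then 0 else ∑ i, ∑ j, ‖L.T i j‖ ^ 2 * breg γ (D.κ i ^ 2) (μ j)

/-- Riccati data that nearly saturate the calibration inequality -/
structure Sat (γ k : ℝ) {W : ℝ → Matrix (Fin m) (Fin m) ℂ} {ε : ℝ} {N : ℕ} (D : BData W ε N) :
    Prop where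
  κ_le : ∀ i, D.κ i ≤ k
  sum_le : ∑ i, D.κ i ^ (2 * γ) ≤ k
  def1 : ∫ x in D.a..D.b, defect (γ - 1 / 2)⁻¹ D.K (D.F x) (D.A x) ≤ ε
  def2 : ∫ x in D.a..D.b, (trp (γ + 1 / 2) (D.Wc x) - trp (γ + 1 / 2) (D.A x)) ≤ ε

end data

end Crest.Agent.R332
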