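import Crest.Agent.R332.Stage1Aux

/-!
Row 332: an extremal potential decays exponentially.
-/

set_option autoImplicit false
set_option linter.unusedSectionVars false

open Matrix MeasureTheory Set Filter Topology Crest.Agent.R342
open scoped ComplexOrder Matrix.Norms.Frobenius

namespace Crest.Agent.R332

open Crest.MathPhysics.LiebThirring

variable {m : ℕ} {W : ℝ → Matrix (Fin m) (Fin m) ℂ} {γ k : ℝ}

lemma continuous_blk (e N : ℕ) : Continuous (blk e : Matrix (Fin N) (Fin N) ℂ → _) := by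
  unfold blk; fun_prop

lemma continuous_offB (e N : ℕ) : Continuous (offB e : Matrix (Fin N) (Fin N) ℂ → _) := by
  unfold offB; fun_prop

lemma continuous_err1 {n : Type} [Fintype n] [DecidableEq n] (r : ℝ) (K : Matrix n n ℂ) :
    Continuous fun q : Matrix n n ℂ × Matrix n n ℂ => err1 r K q.1 q.2 := by
  unfold err1 Umat
  exact Continuous.norm (by fun_prop)

lemma continuous_err2 {n : Type} [Fintype n] [DecidableEq n] (K : Matrix n n ℂ) :
    Continuous fun F : Matrix n n ℂ => err2 K F := by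
  unfold err2 comm
  exact Continuous.norm (by fun_prop)

lemma integral_sub_le {f : ℝ → ℝ} {a b c d : ℝ} (hac : a ≤ c) (hcd : c ≤ d) (hdb : d ≤ b)
    (hf : ContinuousOn f (Icc a b)) (h0 : ∀ x, 0 ≤ f x) :
    ∫ x in c..d, f x ≤ ∫ x in a..b, f x :=
  intervalIntegral.integral_mono_interval hac hcd hdb (Eventually.of_forall h0)
    (hf.intervalIntegrable_of_Icc (hac.trans (hcd.trans hdb)))

theorem block_limit (hγ : 1 / 2 < γ) (hγ' : γ < 3 / 2) (hW : Pot (γ + 1 / 2) W) {N : ℕ → ℕ}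
    (D : ∀ i : ℕ, BData W ((1 / 2 : ℝ) ^ i) (N i)) (hS : ∀ i, Sat γ k (D i))
    (𝒰 : Ultrafilter ℕ) (h𝒰 : (𝒰 : Filter ℕ) ≤ atTop) {κl : ℕ → ℝ}
    (hκl : ∀ j, Tendsto (fun i => ext0 (D i).κ j) 𝒰 (𝓝 (κl j))) {e : ℕ}
    (he : ∀ j < e, κl e < κl j) :
    ∃ (U : Matrix (Fin e) (Fin e) ℂ) (κ c : Fin e → ℝ), Uᴴ * U = 1 ∧ U * Uᴴ = 1 ∧
      (∀ j, 0 < κ j) ∧ ∀ᵐ x : ℝ, Tendsto (fun i => blk e ((D i).A x)) 𝒰
        (𝓝 (U * rdiag (fun j => soliton (γ - 1 / 2)⁻¹ (κ j) (c j) x) * Uᴴ)) := by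
  set r : ℝ := (γ - 1 / 2)⁻¹ with hr
  have hr0 : 0 < r := inv_pos.2 (by linarith)
  have hl0 : ∀ j, 0 ≤ κl j := fun j =>
    ge_of_tendsto' (hκl j) fun i => ext0_nonneg (D i).κ_pos j
  obtain ⟨θ₁, θ₂, h1, h12, h2⟩ : ∃ θ₁ θ₂ : ℝ, κl e < θ₁ ∧ θ₁ < θ₂ ∧ ∀ j : Fin e, θ₂ < κl j := by
    rcases isEmpty_or_nonempty (Fin e) with hn | hn
    · exact ⟨κl e + 1, κl e + 2, by linarith, by linarith, fun j => isEmptyElim j⟩
    · obtain ⟨j, -, hj⟩ := Finset.exists_min_image Finset.univ (fun j : Fin e => κl j)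
        Finset.univ_nonempty
      have := he j j.2
      refine ⟨(2 * κl e + κl j) / 3, (κl e + 2 * κl j) / 3, by linarith, by linarith, fun j' => ?_⟩
      have := hj j' (Finset.mem_univ _)
      linarith
  have hθ₁ : 0 < θ₁ := (hl0 e).trans_lt h1
  have hθ₂ : 0 < θ₂ := hθ₁.trans h12
  set g : ℝ := (θ₂ ^ 2 - θ₁ ^ 2) ^ 2 with hg
  have hg0 : 0 < g := pow_pos (by nlinarith) 2
  have hgap : ∀ᶠ i in (𝒰 : Filter ℕ), e ≤ N i ∧ (∀ j : Fin e, θ₂ ≤ ext0 (D i).κ j) ∧
      ∀ F, ‖offB e F‖ ≤ err2 (D i).K F ^ 2 / g := by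
    filter_upwards [(hκl e).eventually (gt_mem_nhds h1),
      eventually_all.2 fun j : Fin e => (hκl j).eventually (lt_mem_nhds (h2 j))] with i a1 a2
    refine ⟨?_, fun j => (a2 j).le, fun F =>
      norm_offB_le (D i).κ_pos (D i).anti hθ₁.le h12 a1.le (fun j => (a2 j).le) F⟩
    by_contra hc
    have := a2 ⟨N i, not_le.1 hc⟩
    simp only [ext0, lt_irrefl, dif_neg, not_false_eq_true] at this
    linarith
  have ha : Tendsto (fun i => (D i).a) 𝒰 atBot := (seq_a D).mono_left h𝒰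
  have hb : Tendsto (fun i => (D i).b) 𝒰 atTop := (seq_b D).mono_left h𝒰
  have hmem : ∀ x : ℝ, ∀ᶠ i in (𝒰 : Filter ℕ), x ∈ Icc (D i).a (D i).b := fun x => by
    filter_upwards [ha.eventually (eventually_le_atBot x), hb.eventually (eventually_ge_atTop x)]
      with i a1 a2 using ⟨a1, a2⟩
  have hhalf : Tendsto (fun i : ℕ => (1 / 2 : ℝ) ^ i / g) 𝒰 (𝓝 0) := by
    simpa using ((tendsto_pow_atTop_nhds_zero_of_lt_one (r := (1 / 2 : ℝ)) (by norm_num)
      (by norm_num)).mono_left h𝒰).div_const g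
  have he2c : ∀ i, ContinuousOn (fun x => err2 (D i).K ((D i).F x) ^ 2 / g) (Icc (D i).a (D i).b) :=
    fun i => (((continuous_err2 _).comp_continuousOn (D i).F_cont).pow 2).div_const g
  have he2 : ∀ i c d, (D i).a ≤ c → c ≤ d → d ≤ (D i).b →
      ∫ x in c..d, err2 (D i).K ((D i).F x) ^ 2 / g ≤ (1 / 2 : ℝ) ^ i / g := by
    intro i c d h1 h2 h3
    refine (integral_sub_le h1 h2 h3 (he2c i) fun x => by positivity).trans ?_
    rw [intervalIntegral.integral_div]
    exact div_le_div_of_nonneg_right (seq_err2 D hS i) hg0.le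
  have hAc : ∀ i, ContinuousOn (fun x => blk e ((D i).A x) + offB e ((D i).F x))
      (Icc (D i).a (D i).b) := fun i =>
    ((continuous_blk e _).comp (D i).A_cont).continuousOn.add
      ((continuous_offB e _).comp_continuousOn (D i).F_cont)
  have hK : Tendsto (fun i => rdiag fun j : Fin e => ext0 (D i).κ j) 𝒰
      (𝓝 (rdiag fun j : Fin e => κl j)) :=
    (continuous_rdiag.tendsto _).comp (tendsto_pi_nhds.2 fun j => hκl j)
  have hae := seq_ae D hγ hγ' hW hS
  obtain ⟨U, κ, c, hU1, hU2, hκ, hKl, hlim, -⟩ := soliton_limit hr0 hθ₂ 𝒰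
    (fun i => rdiag fun j : Fin e => ext0 (D i).κ j) (fun i x => blk e ((D i).F x))
    (fun i x => blk e ((D i).A x) + offB e ((D i).F x)) (fun i => (D i).a) (fun i => (D i).b)
    (fun i => (D i).η) _ hK
    (by
      filter_upwards [hgap] with i hi
      rw [← rdiag_const, rdiag_sub, rdiag_psd_iff]
      exact fun j => sub_nonneg.2 (hi.2.1 j))
    ha hb ((seq_η D).mono_left h𝒰)
    (by
      filter_upwards [hgap] with i hi
      refine ⟨fun x hx => ⟨?_, ?_, ?_⟩, hAc i, ?_, ?_⟩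
      · have := hdw_mul (hdw_mul (hasDerivWithinAt_const x _ (Pm e (N i))) ((D i).ode x hx))
          (hasDerivWithinAt_const x _ (Pm e (N i))ᴴ)
        refine HasDerivWithinAt.congr_deriv this ?_
        rw [blk_Umat hi.1 _ ((D i).herm x hx)]
        simp only [Matrix.zero_mul, Matrix.mul_zero, zero_add, add_zero, blk, BData.A,
          Matrix.mul_sub, Matrix.sub_mul]
        abel
      · rw [← blk_rdiag hi.1, ← blk_sub]; exact blk_psd ((D i).up x hx)
      · rw [← blk_rdiag hi.1, ← blk_add]; exact blk_psd ((D i).lo x hx)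
      · rw [(D i).Fa, blk_rdiag hi.1]
      · rw [(D i).Fb, ← blk_rdiag hi.1]
        simp only [blk, Matrix.mul_add, Matrix.add_mul, Matrix.mul_neg, Matrix.neg_mul,
          Matrix.mul_smul, Matrix.smul_mul, Matrix.mul_one, Pm_mul_ct hi.1])
    (by
      intro R hR
      have t1 := ((seq_err1 D hS R hR).mono_left h𝒰).add (hhalf.const_mul r)
      rw [mul_zero, add_zero] at t1
      refine squeeze_zero' (Eventually.of_forall fun i =>
        intervalIntegral.integral_nonneg (by linarith) fun x _ => norm_nonneg _) ?_ t1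
      filter_upwards [hgap, hmem (-R), hmem R] with i hi m1 m2
      have hsub : Icc (-R) R ⊆ Icc (D i).a (D i).b := Icc_subset_Icc m1.1 m2.2
      have hRR : -R ≤ R := by linarith
      have c1 : ContinuousOn (fun x => err1 r (D i).K ((D i).F x) ((D i).A x)) (Icc (-R) R) :=
        ((continuous_err1 r _).comp_continuousOn
          ((D i).F_cont.prodMk (D i).A_cont.continuousOn)).mono hsub
      have c2 : ContinuousOn (fun x => err1 r (rdiag fun j : Fin e => ext0 (D i).κ j)
          (blk e ((D i).F x)) (blk e ((D i).A x) + offB e ((D i).F x))) (Icc (-R) R) :=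
        ((continuous_err1 r _).comp_continuousOn
          (((continuous_blk e _).comp_continuousOn (D i).F_cont).prodMk (hAc i))).mono hsub
      have c3 := (he2c i).mono hsub
      calc _ ≤ ∫ x in (-R)..R, (err1 r (D i).K ((D i).F x) ((D i).A x) +
            r * (err2 (D i).K ((D i).F x) ^ 2 / g)) := by
            refine intervalIntegral.integral_mono_on hRR (c2.intervalIntegrable_of_Icc hRR)
              ((c1.intervalIntegrable_of_Icc hRR).add
                ((c3.intervalIntegrable_of_Icc hRR).const_mul r)) fun x hx => ?_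
            exact (err1_blk hi.1 hr0.le _ ((D i).herm x (hsub hx)) _).trans
              (add_le_add le_rfl (mul_le_mul_of_nonneg_left (hi.2.2 _) hr0.le))
        _ ≤ _ := by
            rw [intervalIntegral.integral_add (c1.intervalIntegrable_of_Icc hRR)
              ((c3.intervalIntegrable_of_Icc hRR).const_mul r), intervalIntegral.integral_const_mul]
            exact add_le_add le_rfl
              (mul_le_mul_of_nonneg_left (he2 i _ _ m1.1 hRR m2.2) hr0.le))
    (by
      obtain ⟨x₀, hx₀⟩ := hae.exists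
      exact ⟨x₀, squeeze_zero (fun i => norm_nonneg _) (fun i => err2_blk _ _)
        (hx₀.2.2.1.mono_left h𝒰)⟩)
    (by
      intro c ε hc hε
      obtain ⟨R, hR, hev⟩ := seq_tail D hγ hγ' hW c (ε / 2) hc (half_pos hε)
      refine ⟨R, hR, ?_⟩
      filter_upwards [hgap, h𝒰 hev, hmem (-R), hmem R,
        hhalf.eventually (gt_mem_nhds (half_pos hε))] with i hi hev m1 m2 m3
      have key : ∀ u v, (D i).a ≤ u → u ≤ v → v ≤ (D i).b →
          (∫ x in u..v, max (‖(D i).A x‖ - c) 0) ≤ ε / 2 →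
          (∫ x in u..v, max (‖blk e ((D i).A x) + offB e ((D i).F x)‖ - c) 0) ≤ ε := by
        intro u v h1 h2 h3 h4
        have hsub : Icc u v ⊆ Icc (D i).a (D i).b := Icc_subset_Icc h1 h3
        have c1 : ContinuousOn (fun x => max (‖(D i).A x‖ - c) 0) (Icc u v) :=
          (((D i).A_cont.norm.sub continuous_const).max continuous_const).continuousOn
        have c2 : ContinuousOn
            (fun x => max (‖blk e ((D i).A x) + offB e ((D i).F x)‖ - c) 0) (Icc u v) :=
          ((((hAc i).norm.sub continuousOn_const).sup continuousOn_const)).mono hsub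
        have c3 := (he2c i).mono hsub
        calc _ ≤ ∫ x in u..v, (max (‖(D i).A x‖ - c) 0 + err2 (D i).K ((D i).F x) ^ 2 / g) := by
              refine intervalIntegral.integral_mono_on h2 (c2.intervalIntegrable_of_Icc h2)
                ((c1.intervalIntegrable_of_Icc h2).add (c3.intervalIntegrable_of_Icc h2))
                fun x _ => ?_
              have b1 := norm_add_le (blk e ((D i).A x)) (offB e ((D i).F x))
              have b2 := norm_blk_le (e := e) ((D i).A x)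
              have b3 := hi.2.2 ((D i).F x)
              have b4 := le_max_left (‖(D i).A x‖ - c) 0
              have b5 := le_max_right (‖(D i).A x‖ - c) 0
              have b6 : 0 ≤ err2 (D i).K ((D i).F x) ^ 2 / g := by positivity
              exact max_le (by linarith) (by linarith)
          _ ≤ _ := by
              rw [intervalIntegral.integral_add (c1.intervalIntegrable_of_Icc h2)
                (c3.intervalIntegrable_of_Icc h2)]
              linarith [he2 i u v h1 h2 h3]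
      exact ⟨key _ _ m2.1 m2.2 le_rfl hev.1, key _ _ le_rfl m1.1 m1.2 hev.2⟩)
  refine ⟨U, κ, c, hU1, hU2, hκ, ?_⟩
  filter_upwards [hae] with x hx
  have t1 : Tendsto (fun i => blk e ((D i).F x)) 𝒰 (𝓝 (flow r U κ c x)) :=
    (hlim |x|).tendsto_at ⟨neg_abs_le x, le_abs_self x⟩
  have t2 : Tendsto (fun i => offB e ((D i).F x)) 𝒰 (𝓝 0) := by
    refine tendsto_zero_iff_norm_tendsto_zero.2 (squeeze_zero'
      (Eventually.of_forall fun i => norm_nonneg _) (hgap.mono fun i hi => hi.2.2 _) ?_)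
    simpa using ((hx.2.2.1.mono_left h𝒰).pow 2).div_const g
  have t3 : Tendsto (fun i => blk e ((D i).A x - (r + 1) • Umat (D i).K ((D i).F x))) 𝒰 (𝓝 0) :=
    tendsto_zero_iff_norm_tendsto_zero.2 (squeeze_zero (fun i => norm_nonneg _)
      (fun i => norm_blk_le _) (hx.2.1.mono_left h𝒰))
  have t4 : Tendsto (fun i => Umat (rdiag fun j : Fin e => ext0 (D i).κ j) (blk e ((D i).F x))) 𝒰
      (𝓝 (Umat (rdiag fun j : Fin e => κl j) (flow r U κ c x))) :=
    (hK.mul hK).sub (t1.mul t1)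
  have t5 := t3.add ((t4.sub t2).const_smul (r + 1))
  rw [zero_add, sub_zero, hKl, Umat_flow hU1] at t5
  refine t5.congr' ?_
  filter_upwards [hgap, hmem x] with i hi hxi
  rw [blk_Umat hi.1 _ ((D i).herm x hxi), blk_sub, blk_smul, BData.K, add_sub_cancel_right,
    sub_add_cancel]

lemma det_eq_zero_of_lt {e : ℕ} (h : m < e) (X : Matrix (Fin e) (Fin m) ℂ)
    (Y : Matrix (Fin m) (Fin e) ℂ) : (X * Y).det = 0 := by
  by_contra hc
  have h1 := rank_of_isUnit (X * Y) ((isUnit_iff_isUnit_det _).2 (isUnit_iff_ne_zero.2 hc))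
  have h2 := (rank_mul_le_left X Y).trans (rank_le_width X)
  rw [h1, Fintype.card_fin] at h2
  omega

theorem stage1 (hγ : 1 / 2 < γ) (hγ' : γ < 3 / 2) (hW : Pot (γ + 1 / 2) W)
    (h : ∀ ε : ℝ, 0 < ε → ∃ (N : ℕ) (D : BData W ε N), Sat γ k D) :
    ∃ A c : ℝ, 0 < c ∧ ∀ᵐ x : ℝ, ‖W x‖ ≤ A * Real.exp (-c * |x|) := by
  choose N D hS using fun i : ℕ => h ((1 / 2 : ℝ) ^ i) (by positivity)
  set 𝒰 : Ultrafilter ℕ := hyperfilter ℕ with h𝒰def
  have h𝒰 : (𝒰 : Filter ℕ) ≤ atTop := Nat.hyperfilter_le_atTop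
  set r : ℝ := (γ - 1 / 2)⁻¹ with hr
  have hr0 : 0 < r := inv_pos.2 (by linarith)
  have hk : 0 ≤ k := (Finset.sum_nonneg fun i _ =>
    Real.rpow_nonneg ((D 0).κ_pos i).le _).trans (hS 0).sum_le
  have hex : ∀ j, ∃ l, Tendsto (fun i => ext0 (D i).κ j) 𝒰 (𝓝 l) := by
    intro j
    have : (↑(𝒰.map fun i => ext0 (D i).κ j) : Filter ℝ) ≤ 𝓟 (Icc 0 k) := by
      rw [Filter.le_principal_iff]
      exact (Eventually.of_forall fun i =>
        ⟨ext0_nonneg (D i).κ_pos j, ext0_le hk (hS i).κ_le j⟩ :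
          ∀ᶠ i in (𝒰 : Filter ℕ), ext0 (D i).κ j ∈ Icc 0 k)
    obtain ⟨l, -, hl⟩ := isCompact_Icc.ultrafilter_le_nhds _ this
    exact ⟨l, hl⟩
  choose κl hκl using hex
  have hl0 : ∀ j, 0 ≤ κl j := fun j =>
    ge_of_tendsto' (hκl j) fun i => ext0_nonneg (D i).κ_pos j
  have hanti : Antitone κl := fun i j hij =>
    le_of_tendsto_of_tendsto' (hκl j) (hκl i) fun n => ext0_anti (D n).κ_pos (D n).anti hij
  have h2γ : 0 < 2 * γ := by linarith
  have hcount : ∀ j : ℕ, ((j : ℝ) + 1) * κl j ^ (2 * γ) ≤ k := fun j =>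
    le_of_tendsto' ((((Real.continuous_rpow_const h2γ.le).tendsto _).comp (hκl j)).const_mul _)
      fun i => (ext0_count (D i).κ_pos (D i).anti h2γ j).trans (hS i).sum_le
  have hm : κl m = 0 := by
    by_contra hne
    have hpos : 0 < κl m := lt_of_le_of_ne (hl0 m) (Ne.symm hne)
    have hex : ∃ j, κl j < κl m := by
      by_contra hc
      push Not at hc
      obtain ⟨j, hj⟩ := exists_nat_gt (k / κl m ^ (2 * γ))
      have h1 := hcount j
      have h2 := Real.rpow_le_rpow hpos.le (hc j) h2γ.le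
      have h3 := Real.rpow_pos_of_pos hpos (2 * γ)
      rw [div_lt_iff₀ h3] at hj
      nlinarith
    obtain ⟨e, h2, h3⟩ : ∃ e, (∀ j < e, κl e < κl j) ∧ m < e := by
      classical
      have h1 := Nat.find_spec hex
      refine ⟨Nat.find hex, fun j hj => h1.trans_le (not_lt.1 (Nat.find_min hex hj)), ?_⟩
      by_contra hc
      exact absurd (hanti (not_lt.1 hc)) (not_le.2 h1)
    obtain ⟨U, κ, c, hU1, hU2, hκ, hae⟩ := block_limit hγ hγ' hW D hS 𝒰 h𝒰 hκl h2
    obtain ⟨x, hx⟩ := hae.exists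
    have t1 := (continuous_id.matrix_det.tendsto _).comp hx
    have t2 : (fun i => (blk e ((D i).A x)).det) = fun _ => 0 := by
      funext i
      have := det_eq_zero_of_lt h3 (Pm e (N i) * (D i).V x)
        ((D i).Wc x * ((D i).V x)ᴴ * (Pm e (N i))ᴴ)
      rw [← this]
      simp only [blk, BData.A, Matrix.mul_assoc]
    have t3 : (U * rdiag (fun j => soliton r (κ j) (c j) x) * Uᴴ).det = 0 :=
      tendsto_nhds_unique t1 (by
        change Tendsto (fun i => (blk e ((D i).A x)).det) _ _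
        rw [t2]; exact tendsto_const_nhds)
    rw [det_mul, det_mul, mul_right_comm, ← det_mul, hU2, det_one, one_mul, rdiag, det_diagonal,
      Finset.prod_eq_zero_iff] at t3
    obtain ⟨j, -, hj⟩ := t3
    exact (soliton_pos hr0 (hκ j) (c j) x).ne' (by exact_mod_cast hj)
  obtain ⟨e, h1, h2⟩ : ∃ e, κl e = 0 ∧ ∀ j < e, κl e < κl j := by
    classical
    have hex : ∃ j, κl j ≤ 0 := ⟨m, hm.le⟩
    have h1 : κl (Nat.find hex) = 0 := le_antisymm (Nat.find_spec hex) (hl0 _)
    exact ⟨_, h1, fun j hj => h1.trans_lt (not_le.1 (Nat.find_min hex hj))⟩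
  obtain ⟨U, κ, c, hU1, hU2, hκ, hae⟩ := block_limit hγ hγ' hW D hS 𝒰 h𝒰 hκl h2
  obtain ⟨c₀, hc₀, hc⟩ : ∃ c₀ : ℝ, 0 < c₀ ∧ ∀ j, c₀ ≤ 2 * r * κ j := by
    rcases isEmpty_or_nonempty (Fin e) with hn | hn
    · exact ⟨1, one_pos, fun j => isEmptyElim j⟩
    · obtain ⟨j, -, hj⟩ := Finset.exists_min_image Finset.univ (fun j => 2 * r * κ j)
        Finset.univ_nonempty
      exact ⟨_, by have := hκ j; positivity, fun j' => hj j' (Finset.mem_univ _)⟩
  refine ⟨∑ j, (r + 1) * κ j ^ 2 * 4 * Real.exp (2 * r * κ j * |c j|), c₀, hc₀, ?_⟩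
  have ha : Tendsto (fun i => (D i).a) 𝒰 atBot := (seq_a D).mono_left h𝒰
  have hb : Tendsto (fun i => (D i).b) 𝒰 atTop := (seq_b D).mono_left h𝒰
  filter_upwards [hae, seq_ae D hγ hγ' hW hS] with x hx hx'
  set s : ℝ := ∑ j, soliton r (κ j) (c j) x with hs
  have hs0 : 0 ≤ s := Finset.sum_nonneg fun j _ => (soliton_pos hr0 (hκ j) _ _).le
  have t1 : Tendsto (fun i => rtr (blk e ((D i).A x)) +
      m * ((r + 1) * ext0 (D i).κ e ^ 2 + err1 r (D i).K ((D i).F x) ((D i).A x))) 𝒰 (𝓝 s) := by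
    have u1 := (continuous_rtr.tendsto _).comp hx
    rw [Matrix.mul_assoc, rtr_mul_comm, Matrix.mul_assoc, hU1, Matrix.mul_one, rtr_rdiag] at u1
    have u2 := ((((hκl e).pow 2).const_mul (r + 1)).add (hx'.2.1.mono_left h𝒰)).const_mul (m : ℝ)
    rw [h1, zero_pow two_ne_zero, mul_zero, add_zero, mul_zero] at u2
    have u3 := u1.add u2
    rw [add_zero] at u3
    exact u3
  have hp0 : 0 < γ + 1 / 2 := by linarith
  have t2 : trp (γ + 1 / 2) (W x) ≤ s ^ (γ + 1 / 2) := by
    refine le_of_tendsto_of_tendsto (hx'.2.2.2.mono_left h𝒰)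
      (((Real.continuous_rpow_const hp0.le).tendsto _).comp t1) ?_
    filter_upwards [ha.eventually (eventually_le_atBot x), hb.eventually (eventually_ge_atTop x)]
      with i a1 a2
    refine (trp_le_rtr_rpow (by linarith) ((D i).A_psd x)).trans
      (Real.rpow_le_rpow (rtr_nonneg ((D i).A_psd x)) ?_ hp0.le)
    rw [rtr_split (e := e)]
    refine add_le_add le_rfl ?_
    have b1 := tail_block_le (e := e) (D i).κ_pos (D i).anti hr0.le ((D i).herm x ⟨a1, a2⟩)
      ((D i).A_psd x).1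
    have e1 : Qm e (N i) * (D i).A x * (Qm e (N i))ᴴ =
        (Qm e (N i) * (D i).V x) * (D i).Wc x * (Qm e (N i) * (D i).V x)ᴴ := by
      simp only [BData.A, conjTranspose_mul, Matrix.mul_assoc]
    rw [e1] at b1 ⊢
    have b2 := rtr_le_of_rank ((D i).Wc_psd x)
      (add_nonneg (by positivity) (norm_nonneg _)) b1
    rw [Fintype.card_fin] at b2
    exact b2
  have t3 : ‖W x‖ ≤ s :=
    (Real.rpow_le_rpow_iff (norm_nonneg _) hs0 hp0).1
      ((norm_rpow_le_trp hp0 (by linarith) (hW.psd x)).trans t2)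
  refine t3.trans ?_
  rw [Finset.sum_mul]
  exact Finset.sum_le_sum fun j _ => soliton_le_exp hr0 (hκ j) (hc j) _ _

end Crest.Agent.R332
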