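import Crest.Agent.R332.Limit

/-!
Row 332: limit of the weighted trial functions and of their polar parts.
-/

set_option autoImplicit false
set_option linter.unusedSectionVars false

open Matrix MeasureTheory Set Filter Topology Crest.Agent.R342
open scoped ComplexOrder Matrix.Norms.Frobenius

namespace Crest.Agent.R332

section abstract
variable {E E' : Type*} [NormedAddCommGroup E] [NormedSpace ℝ E] [CompleteSpace E]
  [NormedAddCommGroup E'] [NormedSpace ℝ E'] [CompleteSpace E']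

lemma zl_norm_sub_le {f f' : ℝ → E} {g : ℝ → ℝ} {a b : ℝ} (hf : ∀ y, HasDerivAt f (f' y) y)
    (hc : Continuous f') (hg : ContinuousOn g (Icc a b)) (hle : ∀ y ∈ Icc a b, ‖f' y‖ ≤ g y)
    {x y : ℝ} (hx : x ∈ Icc a b) (hy : y ∈ Icc a b) : ‖f x - f y‖ ≤ ∫ t in a..b, g t := by
  wlog h : y ≤ x generalizing x y
  · rw [norm_sub_rev]; exact this hy hx (le_of_not_ge h)
  have hab : a ≤ b := hx.1.trans hx.2
  have hsub : Icc y x ⊆ Icc a b := Icc_subset_Icc hy.1 hx.2
  rw [← intervalIntegral.integral_eq_sub_of_hasDerivAt (fun t _ => hf t)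
    (hc.intervalIntegrable _ _)]
  have hgi : IntervalIntegrable g volume a b := hg.intervalIntegrable_of_Icc hab
  calc ‖∫ t in y..x, f' t‖ ≤ ∫ t in y..x, ‖f' t‖ := intervalIntegral.norm_integral_le_integral_norm h
    _ ≤ ∫ t in y..x, g t := intervalIntegral.integral_mono_on h (hc.norm.intervalIntegrable _ _)
        ((hg.mono hsub).intervalIntegrable_of_Icc h) fun t ht => hle t (hsub ht)
    _ ≤ ∫ t in a..b, g t := by
        refine intervalIntegral.integral_mono_interval hy.1 h hx.2 ?_ hgi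
        refine (ae_restrict_iff' measurableSet_Ioc).mpr (Eventually.of_forall fun t ht => ?_)
        exact (norm_nonneg _).trans (hle t (Ioc_subset_Icc_self ht))

lemma zl_tendsto_integral {ι : Type*} {L : Filter ι} {W : ι → ℝ → E} {D : E} {G : E → ℝ → E'}
    {R : ℝ} (hR : 0 < R) (hG : Continuous G.uncurry) (hWc : ∀ i, Continuous (W i))
    (hW : ∀ ε > 0, ∀ᶠ i in L, ∀ x ∈ Icc (-R) R, ‖W i x - D‖ < ε) :
    Tendsto (fun i => ∫ x in (-R)..R, G (W i x) x) L (𝓝 (∫ x in (-R)..R, G D x)) := by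
  rw [Metric.tendsto_nhds]
  intro ε hε
  obtain ⟨v, hv, hv'⟩ := IsCompact.mem_uniformity_of_prod (f := G) (q := D) (s := univ)
    (isCompact_Icc (a := -R) (b := R)) hG.continuousOn (mem_univ _)
    (Metric.dist_mem_uniformity (show 0 < ε / (4 * R) by positivity))
  rw [nhdsWithin_univ] at hv
  obtain ⟨δ, hδ, hδ'⟩ := Metric.mem_nhds_iff.mp hv
  filter_upwards [hW δ hδ] with i hi
  have c1 : Continuous fun x => G (W i x) x :=
    hG.comp (f := fun x => (W i x, x)) ((hWc i).prodMk continuous_id)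
  have c2 : Continuous fun x => G D x := hG.comp (f := fun x => (D, x)) (by fun_prop)
  rw [dist_eq_norm, ← intervalIntegral.integral_sub (c1.intervalIntegrable _ _)
    (c2.intervalIntegrable _ _)]
  have h := intervalIntegral.norm_integral_le_of_norm_le_const (a := -R) (b := R)
    (C := ε / (4 * R)) (f := fun x => G (W i x) x - G D x) (fun x hx => by
      rw [uIoc_of_le (by linarith)] at hx
      have hx' := Ioc_subset_Icc_self hx
      have : dist (G (W i x) x) (G D x) < ε / (4 * R) :=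
        hv' (W i x) (hδ' (by simpa [dist_eq_norm] using hi x hx')) x hx'
      simpa [dist_eq_norm] using this.le)
  refine h.trans_lt ?_
  rw [sub_neg_eq_add, abs_of_pos (by linarith)]
  field_simp
  linarith

lemma zl_int_mono {f : ℝ → ℝ} {a b p q : ℝ} (hap : a ≤ p) (hpq : p ≤ q) (hqb : q ≤ b)
    (hf : ContinuousOn f (Icc a b)) (h0 : ∀ x, 0 ≤ f x) :
    ∫ x in p..q, f x ≤ ∫ x in a..b, f x :=
  intervalIntegral.integral_mono_interval hap hpq hqb (Eventually.of_forall h0)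
    (hf.intervalIntegrable_of_Icc (hap.trans (hpq.trans hqb)))

end abstract

/-- `cosh (r κ (x - c)) ^ (σ / r)` -/
noncomputable def zphi (σ r κ c x : ℝ) : ℝ :=
  Real.exp (σ / r * Real.log (Real.cosh (r * κ * (x - c))))

lemma zphi_pos (σ r κ c x : ℝ) : 0 < zphi σ r κ c x := Real.exp_pos _

lemma zphi_mul (r κ c x : ℝ) : zphi (-1) r κ c x * zphi 1 r κ c x = 1 := by
  unfold zphi
  rw [← Real.exp_add, ← Real.exp_zero]
  congr 1; ring

lemma continuous_zphi (σ r κ c : ℝ) : Continuous (zphi σ r κ c) := by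
  unfold zphi
  refine Real.continuous_exp.comp (continuous_const.mul ?_)
  exact Continuous.log (by fun_prop) fun x => (Real.cosh_pos _).ne'

lemma hasDerivAt_zphi {r : ℝ} (hr : 0 < r) (κ c x : ℝ) :
    HasDerivAt (zphi 1 r κ c) (zphi 1 r κ c x * (κ * Real.tanh (r * κ * (x - c)))) x := by
  have h1 : HasDerivAt (fun x => r * κ * (x - c)) (r * κ) x := by
    simpa using ((hasDerivAt_id x).sub_const c).const_mul (r * κ)
  have h2 := (h1.cosh.log (Real.cosh_pos _).ne').const_mul (1 / r)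
  have h3 := h2.exp
  have e : 1 / r * (Real.sinh (r * κ * (x - c)) * (r * κ) / Real.cosh (r * κ * (x - c))) =
      κ * Real.tanh (r * κ * (x - c)) := by
    rw [Real.tanh_eq_sinh_div_cosh]
    field_simp
  rw [e] at h3
  exact h3

lemma tendsto_zphi {ι : Type*} {L : Filter ι} {r κ c : ℝ} (hr : 0 < r) (hκ : 0 < κ) {y : ι → ℝ}
    (hy : Tendsto (fun i => |y i - c|) L atTop) :
    Tendsto (fun i => zphi (-1) r κ c (y i)) L (𝓝 0) := by
  unfold zphi
  refine Real.tendsto_exp_atBot.comp ?_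
  refine Tendsto.const_mul_atTop_of_neg (by rw [neg_div]; exact neg_neg_of_pos (by positivity)) ?_
  refine Real.tendsto_log_atTop.comp ?_
  refine tendsto_atTop_mono (fun i => ?_) (hy.const_mul_atTop (mul_pos hr hκ))
  have h1 : r * κ * |y i - c| = |r * κ * (y i - c)| := by
    rw [abs_mul, abs_of_pos (mul_pos hr hκ)]
  rw [h1, ← Real.cosh_abs]
  exact (Real.self_le_sinh_iff.mpr (abs_nonneg _)).trans (Real.sinh_lt_cosh _).le

variable {n l : Type} [Fintype n] [DecidableEq n] [Fintype l] [DecidableEq l]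

lemma zl_tail {Z Z' : ℝ → Matrix n l ℂ} {F : ℝ → Matrix n n ℂ} {p q κ₁ σ : ℝ} (hκ : 0 < κ₁)
    (hσ : |σ| = 1) (hpq : p ≤ q) (hZ : ∀ x, HasDerivAt Z (Z' x) x) (hZ' : Continuous Z')
    (hF : ContinuousOn F (Icc p q))
    (hpos : ∀ x ∈ Icc p q, (σ • F x - κ₁ • (1 : Matrix n n ℂ)).PosSemidef) :
    κ₁ * ∫ x in p..q, ‖Z x‖ ^ 2 ≤
      σ * (‖Z q‖ ^ 2 - ‖Z p‖ ^ 2) + κ₁⁻¹ * ∫ x in p..q, ‖Z' x - F x * Z x‖ ^ 2 := by
  have hZc : Continuous Z := continuous_iff_continuousAt.mpr fun x => (hZ x).continuousAt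
  have hd : ∀ x, HasDerivAt (fun x => ‖Z x‖ ^ 2) (2 * rtr ((Z x)ᴴ * Z' x)) x := by
    intro x
    have h := hda_rtr (hda_mul (hda_ct (hZ x)) (hZ x))
    simp only [← norm_sq_eq_rtr] at h
    convert h using 1
    rw [rtr_add, ← rtr_ct ((Z' x)ᴴ * Z x), conjTranspose_mul, conjTranspose_conjTranspose]
    ring
  have hc : Continuous fun x => 2 * rtr ((Z x)ᴴ * Z' x) :=
    continuous_const.mul (continuous_rtr.comp (hZc.matrix_conjTranspose.matrix_mul hZ'))
  have hE : ContinuousOn (fun x => ‖Z' x - F x * Z x‖ ^ 2) (Icc p q) := by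
    refine (ContinuousOn.norm (hZ'.continuousOn.sub ?_)).pow 2
    exact (continuous_fst.matrix_mul continuous_snd).comp_continuousOn
      (hF.prodMk hZc.continuousOn)
  have i1 : IntervalIntegrable (fun x => ‖Z x‖ ^ 2) volume p q :=
    (hZc.norm.pow 2).intervalIntegrable _ _
  have i2 := hE.intervalIntegrable_of_Icc (μ := volume) hpq
  have i3 := hc.intervalIntegrable (μ := volume) p q
  rw [← intervalIntegral.integral_eq_sub_of_hasDerivAt (fun t _ => hd t) i3,
    ← intervalIntegral.integral_const_mul, ← intervalIntegral.integral_const_mul,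
    ← intervalIntegral.integral_const_mul,
    ← intervalIntegral.integral_add (i3.const_mul _) (i2.const_mul _)]
  refine intervalIntegral.integral_mono_on hpq (i1.const_mul _)
    ((i3.const_mul _).add (i2.const_mul _)) fun x hx => ?_
  set e := Z' x - F x * Z x with he
  have h1 := rtr_nonneg ((hpos x hx).conjTranspose_mul_mul_same (Z x))
  have e1 : (Z x)ᴴ * (σ • F x - κ₁ • (1 : Matrix n n ℂ)) * Z x =
      σ • ((Z x)ᴴ * (F x * Z x)) - κ₁ • ((Z x)ᴴ * Z x) := by
    simp only [Matrix.mul_sub, Matrix.sub_mul, Matrix.mul_smul, Matrix.smul_mul, Matrix.mul_one,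
      Matrix.mul_assoc]
  rw [e1, rtr_sub, rtr_smul, rtr_smul, ← norm_sq_eq_rtr] at h1
  have e2 : rtr ((Z x)ᴴ * Z' x) = rtr ((Z x)ᴴ * (F x * Z x)) + rtr ((Z x)ᴴ * e) := by
    rw [← rtr_add, ← Matrix.mul_add, he]; congr 2; abel
  have h2 := abs_rtr_mul_le (Z x)ᴴ e
  rw [norm_ct] at h2
  have h3 : -(‖Z x‖ * ‖e‖) ≤ σ * rtr ((Z x)ᴴ * e) := by
    have := neg_abs_le (σ * rtr ((Z x)ᴴ * e))
    rw [abs_mul, hσ, one_mul] at this
    linarith
  have h4 : 2 * (‖Z x‖ * ‖e‖) ≤ κ₁ * ‖Z x‖ ^ 2 + κ₁⁻¹ * ‖e‖ ^ 2 := by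
    have h5 : 0 ≤ κ₁⁻¹ * (κ₁ * ‖Z x‖ - ‖e‖) ^ 2 := by positivity
    have h6 : κ₁⁻¹ * (κ₁ * ‖Z x‖ - ‖e‖) ^ 2 =
        κ₁ * ‖Z x‖ ^ 2 + κ₁⁻¹ * ‖e‖ ^ 2 - 2 * (‖Z x‖ * ‖e‖) := by
      field_simp; ring
    linarith
  rw [e2]
  nlinarith

set_option maxHeartbeats 1000000 in
theorem z_limit {r κ₁ k R₀ : ℝ} (hr : 0 < r) (hκ₁ : 0 < κ₁) (𝒰 : Ultrafilter ℕ)
    (Z Z' : ℕ → ℝ → Matrix n l ℂ) (F : ℕ → ℝ → Matrix n n ℂ) (a b : ℕ → ℝ)
    {U : Matrix n n ℂ} (h1 : Uᴴ * U = 1) (h2 : U * Uᴴ = 1) {κ c g : n → ℝ} (hκ : ∀ j, 0 < κ j)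
    (hg : ∀ j, 0 < g j) (ha : Tendsto a 𝒰 atBot) (hb : Tendsto b 𝒰 atTop)
    (hZ : ∀ i x, HasDerivAt (Z i) (Z' i x) x) (hZ' : ∀ i, Continuous (Z' i))
    (hsupp : ∀ i x, x ∉ Ioo (a i) (b i) → Z i x = 0)
    (hF : ∀ i, ContinuousOn (F i) (Icc (a i) (b i)))
    (hFk : ∀ i, ∀ x ∈ Icc (a i) (b i), OpLe (F i x) k)
    (hlim : ∀ R : ℝ, TendstoUniformlyOn F (flow r U κ c) 𝒰 (Icc (-R) R))
    (htail : ∀ᶠ i in 𝒰,
      (∀ x ∈ Icc R₀ (b i), (-F i x - κ₁ • (1 : Matrix n n ℂ)).PosSemidef) ∧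
      (∀ x ∈ Icc (a i) (-R₀), (F i x - κ₁ • (1 : Matrix n n ℂ)).PosSemidef))
    (hsq : Tendsto (fun i => ∫ x in (a i)..(b i), ‖Z' i x - F i x * Z i x‖ ^ 2) 𝒰 (𝓝 0))
    (hgram : Tendsto (fun i => ∫ x, Z i x * (Z i x)ᴴ) 𝒰 (𝓝 (U * rdiag g * Uᴴ))) :
    ∃ (D : Matrix n l ℂ) (s : ℝ → n → ℝ), D * Dᴴ = 1 ∧ (∀ x j, 0 < s x j) ∧
      ∀ x, Tendsto (fun i => Z i x) 𝒰 (𝓝 (U * rdiag (s x) * D)) := by
  have hZc : ∀ i, Continuous (Z i) := fun i =>
    continuous_iff_continuousAt.mpr fun x => (hZ i x).continuousAt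
  have hZZ : ∀ i, Continuous fun x => Z i x * (Z i x)ᴴ := fun i =>
    (hZc i).matrix_mul (hZc i).matrix_conjTranspose
  have hwin : ∀ R : ℝ, ∀ᶠ i in 𝒰, a i ≤ -R ∧ R ≤ b i := fun R =>
    (ha.eventually (eventually_le_atBot _)).and (hb.eventually (eventually_ge_atTop _))
  have hE : ∀ i, ContinuousOn (fun x => ‖Z' i x - F i x * Z i x‖ ^ 2) (Icc (a i) (b i)) := by
    intro i
    refine (ContinuousOn.norm ((hZ' i).continuousOn.sub ?_)).pow 2
    exact (continuous_fst.matrix_mul continuous_snd).comp_continuousOn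
      ((hF i).prodMk (hZc i).continuousOn)
  have hgr : ∀ i, ∫ x, Z i x * (Z i x)ᴴ = ∫ x in (a i)..(b i), Z i x * (Z i x)ᴴ := by
    intro i
    refine (intervalIntegral.integral_eq_integral_of_support_subset fun x hx => ?_).symm
    by_contra h
    exact hx (by simp [hsupp i x fun h' => h (Ioo_subset_Ioc_self h')])
  -- uniform `L²` bound
  obtain ⟨M, hM0, hM⟩ : ∃ M : ℝ, 0 ≤ M ∧ ∀ᶠ i in 𝒰, ∫ x in (a i)..(b i), ‖Z i x‖ ^ 2 ≤ M := by
    have ht := (continuous_rtr.tendsto _).comp hgram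
    refine ⟨|rtr (U * rdiag g * Uᴴ)| + 1, by positivity, ?_⟩
    filter_upwards [ht.eventually (gt_mem_nhds (lt_add_one _)), hwin 0] with i hi hw
    have hab : a i ≤ b i := by linarith [hw.1, hw.2]
    simp only [Function.comp, hgr] at hi
    have e : ∫ x in (a i)..(b i), ‖Z i x‖ ^ 2 = rtr (∫ x in (a i)..(b i), Z i x * (Z i x)ᴴ) := by
      simp only [norm_sq_eq_rtr']
      exact rtrL.intervalIntegral_comp_comm ((hZZ i).intervalIntegrable (μ := volume) _ _)
    rw [e]
    linarith [le_abs_self (rtr (U * rdiag g * Uᴴ))]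
  set P : ℝ → Matrix n n ℂ := fun x => rdiag (fun j => zphi 1 r (κ j) (c j) x) * Uᴴ with hP
  set Q : ℝ → Matrix n n ℂ := fun x => U * rdiag (fun j => zphi (-1) r (κ j) (c j) x) with hQ
  have hPc : Continuous P :=
    (continuous_rdiag.comp (continuous_pi fun j => continuous_zphi _ _ _ _)).matrix_mul
      continuous_const
  have hQc : Continuous Q :=
    continuous_const.matrix_mul
      (continuous_rdiag.comp (continuous_pi fun j => continuous_zphi _ _ _ _))
  have hQP : ∀ x, Q x * P x = 1 := fun x => by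
    simp only [hP, hQ]
    rw [Matrix.mul_assoc, ← Matrix.mul_assoc (rdiag _), rdiag_mul]
    simp only [zphi_mul]
    rw [rdiag_const, one_smul, Matrix.one_mul, h2]
  have hflc : Continuous (flow r U κ c) := by
    unfold flow
    refine (continuous_const.matrix_mul (continuous_rdiag.comp (continuous_pi fun j => ?_))).matrix_mul
      continuous_const
    simp only [Real.tanh_eq_sinh_div_cosh]
    exact continuous_const.mul (Continuous.div (by fun_prop) (by fun_prop)
      fun x => (Real.cosh_pos _).ne')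
  have hPd : ∀ x, HasDerivAt P (-(P x * flow r U κ c x)) x := by
    intro x
    have h := hda_mul (hasDerivAt_rdiag fun j => hasDerivAt_zphi hr (κ j) (c j) x)
      (hasDerivAt_const x Uᴴ)
    convert h using 1
    simp only [hP, flow, Matrix.mul_zero, add_zero]
    have e : ∀ A B : Matrix n n ℂ, A * Uᴴ * (U * B * Uᴴ) = A * B * Uᴴ := fun A B => by
      calc A * Uᴴ * (U * B * Uᴴ) = A * (Uᴴ * U) * B * Uᴴ := by simp only [Matrix.mul_assoc]
        _ = _ := by rw [h1, Matrix.mul_one]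
    rw [e, rdiag_mul, ← Matrix.neg_mul, rdiag_neg]
    congr 2
    funext j; ring
  set W : ℕ → ℝ → Matrix n l ℂ := fun i x => P x * Z i x with hW
  have hWc : ∀ i, Continuous (W i) := fun i => hPc.matrix_mul (hZc i)
  have hZW : ∀ i x, Z i x = Q x * W i x := fun i x => by
    simp only [hW]; rw [← Matrix.mul_assoc, hQP, Matrix.one_mul]
  have hWd : ∀ i x, HasDerivAt (W i) (P x * (Z' i x - flow r U κ c x * Z i x)) x := by
    intro i x
    convert hda_mul (hPd x) (hZ i x) using 1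
    simp only [Matrix.mul_sub, Matrix.neg_mul, Matrix.mul_assoc]
    abel
  have hdrift : ∀ R > 0, ∀ ε > 0, ∀ᶠ i in 𝒰, ∀ x ∈ Icc (-R) R, ‖W i x - W i 0‖ < ε := by
    intro R hR ε hε
    obtain ⟨Φ, hΦ⟩ := (isCompact_Icc (a := -R) (b := R)).exists_bound_of_continuousOn
      hPc.continuousOn
    have hΦ0 : 0 ≤ Φ := (norm_nonneg _).trans (hΦ 0 ⟨by linarith, hR.le⟩)
    obtain ⟨θ, hθ, hθε⟩ : ∃ θ : ℝ, 0 < θ ∧ Φ * (θ * (4 * R + 1 + M)) < ε := by
      refine ⟨ε / ((Φ + 1) * (4 * R + 1 + M)), by positivity, ?_⟩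
      have : Φ * (ε / ((Φ + 1) * (4 * R + 1 + M)) * (4 * R + 1 + M)) = ε * (Φ / (Φ + 1)) := by
        field_simp
      rw [this]
      exact mul_lt_of_lt_one_right hε (by rw [div_lt_one (by positivity)]; linarith)
    filter_upwards [hM, hwin R, tuo_iff.mp (hlim R) θ hθ,
      hsq.eventually (gt_mem_nhds (show (0 : ℝ) < θ ^ 2 by positivity))] with i hMi hw hfl hsqi x hx
    have hsub : Icc (-R) R ⊆ Icc (a i) (b i) := Icc_subset_Icc hw.1 hw.2
    have hRR : -R ≤ R := by linarith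
    have cE := (hE i).mono hsub
    have cZ : Continuous fun x => ‖Z i x‖ ^ 2 := (hZc i).norm.pow 2
    have h := zl_norm_sub_le (a := -R) (b := R) (hWd i)
      (hPc.matrix_mul ((hZ' i).sub (hflc.matrix_mul (hZc i))))
      (g := fun y => Φ * (2 * θ + θ⁻¹ * ‖Z' i y - F i y * Z i y‖ ^ 2 + θ * ‖Z i y‖ ^ 2))
      (continuousOn_const.mul ((continuousOn_const.add (continuousOn_const.mul cE)).add
        (continuousOn_const.mul cZ.continuousOn)))
      (fun y hy => by
        refine (norm_mul_le' _ _).trans (mul_le_mul (hΦ y hy) ?_ (norm_nonneg _) hΦ0)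
        have e : Z' i y - flow r U κ c y * Z i y =
            (Z' i y - F i y * Z i y) - (flow r U κ c y - F i y) * Z i y := by
          rw [Matrix.sub_mul]; abel
        rw [e]
        have t1 := norm_sub_le (Z' i y - F i y * Z i y) ((flow r U κ c y - F i y) * Z i y)
        have t2 := norm_mul_le' (flow r U κ c y - F i y) (Z i y)
        have t3 := mul_le_mul_of_nonneg_right (hfl y hy).le (norm_nonneg (Z i y))
        have t4 : ‖Z i y‖ ≤ 1 + ‖Z i y‖ ^ 2 := by nlinarith [norm_nonneg (Z i y)]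
        have t5 := mul_le_mul_of_nonneg_left t4 hθ.le
        have t6 : ‖Z' i y - F i y * Z i y‖ ≤ θ + θ⁻¹ * ‖Z' i y - F i y * Z i y‖ ^ 2 := by
          set e := ‖Z' i y - F i y * Z i y‖
          have e0 : 0 ≤ e := norm_nonneg _
          have h5 : 0 ≤ θ⁻¹ * (θ - e) ^ 2 := by positivity
          have h6 : θ⁻¹ * (θ - e) ^ 2 = θ + θ⁻¹ * e ^ 2 - 2 * e := by field_simp; ring
          linarith
        linarith)
      hx (show (0 : ℝ) ∈ Icc (-R) R from ⟨by linarith, hR.le⟩)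
    refine h.trans_lt (lt_of_le_of_lt ?_ hθε)
    have iE := cE.intervalIntegrable_of_Icc (μ := volume) hRR
    have iZ := cZ.intervalIntegrable (μ := volume) (-R) R
    rw [intervalIntegral.integral_const_mul,
      intervalIntegral.integral_add (intervalIntegrable_const.add (iE.const_mul _)) (iZ.const_mul _),
      intervalIntegral.integral_add intervalIntegrable_const (iE.const_mul _),
      intervalIntegral.integral_const_mul θ⁻¹, intervalIntegral.integral_const_mul θ,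
      intervalIntegral.integral_const]
    refine mul_le_mul_of_nonneg_left ?_ hΦ0
    have m1 := zl_int_mono hw.1 hRR hw.2 (hE i) fun _ => sq_nonneg _
    have m2 := zl_int_mono hw.1 hRR hw.2 cZ.continuousOn fun _ => sq_nonneg _
    have m3 : θ⁻¹ * ∫ x in (-R)..R, ‖Z' i x - F i x * Z i x‖ ^ 2 ≤ θ := by
      rw [inv_mul_le_iff₀ hθ]; nlinarith
    have m4 := mul_le_mul_of_nonneg_left (m2.trans hMi) hθ.le
    rw [smul_eq_mul]
    nlinarith
  obtain ⟨D₀, hD₀⟩ : ∃ D₀, Tendsto (fun i => W i 0) 𝒰 (𝓝 D₀) := by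
    obtain ⟨Φ, hΦ⟩ := (isCompact_Icc (a := (-1 : ℝ)) (b := 1)).exists_bound_of_continuousOn
      hPc.continuousOn
    have hΦ0 : 0 ≤ Φ := (norm_nonneg _).trans (hΦ 0 ⟨by norm_num, by norm_num⟩)
    refine exists_ultralim 𝒰 (M := 1 + Φ + Φ * M) ?_
    filter_upwards [hM, hwin 1, hdrift 1 one_pos 1 one_pos] with i hMi hw hd
    have cZ : Continuous fun x => ‖Z i x‖ ^ 2 := (hZc i).norm.pow 2
    have iZ := cZ.intervalIntegrable (μ := volume) 0 1
    have h := intervalIntegral.integral_mono_on (μ := volume) (a := 0) (b := 1)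
      (f := fun _ => ‖W i 0‖) (g := fun x => (1 + Φ) + Φ * ‖Z i x‖ ^ 2) zero_le_one
      intervalIntegrable_const (intervalIntegrable_const.add (iZ.const_mul _)) (fun x hx => by
        have hx' : x ∈ Icc (-1 : ℝ) 1 := ⟨by linarith [hx.1], hx.2⟩
        have t1 := hd x hx'
        have t2 : ‖W i 0‖ ≤ ‖W i x‖ + ‖W i x - W i 0‖ := by
          have := norm_sub_le (W i x) (W i x - W i 0)
          rwa [sub_sub_cancel] at this
        have t3 : ‖W i x‖ ≤ Φ * ‖Z i x‖ :=
          (norm_mul_le' _ _).trans (mul_le_mul_of_nonneg_right (hΦ x hx') (norm_nonneg _))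
        have t4 : ‖Z i x‖ ≤ 1 + ‖Z i x‖ ^ 2 := by nlinarith [norm_nonneg (Z i x)]
        have t5 := mul_le_mul_of_nonneg_left t4 hΦ0
        linarith)
    rw [intervalIntegral.integral_add intervalIntegrable_const (iZ.const_mul _),
      intervalIntegral.integral_const_mul] at h
    simp only [intervalIntegral.integral_const, sub_zero, smul_eq_mul, one_mul] at h
    have m2 := zl_int_mono (by linarith [hw.1] : a i ≤ 0) zero_le_one hw.2 cZ.continuousOn
      fun _ => sq_nonneg _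
    have m4 := mul_le_mul_of_nonneg_left (m2.trans hMi) hΦ0
    linarith
  have hWu : ∀ R > 0, ∀ ε > 0, ∀ᶠ i in 𝒰, ∀ x ∈ Icc (-R) R, ‖W i x - D₀‖ < ε := by
    intro R hR ε hε
    filter_upwards [hdrift R hR (ε / 2) (by positivity),
      Metric.tendsto_nhds.mp hD₀ (ε / 2) (by positivity)] with i hd h0 x hx
    rw [dist_eq_norm] at h0
    have := norm_sub_le_norm_sub_add_norm_sub (W i x) (W i 0) D₀
    linarith [hd x hx]
  have hZl : ∀ x, Tendsto (fun i => Z i x) 𝒰 (𝓝 (Q x * D₀)) := by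
    intro x
    have hWx : Tendsto (fun i => W i x) 𝒰 (𝓝 D₀) := by
      refine Metric.tendsto_nhds.mpr fun ε hε => ?_
      filter_upwards [hWu (|x| + 1) (by positivity) ε hε] with i hi
      rw [dist_eq_norm]
      exact hi x ⟨by linarith [neg_abs_le x], by linarith [le_abs_self x]⟩
    simp only [hZW _ x]
    exact ((continuous_const.matrix_mul continuous_id).tendsto D₀).comp hWx
  -- tightness
  have htight : ∀ R, 0 < R → R₀ ≤ R →
      ‖U * rdiag g * Uᴴ - ∫ x in (-R)..R, (Q x * D₀) * (Q x * D₀)ᴴ‖ ≤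
        κ₁⁻¹ * (‖Q R * D₀‖ ^ 2 + ‖Q (-R) * D₀‖ ^ 2) := by
    intro R hR hR0
    have hI : Tendsto (fun i => ∫ x in (-R)..R, Z i x * (Z i x)ᴴ) 𝒰
        (𝓝 (∫ x in (-R)..R, (Q x * D₀) * (Q x * D₀)ᴴ)) := by
      have := zl_tendsto_integral (L := 𝒰) (W := W) (D := D₀)
        (G := fun X x => (Q x * X) * (Q x * X)ᴴ) hR
        (((hQc.comp continuous_snd).matrix_mul continuous_fst).matrix_mul
          ((hQc.comp continuous_snd).matrix_mul continuous_fst).matrix_conjTranspose) hWc (hWu R hR)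
      simp only [← hZW] at this
      exact this
    have hL := (hgram.sub hI).norm
    have hRt : Tendsto (fun i => κ₁⁻¹ * (‖Z i R‖ ^ 2 + ‖Z i (-R)‖ ^ 2 +
        2 * (κ₁⁻¹ * ∫ x in (a i)..(b i), ‖Z' i x - F i x * Z i x‖ ^ 2))) 𝒰
        (𝓝 (κ₁⁻¹ * (‖Q R * D₀‖ ^ 2 + ‖Q (-R) * D₀‖ ^ 2 + 2 * (κ₁⁻¹ * 0)))) :=
      ((((hZl R).norm.pow 2).add ((hZl (-R)).norm.pow 2)).add
        ((hsq.const_mul _).const_mul _)).const_mul _
    rw [mul_zero, mul_zero, add_zero] at hRt
    refine le_of_tendsto_of_tendsto hL hRt ?_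
    filter_upwards [hwin R, htail] with i hw ht
    have hRR : -R ≤ R := by linarith
    have t1 := zl_tail (σ := -1) hκ₁ (by simp) hw.2 (hZ i) (hZ' i)
      ((hF i).mono (Icc_subset_Icc_left (by linarith [hw.1])))
      (fun x hx => by rw [neg_one_smul]; exact ht.1 x ⟨hR0.trans hx.1, hx.2⟩)
    have t2 := zl_tail (σ := 1) hκ₁ (by simp) hw.1 (hZ i) (hZ' i)
      ((hF i).mono (Icc_subset_Icc_right (by linarith [hw.2])))
      (fun x hx => by rw [one_smul]; exact ht.2 x ⟨hx.1, hx.2.trans (by linarith)⟩)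
    have m1 := zl_int_mono (by linarith [hw.1] : a i ≤ R) hw.2 le_rfl (hE i) fun _ => sq_nonneg _
    have m2 := zl_int_mono le_rfl hw.1 (by linarith [hw.2] : -R ≤ b i) (hE i) fun _ => sq_nonneg _
    have ii := fun p q => (hZZ i).intervalIntegrable (μ := volume) p q
    have e : (∫ x, Z i x * (Z i x)ᴴ) - ∫ x in (-R)..R, Z i x * (Z i x)ᴴ =
        (∫ x in (a i)..(-R), Z i x * (Z i x)ᴴ) + ∫ x in R..(b i), Z i x * (Z i x)ᴴ := by
      rw [hgr, ← intervalIntegral.integral_add_adjacent_intervals (ii (a i) (-R)) (ii (-R) (b i)),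
        ← intervalIntegral.integral_add_adjacent_intervals (ii (-R) R) (ii R (b i))]
      abel
    have nb : ∀ p q, p ≤ q → ‖∫ x in p..q, Z i x * (Z i x)ᴴ‖ ≤ ∫ x in p..q, ‖Z i x‖ ^ 2 := by
      intro p q hpq
      refine (intervalIntegral.norm_integral_le_integral_norm hpq).trans ?_
      refine intervalIntegral.integral_mono_on hpq ((hZZ i).norm.intervalIntegrable _ _)
        (((hZc i).norm.pow 2).intervalIntegrable _ _) fun x _ => ?_
      have := norm_mul_le' (Z i x) (Z i x)ᴴ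
      rw [norm_ct] at this
      rw [sq]; exact this
    rw [e, le_inv_mul_iff₀ hκ₁]
    have n1 := mul_le_mul_of_nonneg_left ((norm_add_le _ _).trans
      (add_le_add (nb _ _ hw.1) (nb _ _ hw.2))) hκ₁.le
    have m1' := mul_le_mul_of_nonneg_left m1 (inv_pos.mpr hκ₁).le
    have m2' := mul_le_mul_of_nonneg_left m2 (inv_pos.mpr hκ₁).le
    have s1 := sq_nonneg ‖Z i (b i)‖
    have s2 := sq_nonneg ‖Z i (a i)‖
    linarith
  have hQ0 : ∀ {y : ℝ → ℝ}, (∀ j, Tendsto (fun R => |y R - c j|) atTop atTop) →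
      Tendsto (fun R => ‖Q (y R) * D₀‖ ^ 2) atTop (𝓝 0) := by
    intro y hy
    have h3 : Tendsto (fun R j => zphi (-1) r (κ j) (c j) (y R)) atTop (𝓝 fun _ => 0) :=
      tendsto_pi_nhds.mpr fun j => tendsto_zphi hr (hκ j) (hy j)
    have h4 : Continuous fun v : n → ℝ => ‖U * rdiag v * D₀‖ ^ 2 :=
      (((continuous_const.matrix_mul continuous_rdiag).matrix_mul continuous_const).norm).pow 2
    have h5 := (h4.tendsto _).comp h3
    rw [rdiag_const] at h5
    simp only [zero_smul, Matrix.mul_zero, Matrix.zero_mul, norm_zero, ne_eq, OfNat.ofNat_ne_zero,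
      not_false_eq_true, zero_pow] at h5
    exact h5
  have ht0 : Tendsto (fun R => κ₁⁻¹ * (‖Q R * D₀‖ ^ 2 + ‖Q (-R) * D₀‖ ^ 2)) atTop (𝓝 0) := by
    have a1 := hQ0 (y := fun R => R) fun j =>
      tendsto_abs_atTop_atTop.comp (tendsto_atTop_add_const_right _ (-c j) tendsto_id)
    have a2 := hQ0 (y := fun R => -R) fun j =>
      tendsto_abs_atBot_atTop.comp (tendsto_atBot_add_const_right _ (-c j) tendsto_neg_atTop_atBot)
    simpa using (a1.add a2).const_mul κ₁⁻¹
  set ψ : n → ℝ → ℝ := fun j x => zphi (-1) r (κ j) (c j) x with hψ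
  have hψc : ∀ j k, Continuous fun x => ψ j x * ψ k x := fun j k =>
    (continuous_zphi _ _ _ _).mul (continuous_zphi _ _ _ _)
  have hψp : ∀ j k x, 0 < ψ j x * ψ k x := fun j k x =>
    mul_pos (zphi_pos _ _ _ _ _) (zphi_pos _ _ _ _ _)
  have hent : ∀ j k, Tendsto (fun R => ((∫ x in (-R)..R, ψ j x * ψ k x : ℝ) : ℂ) * (D₀ * D₀ᴴ) j k)
      atTop (𝓝 (rdiag g j k)) := by
    intro j k
    rw [tendsto_iff_norm_sub_tendsto_zero]
    refine squeeze_zero' (Eventually.of_forall fun _ => norm_nonneg _) ?_ ht0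
    filter_upwards [eventually_gt_atTop 0, eventually_ge_atTop R₀] with R hR hR0
    refine le_trans ?_ (htight R hR hR0)
    set T : Matrix n n ℂ →L[ℝ] ℂ := LinearMap.toContinuousLinearMap
      { toFun := fun A => (Uᴴ * A * U) j k
        map_add' := fun A B => by simp [Matrix.mul_add, Matrix.add_mul]
        map_smul' := fun t A => by simp } with hT
    have hTa : ∀ A, T A = (Uᴴ * A * U) j k := fun A => rfl
    have cq : Continuous fun x => (Q x * D₀) * (Q x * D₀)ᴴ :=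
      (hQc.matrix_mul continuous_const).matrix_mul
        (hQc.matrix_mul continuous_const).matrix_conjTranspose
    have conj : ∀ A : Matrix n n ℂ, Uᴴ * (U * A * Uᴴ) * U = A := fun A => by
      calc Uᴴ * (U * A * Uᴴ) * U = (Uᴴ * U) * A * (Uᴴ * U) := by simp only [Matrix.mul_assoc]
        _ = A := by rw [h1, Matrix.one_mul, Matrix.mul_one]
    have e1 : T (∫ x in (-R)..R, (Q x * D₀) * (Q x * D₀)ᴴ) =
        ((∫ x in (-R)..R, ψ j x * ψ k x : ℝ) : ℂ) * (D₀ * D₀ᴴ) j k := by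
      refine (T.intervalIntegral_comp_comm (cq.intervalIntegrable (μ := volume) _ _)).symm.trans ?_
      rw [← intervalIntegral.integral_ofReal, ← intervalIntegral.integral_mul_const]
      refine intervalIntegral.integral_congr fun x _ => ?_
      have e : (Q x * D₀) * (Q x * D₀)ᴴ = U * (rdiag (fun j => ψ j x) * (D₀ * D₀ᴴ) *
          rdiag (fun j => ψ j x)) * Uᴴ := by
        simp only [hQ, hψ, conjTranspose_mul, rdiag_ct, Matrix.mul_assoc]
      refine (hTa _).trans ?_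
      rw [e, conj]
      simp only [rdiag, mul_diagonal, diagonal_mul]
      push_cast; ring
    have e2 : T (U * rdiag g * Uᴴ) = rdiag g j k := by rw [hTa, conj]
    rw [← e1, ← e2, norm_sub_rev, ← map_sub, hTa]
    refine (norm_entry_le _ _ _).trans (le_of_eq ?_)
    rw [norm_mul_coisometry (U := U) h2, norm_isometry_mul (U := Uᴴ) (by simpa using h2)]
  have hoff : ∀ j k, j ≠ k → (D₀ * D₀ᴴ) j k = 0 := by
    intro j k hjk
    have h := (hent j k).norm
    rw [rdiag, diagonal_apply_ne _ hjk, norm_zero] at h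
    have hI : 0 < ∫ x in (-1 : ℝ)..1, ψ j x * ψ k x :=
      intervalIntegral.intervalIntegral_pos_of_pos ((hψc j k).intervalIntegrable _ _)
        (hψp j k) (by norm_num)
    have h3 : (∫ x in (-1 : ℝ)..1, ψ j x * ψ k x) * ‖(D₀ * D₀ᴴ) j k‖ ≤ 0 := by
      refine ge_of_tendsto h ?_
      filter_upwards [eventually_ge_atTop 1] with R hR
      rw [norm_mul, Complex.norm_real, Real.norm_eq_abs]
      refine mul_le_mul_of_nonneg_right (le_trans ?_ (le_abs_self _)) (norm_nonneg _)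
      exact zl_int_mono (by linarith) (by norm_num) hR (hψc j k).continuousOn
        fun x => (hψp j k x).le
    have h4 : ‖(D₀ * D₀ᴴ) j k‖ ≤ 0 := by
      by_contra h5
      exact absurd h3 (not_le.mpr (mul_pos hI (not_le.mp h5)))
    exact norm_le_zero_iff.mp h4
  have hpsd : (D₀ * D₀ᴴ).PosSemidef := posSemidef_self_mul_conjTranspose D₀
  set d : n → ℝ := fun j => ((D₀ * D₀ᴴ) j j).re with hd
  have hdd : ∀ j, (D₀ * D₀ᴴ) j j = (d j : ℂ) := fun j => (hpsd.1.coe_re_apply_self j).symm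
  have hdp : ∀ j, 0 < d j := by
    intro j
    have h0 : 0 ≤ d j := (Complex.nonneg_iff.mp (hpsd.diag_nonneg (i := j))).1
    refine h0.lt_of_ne fun h => ?_
    have h3 := hent j j
    rw [hdd, ← h] at h3
    simp only [Complex.ofReal_zero, mul_zero, rdiag, diagonal_apply_eq] at h3
    have := tendsto_nhds_unique h3 tendsto_const_nhds
    exact (hg j).ne' (by exact_mod_cast this)
  have hDD : D₀ * D₀ᴴ = rdiag d := by
    ext j k
    by_cases hjk : j = k
    · subst hjk; rw [hdd, rdiag, diagonal_apply_eq]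
    · rw [hoff j k hjk, rdiag, diagonal_apply_ne _ hjk]
  refine ⟨rdiag (fun j => (√(d j))⁻¹) * D₀, fun x j => ψ j x * √(d j), ?_,
    fun x j => mul_pos (zphi_pos _ _ _ _ _) (Real.sqrt_pos.mpr (hdp j)), fun x => ?_⟩
  · rw [conjTranspose_mul, rdiag_ct, Matrix.mul_assoc, ← Matrix.mul_assoc D₀, hDD, rdiag_mul,
      rdiag_mul, ← one_smul ℝ (1 : Matrix n n ℂ), ← rdiag_const]
    congr 1
    funext j
    have := Real.sqrt_pos.mpr (hdp j)
    field_simp
    exact (Real.sq_sqrt (hdp j).le).symm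
  · convert hZl x using 2
    simp only [hQ]
    rw [Matrix.mul_assoc, Matrix.mul_assoc, ← Matrix.mul_assoc (rdiag _), rdiag_mul]
    congr 3
    funext j
    have := Real.sqrt_pos.mpr (hdp j)
    simp only [hψ]
    field_simp

theorem polar_limit {ι : Type*} {L : Filter ι} {Z : ι → Matrix n l ℂ} {δ : ι → ℝ}
    {U : Matrix n n ℂ} (h1 : Uᴴ * U = 1) (h2 : U * Uᴴ = 1) {D : Matrix n l ℂ} (hD : D * Dᴴ = 1)
    {s : n → ℝ} (hs : ∀ j, 0 < s j) (hδ : Tendsto δ L (𝓝 0))
    (hZ : Tendsto Z L (𝓝 (U * rdiag s * D))) :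
    Tendsto (fun i => fc (fun u => (√(u + δ i))⁻¹) (Z i * (Z i)ᴴ) * Z i) L (𝓝 (U * D)) := by
  have eB : (U * rdiag s * D) * (U * rdiag s * D)ᴴ = U * rdiag (fun j => s j * s j) * Uᴴ := by
    rw [← rdiag_mul]
    calc (U * rdiag s * D) * (U * rdiag s * D)ᴴ
        = U * rdiag s * (D * Dᴴ) * rdiag s * Uᴴ := by
          simp only [conjTranspose_mul, rdiag_ct, Matrix.mul_assoc]
      _ = _ := by rw [hD]; simp only [Matrix.mul_one, Matrix.mul_assoc]
  have hA : Tendsto (fun i => Z i * (Z i)ᴴ) L (𝓝 (U * rdiag (fun j => s j * s j) * Uᴴ)) := by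
    rw [← eB]
    exact ((continuous_id.matrix_mul continuous_id.matrix_conjTranspose).tendsto _).comp hZ
  have hB : (U * rdiag (fun j => s j * s j) * Uᴴ).IsHermitian := by
    rw [← eB]; exact isHermitian_mul_conjTranspose_self _
  have hpos : ∀ j, 0 < ev (U * rdiag (fun j => s j * s j) * Uᴴ) j := by
    intro j
    have : Nonempty n := ⟨j⟩
    obtain ⟨j0, -, hj0⟩ := Finset.exists_min_image Finset.univ (fun j => s j * s j)
      Finset.univ_nonempty
    refine (mul_pos (hs j0) (hs j0)).trans_le ((le_ev_iff hB _).mpr ?_ j)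
    have e : U * rdiag (fun j => s j * s j) * Uᴴ - (s j0 * s j0) • (1 : Matrix n n ℂ) =
        U * rdiag (fun j => s j * s j - s j0 * s j0) * Uᴴ := by
      rw [← rdiag_sub, rdiag_const, Matrix.mul_sub, Matrix.sub_mul, Matrix.mul_smul,
        Matrix.mul_one, Matrix.smul_mul, h2]
    rw [e]
    exact ((rdiag_psd_iff _).mpr fun j => sub_nonneg.mpr (hj0 j (Finset.mem_univ j))
      ).mul_mul_conjTranspose_same U
  have hfc := tendsto_fc (f := fun i u => (√(u + δ i))⁻¹) (g := fun u => (√u)⁻¹) hA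
    (Eventually.of_forall fun i => isHermitian_mul_conjTranspose_self _) hB (fun j => by
      have t1 : Tendsto (fun q : ι × ℝ => q.2 + δ q.1)
          (L ×ˢ 𝓝 (ev (U * rdiag (fun j => s j * s j) * Uᴴ) j))
          (𝓝 (ev (U * rdiag (fun j => s j * s j) * Uᴴ) j + 0)) :=
        tendsto_snd.add (hδ.comp tendsto_fst)
      rw [add_zero] at t1
      exact t1.sqrt.inv₀ (Real.sqrt_pos.mpr (hpos j)).ne')
  rw [fc_conj _ h1 h2 (rdiag_herm _), fc_rdiag] at hfc
  have hm := ((continuous_fst.matrix_mul continuous_snd).tendsto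
    (U * rdiag (fun j => (√(s j * s j))⁻¹) * Uᴴ, U * rdiag s * D)).comp (hfc.prodMk_nhds hZ)
  have e : U * rdiag (fun j => (√(s j * s j))⁻¹) * Uᴴ * (U * rdiag s * D) = U * D := by
    calc U * rdiag (fun j => (√(s j * s j))⁻¹) * Uᴴ * (U * rdiag s * D)
        = U * (rdiag (fun j => (√(s j * s j))⁻¹) * (Uᴴ * U) * rdiag s) * D := by
          simp only [Matrix.mul_assoc]
      _ = _ := by
          rw [h1, Matrix.mul_one, rdiag_mul]
          have : (fun j => (√(s j * s j))⁻¹ * s j) = fun _ => (1 : ℝ) := by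
            funext j
            rw [Real.sqrt_mul_self (hs j).le, inv_mul_cancel₀ (hs j).ne']
          rw [this, rdiag_const, one_smul, Matrix.mul_one]
  simp only [e] at hm
  exact hm

end Crest.Agent.R332
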