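import Crest.Agent.R332.Kappa
import Crest.Agent.R332.ZLimit

/-!
Row 332: structure of an extremal potential, for a fixed number of bound states.
-/

set_option autoImplicit false
set_option linter.unusedSectionVars false

open Matrix MeasureTheory Set Filter Topology Crest.Agent.R342
open scoped ComplexOrder Matrix.Norms.Frobenius

namespace Crest.Agent.R332

open Crest.MathPhysics.LiebThirring

variable {m : ℕ} {W : ℝ → Matrix (Fin m) (Fin m) ℂ} {γ k : ℝ}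

theorem stage2 (hγ : 1 / 2 < γ) (hγ' : γ < 3 / 2) (hW : Pot (γ + 1 / 2) W) (hk : 0 < k) {N : ℕ}
    {c₀ : ℝ} (hc : 0 < c₀)
    (h : ∀ ε : ℝ, 0 < ε → ∃ (Φ Φ' : ℝ → Matrix (Fin N) (Fin m) ℂ) (μ : Fin N → ℝ),
      MTrial W Φ Φ' μ ∧ (∀ i, c₀ ≤ μ i ∧ μ i ≤ k) ∧
        ∃ (D : BData W ε N) (L : Link γ D Φ Φ' μ), Sat γ k D ∧ L.sq ≤ ε ∧ L.kd ≤ ε) :
    ∃ (D : Matrix (Fin N) (Fin m) ℂ) (κ c : Fin N → ℝ), D * Dᴴ = 1 ∧ (∀ j, 0 < κ j) ∧
      ∀ᵐ x : ℝ, W x = Dᴴ * rdiag (fun j => soliton (γ - 1 / 2)⁻¹ (κ j) (c j) x) * D := by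
  choose Φ Φ' μ hT hμ D L hS hsq hkd using fun i : ℕ => h ((1 / 2 : ℝ) ^ i) (half_pow_pos i)
  set 𝒰 : Ultrafilter ℕ := hyperfilter ℕ with h𝒰
  have hU : (𝒰 : Filter ℕ) ≤ atTop := Nat.hyperfilter_le_atTop
  have hr : 0 < (γ - 1 / 2)⁻¹ := inv_pos.2 (by linarith)
  have he : Tendsto (fun i : ℕ => (1 / 2 : ℝ) ^ i) 𝒰 (𝓝 0) := tendsto_half_pow.mono_left hU
  obtain ⟨κ₀, ε₀, hκ₀, hε₀, hlow⟩ := kappa_lower (k := k) hγ hγ' hW N hc
  have hlow' : ∀ᶠ i in (𝒰 : Filter ℕ), ∀ j, κ₀ ≤ (D i).κ j := by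
    filter_upwards [he.eventually (ge_mem_nhds hε₀)] with i hi
    exact hlow _ (half_pow_pos i) hi _ _ _ (hT i) (hμ i) (D i) (L i) (hS i) (hsq i)
  obtain ⟨κ, hκm, hκt⟩ : ∃ κ ∈ Set.pi univ (fun _ : Fin N => Icc κ₀ k),
      Tendsto (fun i => (D i).κ) 𝒰 (𝓝 κ) := by
    refine (isCompact_univ_pi fun _ => isCompact_Icc).ultrafilter_le_nhds
      (𝒰.map fun i => (D i).κ) ?_
    rw [Filter.le_principal_iff]
    change _ ∈ Filter.map _ _
    rw [Filter.mem_map]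
    filter_upwards [hlow'] with i hi j _
    exact ⟨hi j, (hS i).κ_le j⟩
  have hκ0 : ∀ j, 0 < κ j := fun j => hκ₀.trans_le (hκm j trivial).1
  have hK : Tendsto (fun i => (D i).K) 𝒰 (𝓝 (rdiag κ)) :=
    (continuous_rdiag.tendsto κ).comp hκt
  have hae := seq_ae (N := fun _ => N) D hγ hγ' hW hS
  have ha := (seq_a (N := fun _ => N) D).mono_left hU
  have hb := (seq_b (N := fun _ => N) D).mono_left hU
  obtain ⟨U, κ', c, h1, h2, hκ', hKl, hlim, R₀, -, htail⟩ := soliton_limit hr hκ₀ 𝒰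
    (fun i => (D i).K) (fun i => (D i).F) (fun i => (D i).A) (fun i => (D i).a)
    (fun i => (D i).b) (fun i => (D i).η) (rdiag κ) hK
    (by
      filter_upwards [hlow'] with i hi
      unfold BData.K
      rw [← rdiag_const, rdiag_sub, rdiag_psd_iff]
      exact fun j => sub_nonneg.2 (hi j))
    ha hb ((seq_η (N := fun _ => N) D).mono_left hU)
    (Eventually.of_forall fun i => ⟨fun x hx => ⟨(D i).ode x hx, (D i).up x hx, (D i).lo x hx⟩,
      (D i).A_cont.continuousOn, (D i).Fa, (D i).Fb⟩)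
    (fun R hR => (seq_err1 (N := fun _ => N) D hS R hR).mono_left hU)
    (by
      obtain ⟨x₀, hx₀⟩ := hae.exists
      exact ⟨x₀, hx₀.2.2.1.mono_left hU⟩)
    (fun c ε hc hε => by
      obtain ⟨R, hR, h⟩ := seq_tail (N := fun _ => N) D hγ hγ' hW c ε hc hε
      exact ⟨R, hR, h.filter_mono hU⟩)
  have hgram := gram_limit hγ hγ' hc 𝒰 he hμ D L hkd hκ0 hκt
  have hg : (rdiag fun j => κ j ^ (2 * γ - 2)) = U * rdiag (fun j => κ' j ^ (2 * γ - 2)) * Uᴴ := by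
    rw [← fc_rdiag (fun s => s ^ (2 * γ - 2)) κ, hKl, fc_conj _ h1 h2 (rdiag_herm _), fc_rdiag]
  obtain ⟨E, s, hE, hs, hZ⟩ := z_limit (k := k) hr (show 0 < κ₀ / 4 by positivity) 𝒰
    (fun i x => (L i).C * Φ i x) (fun i x => (L i).C * Φ' i x) (fun i => (D i).F)
    (fun i => (D i).a) (fun i => (D i).b) h1 h2 hκ'
    (g := fun j => κ' j ^ (2 * γ - 2)) (fun j => Real.rpow_pos_of_pos (hκ' j) _) ha hb
    (fun i x => by
      have := hda_mul (hasDerivAt_const x (L i).C) ((hT i).deriv x)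
      rwa [Matrix.zero_mul, zero_add] at this)
    (fun i => continuous_const.matrix_mul (hT i).cont')
    (fun i x hx => by rw [((L i).supp x hx).1, Matrix.mul_zero])
    (fun i => (D i).F_cont) (fun i x hx => ((hS i).adm hx).opLe hk.le) hlim htail
    (squeeze_zero (fun i => intervalIntegral.integral_nonneg
      ((D i).a_lt_b (half_pow_pos i)).le fun _ _ => sq_nonneg _) hsq he)
    (by
      rw [← hg]
      exact hgram.congr fun i => ((L i).gram (hT i)).symm)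
  have hδ : Tendsto (fun i => (L i).δ) 𝒰 (𝓝 0) :=
    squeeze_zero (fun i => (L i).δ_pos.le) (fun i => (L i).δ_le) he
  have hV : ∀ x, Tendsto (fun i => (D i).V x) 𝒰 (𝓝 (U * E)) := fun x =>
    (polar_limit h1 h2 hE (hs x) hδ (hZ x)).congr fun i => ((L i).hV x).symm
  refine ⟨E, κ', c, hE, hκ', ?_⟩
  filter_upwards [hae] with x hx
  obtain ⟨b1, b2, -, b4⟩ := hx
  have hA : Tendsto (fun i => (D i).A x) 𝒰 (𝓝 (U * E * W x * (U * E)ᴴ)) := by
    have c1 : Continuous fun q : Matrix (Fin N) (Fin m) ℂ × Matrix (Fin m) (Fin m) ℂ =>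
        q.1 * q.2 * q.1ᴴ :=
      (continuous_fst.matrix_mul continuous_snd).matrix_mul continuous_fst.matrix_conjTranspose
    have c2 := (c1.tendsto (U * E, W x)).comp ((hV x).prodMk_nhds (b1.mono_left hU))
    exact c2.congr fun i => rfl
  have hF : Tendsto (fun i => (D i).F x) 𝒰 (𝓝 (flow (γ - 1 / 2)⁻¹ U κ' c x)) :=
    (hlim |x|).tendsto_at ⟨neg_abs_le x, le_abs_self x⟩
  have hE1 : Tendsto (fun i => err1 (γ - 1 / 2)⁻¹ (D i).K ((D i).F x) ((D i).A x)) 𝒰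
      (𝓝 (err1 (γ - 1 / 2)⁻¹ (rdiag κ) (flow (γ - 1 / 2)⁻¹ U κ' c x)
        (U * E * W x * (U * E)ᴴ))) :=
    (hA.sub (((hK.mul hK).sub (hF.mul hF)).const_smul ((γ - 1 / 2)⁻¹ + 1))).norm
  have e0 := tendsto_nhds_unique hE1 (b2.mono_left hU)
  unfold err1 at e0
  rw [norm_eq_zero, sub_eq_zero, hKl, Umat_flow h1] at e0
  have e1 : U * E * W x * (U * E)ᴴ = U * (E * W x * Eᴴ) * Uᴴ := by
    rw [conjTranspose_mul]; simp only [Matrix.mul_assoc]
  have e2 : ∀ B : Matrix (Fin N) (Fin N) ℂ, Uᴴ * (U * B * Uᴴ) * U = B := fun B => by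
    rw [← Matrix.mul_assoc, ← Matrix.mul_assoc, h1, Matrix.one_mul, Matrix.mul_assoc, h1,
      Matrix.mul_one]
  have e3 : E * W x * Eᴴ = rdiag (fun j => soliton (γ - 1 / 2)⁻¹ (κ' j) (c j) x) := by
    rw [← e2 (E * W x * Eᴴ), ← e1, e0, e2]
  have hp0 : 0 < γ + 1 / 2 := by linarith
  have e4 := tendsto_nhds_unique (tendsto_trp hp0 hA
    (Eventually.of_forall fun i => ((D i).A_psd x).1) (herm_conj (hW.psd x).1)) (b4.mono_left hU)
  rw [e1] at e4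
  have e5 : trp (γ + 1 / 2) (U * (E * W x * Eᴴ) * Uᴴ) = trp (γ + 1 / 2) (E * W x * Eᴴ) :=
    trf_conj _ h1 h2 (herm_conj (hW.psd x).1)
  rw [← e3]
  exact eq_of_trp_compress (p := γ + 1 / 2) (by linarith) hE (hW.psd x) (by rw [← e5, e4])

end Crest.Agent.R332
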