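import Crest.Agent.R332.Approx

/-!
Row 332: from trial families to matrix trial functions; a Bargmann-type bound.
-/

set_option autoImplicit false
set_option linter.unusedSectionVars false

open Matrix MeasureTheory Set Filter Topology Crest.Agent.R342
open scoped ComplexOrder Matrix.Norms.Frobenius

namespace Crest.Agent.R332

open Crest.MathPhysics.LiebThirring

variable {m : ℕ} {W : ℝ → Matrix (Fin m) (Fin m) ℂ}

theorem pot_of_hyp {p : ℝ} (hW : ∀ i j, Measurable fun x => W x i j) (hWp : ∀ x, (W x).PosSemidef)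
    (hWi : Integrable fun x => tracePow (W x) p) : Pot p W :=
  ⟨hW, hWp, by simpa only [tracePow_eq (hWp _).1] using hWi⟩

/-- `C¹` compactly supported matrix functions -/
structure Pre {a : Type} [Fintype a] (Φ Φ' : ℝ → Matrix a (Fin m) ℂ) : Prop where
  deriv : ∀ x, HasDerivAt Φ (Φ' x) x
  cont' : Continuous Φ'
  supp : ∃ R : ℝ, ∀ x, R ≤ |x| → Φ x = 0 ∧ Φ' x = 0

section pre
variable {a b : Type} [Fintype a] [Fintype b] {Φ Φ' : ℝ → Matrix a (Fin m) ℂ} {p : ℝ}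

lemma MTrial.pre {N : ℕ} {Φ Φ' : ℝ → Matrix (Fin N) (Fin m) ℂ} {μ : Fin N → ℝ}
    (h : MTrial W Φ Φ' μ) : Pre Φ Φ' := ⟨h.deriv, h.cont', h.supp⟩

lemma Pre.cont (h : Pre Φ Φ') : Continuous Φ :=
  continuous_iff_continuousAt.2 fun x => (h.deriv x).continuousAt

lemma integrable_of_vanish {E : Type*} [NormedAddCommGroup E] {f : ℝ → E} (hf : Continuous f)
    {R : ℝ} (hR : ∀ x, R ≤ |x| → f x = 0) : Integrable f := by
  refine hf.integrable_of_hasCompactSupport
    (HasCompactSupport.intro (isCompact_Icc (a := -R) (b := R)) fun x hx => hR x ?_)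
  by_contra hc
  exact hx ⟨(abs_lt.1 (not_le.1 hc)).1.le, (abs_lt.1 (not_le.1 hc)).2.le⟩

lemma Pre.int0 (h : Pre Φ Φ') : Integrable fun x => Φ x * (Φ x)ᴴ := by
  obtain ⟨R, hR⟩ := h.supp
  exact integrable_of_vanish (h.cont.matrix_mul h.cont.matrix_conjTranspose) (R := R)
    fun x hx => by rw [(hR x hx).1, Matrix.zero_mul]

lemma Pre.int1 (h : Pre Φ Φ') : Integrable fun x => Φ' x * (Φ' x)ᴴ := by
  obtain ⟨R, hR⟩ := h.supp
  exact integrable_of_vanish (h.cont'.matrix_mul h.cont'.matrix_conjTranspose) (R := R)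
    fun x hx => by rw [(hR x hx).2, Matrix.zero_mul]

lemma Pre.int2 (h : Pre Φ Φ') (hW : Pot p W) (hp : 1 ≤ p) (hp2 : p ≤ 2) :
    Integrable fun x => Φ x * W x * (Φ x)ᴴ := by
  obtain ⟨R, hR⟩ := h.supp
  exact hW.integrable_sandwich hp hp2 h.cont h.cont.matrix_conjTranspose (R := R)
    fun x hx => (hR x hx).1

lemma Pre.int3 (h : Pre Φ Φ') (hW : Pot p W) (hp : 1 ≤ p) (hp2 : p ≤ 2) :
    Integrable fun x => Φ' x * (Φ' x)ᴴ - Φ x * W x * (Φ x)ᴴ :=
  h.int1.sub (h.int2 hW hp hp2)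

lemma Pre.mul (h : Pre Φ Φ') (C : Matrix b a ℂ) :
    Pre (fun x => C * Φ x) (fun x => C * Φ' x) := by
  refine ⟨fun x => ?_, continuous_const.matrix_mul h.cont', ?_⟩
  · have := hda_mul (hasDerivAt_const x C) (h.deriv x)
    simpa using this
  · obtain ⟨R, hR⟩ := h.supp
    exact ⟨R, fun x hx => by simp [(hR x hx).1, (hR x hx).2]⟩

lemma Pre.orth_mul (h : Pre Φ Φ') (C : Matrix b a ℂ) :
    ∫ x, (C * Φ x) * (C * Φ x)ᴴ = C * (∫ x, Φ x * (Φ x)ᴴ) * Cᴴ := by
  rw [← integral_mul_left C h.int0, ← integral_mul_right Cᴴ (integrable_mul_left C h.int0)]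
  simp only [conjTranspose_mul, Matrix.mul_assoc]

lemma Pre.energy_mul (h : Pre Φ Φ') (hW : Pot p W) (hp : 1 ≤ p) (hp2 : p ≤ 2) (C : Matrix b a ℂ) :
    ∫ x, ((C * Φ' x) * (C * Φ' x)ᴴ - (C * Φ x) * W x * (C * Φ x)ᴴ) =
      C * (∫ x, (Φ' x * (Φ' x)ᴴ - Φ x * W x * (Φ x)ᴴ)) * Cᴴ := by
  rw [← integral_mul_left C (h.int3 hW hp hp2),
    ← integral_mul_right Cᴴ (integrable_mul_left C (h.int3 hW hp hp2))]
  simp only [conjTranspose_mul, Matrix.mul_assoc, Matrix.mul_sub, Matrix.sub_mul]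

/-- pointwise bound for a function vanishing at `y` -/
lemma Pre.norm_sq_le (h : Pre Φ Φ') {x y : ℝ} (hy : Φ y = 0) :
    ‖Φ x‖ ^ 2 ≤ |x - y| * ∫ z, ‖Φ' z‖ ^ 2 := by
  obtain ⟨R, hR⟩ := h.supp
  have hi : Integrable fun z => ‖Φ' z‖ ^ 2 :=
    integrable_of_vanish (h.cont'.norm.pow 2) (R := R) fun x hx => by simp [(hR x hx).2]
  obtain ⟨I, hI⟩ : ∃ I, I = ∫ z, ‖Φ' z‖ ^ 2 := ⟨_, rfl⟩
  have hI0 : 0 ≤ I := hI ▸ integral_nonneg fun z => by positivity
  rw [← hI]
  have h1 : ∫ z in y..x, Φ' z = Φ x := by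
    rw [intervalIntegral.integral_eq_sub_of_hasDerivAt (fun z _ => h.deriv z)
      (h.cont'.intervalIntegrable _ _), hy, sub_zero]
  have key : ∀ t : ℝ, 0 < t → ‖Φ x‖ ≤ (t * I + |x - y| / t) / 2 := by
    intro t ht
    rw [← h1]
    refine intervalIntegral.norm_integral_le_integral_norm_uIoc.trans ?_
    have hfin : volume (uIoc y x) ≠ ⊤ := by simp [uIoc]
    have i1 : IntegrableOn (fun z => t / 2 * ‖Φ' z‖ ^ 2) (uIoc y x) :=
      (hi.const_mul _).integrableOn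
    have i2 : IntegrableOn (fun _ : ℝ => 1 / (2 * t)) (uIoc y x) := integrableOn_const hfin
    have h2 : ∫ z in uIoc y x, ‖Φ' z‖ ≤ ∫ z in uIoc y x, (t / 2 * ‖Φ' z‖ ^ 2 + 1 / (2 * t)) := by
      refine integral_mono_of_nonneg (Eventually.of_forall fun z => norm_nonneg _) (i1.add i2)
        (Eventually.of_forall fun z => ?_)
      have e1 : t / 2 * ‖Φ' z‖ ^ 2 + 1 / (2 * t) - ‖Φ' z‖ = (t * ‖Φ' z‖ - 1) ^ 2 / (2 * t) := by
        field_simp; ring
      have e2 : 0 ≤ (t * ‖Φ' z‖ - 1) ^ 2 / (2 * t) := by positivity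
      show ‖Φ' z‖ ≤ t / 2 * ‖Φ' z‖ ^ 2 + 1 / (2 * t)
      linarith
    refine h2.trans ?_
    rw [integral_add i1 i2, integral_const_mul, setIntegral_const, measureReal_def,
      Real.volume_uIoc, ENNReal.toReal_ofReal (abs_nonneg _)]
    have h3 : ∫ z in uIoc y x, ‖Φ' z‖ ^ 2 ≤ I :=
      hI ▸ setIntegral_le_integral hi (Eventually.of_forall fun z => by positivity)
    have h4 := mul_le_mul_of_nonneg_left h3 (by positivity : 0 ≤ t / 2)
    have e3 : |x - y| • (1 / (2 * t)) = |x - y| / t / 2 := by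
      rw [smul_eq_mul]; field_simp
    rw [e3]
    linarith
  rcases (norm_nonneg (Φ x)).eq_or_lt with h0 | hpos
  · rw [← h0]; simpa using mul_nonneg (abs_nonneg _) hI0
  refine le_of_forall_pos_le_add fun ε hε => ?_
  obtain ⟨δ, hδ⟩ : ∃ δ, δ = ε / (|x - y| + 1) := ⟨_, rfl⟩
  have hδ0 : 0 < δ := by rw [hδ]; positivity
  have hδ1 : |x - y| * δ ≤ ε := by
    rw [hδ, ← mul_div_assoc, div_le_iff₀ (by positivity)]
    nlinarith [abs_nonneg (x - y)]
  have h5 := key (‖Φ x‖ / (I + δ)) (by positivity)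
  have h6 : ‖Φ x‖ / (I + δ) * I ≤ ‖Φ x‖ := by
    rw [div_mul_eq_mul_div, div_le_iff₀ (by positivity)]
    nlinarith
  have h7 : ‖Φ x‖ ≤ |x - y| / (‖Φ x‖ / (I + δ)) := by linarith
  rw [div_div_eq_mul_div, le_div_iff₀ hpos] at h7
  nlinarith

end pre

lemma exists_dist_weight {A c : ℝ} (hc : 0 < c) :
    ∃ n : ℕ, 0 < n ∧
      Integrable (fun x : ℝ => |A| * Real.exp (-c * |x|) * if |x| ≤ n then 1 / (n : ℝ) else |x|) ∧
      ∫ x : ℝ, (|A| * Real.exp (-c * |x|) * if |x| ≤ n then 1 / (n : ℝ) else |x|) ≤ 1 := by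
  obtain ⟨k, hk⟩ : ∃ k, k = min 1 (c / 3) := ⟨_, rfl⟩
  have hk0 : 0 < k := by rw [hk]; positivity
  have hk1 : k ≤ 1 := hk ▸ min_le_left _ _
  have hk2 : k ≤ c / 3 := hk ▸ min_le_right _ _
  have hbd : ∀ x : ℝ, Real.exp (-c * |x|) * (1 + |x|) ≤ (k ^ 3)⁻¹ * (1 + x ^ 2)⁻¹ := by
    intro x
    have ht := abs_nonneg x
    have e1 : k * (1 + |x|) ≤ Real.exp (c / 3 * |x|) := by
      have := Real.add_one_le_exp (c / 3 * |x|)
      nlinarith
    have e2 : (k * (1 + |x|)) ^ 3 ≤ Real.exp (c * |x|) := by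
      have := pow_le_pow_left₀ (by positivity) e1 3
      rw [← Real.exp_nat_mul] at this
      have e : ((3 : ℕ) : ℝ) * (c / 3 * |x|) = c * |x| := by push_cast; ring
      rwa [e] at this
    have e3 : (1 + |x|) * (1 + x ^ 2) ≤ (1 + |x|) ^ 3 := by
      rw [← sq_abs x]; nlinarith
    rw [neg_mul, Real.exp_neg, ← mul_inv, inv_mul_eq_div, inv_eq_one_div,
      div_le_div_iff₀ (Real.exp_pos _) (by positivity)]
    have e4 := mul_le_mul_of_nonneg_left e3 (by positivity : 0 ≤ k ^ 3)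
    rw [mul_pow] at e2
    nlinarith
  obtain ⟨g, hg⟩ : ∃ g : ℕ → ℝ → ℝ, g = fun n x =>
      |A| * Real.exp (-c * |x|) * if |x| ≤ ((n + 1 : ℕ) : ℝ) then 1 / ((n + 1 : ℕ) : ℝ) else |x| :=
    ⟨_, rfl⟩
  have hmeas : ∀ n, AEStronglyMeasurable (g n) volume := by
    intro n
    rw [hg]
    refine Measurable.aestronglyMeasurable (Measurable.mul (by fun_prop) ?_)
    exact Measurable.ite (measurableSet_le (by fun_prop) measurable_const) measurable_const
      (by fun_prop)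
  have hdom : Integrable fun x : ℝ => |A| * ((k ^ 3)⁻¹ * (1 + x ^ 2)⁻¹) :=
    (integrable_inv_one_add_sq.const_mul _).const_mul _
  have hle : ∀ n x, ‖g n x‖ ≤ |A| * ((k ^ 3)⁻¹ * (1 + x ^ 2)⁻¹) := by
    intro n x
    have ht := abs_nonneg x
    have e0 : (0 : ℝ) ≤ if |x| ≤ ((n + 1 : ℕ) : ℝ) then 1 / ((n + 1 : ℕ) : ℝ) else |x| := by
      split_ifs <;> positivity
    have e1 : (if |x| ≤ ((n + 1 : ℕ) : ℝ) then 1 / ((n + 1 : ℕ) : ℝ) else |x|) ≤ 1 + |x| := by
      split_ifs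
      · have : 1 / ((n + 1 : ℕ) : ℝ) ≤ 1 := by
          rw [div_le_one (by positivity)]; exact_mod_cast Nat.succ_le_succ (Nat.zero_le n)
        linarith
      · linarith
    simp only [hg]
    rw [Real.norm_eq_abs, abs_of_nonneg (by positivity), mul_assoc]
    refine mul_le_mul_of_nonneg_left (le_trans ?_ (hbd x)) (abs_nonneg _)
    exact mul_le_mul_of_nonneg_left e1 (Real.exp_pos _).le
  have hlim : ∀ x, Tendsto (fun n => g n x) atTop (𝓝 0) := by
    intro x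
    have h1 : Tendsto (fun n : ℕ => |A| * Real.exp (-c * |x|) * (1 / ((n : ℝ) + 1))) atTop
        (𝓝 (|A| * Real.exp (-c * |x|) * 0)) :=
      tendsto_one_div_add_atTop_nhds_zero_nat.const_mul _
    rw [mul_zero] at h1
    refine h1.congr' ?_
    filter_upwards [eventually_ge_atTop ⌈|x|⌉₊] with n hn
    have h2 : |x| ≤ ((n + 1 : ℕ) : ℝ) := by
      have := Nat.ceil_le.1 hn
      push_cast; linarith
    simp only [hg, if_pos h2]
    push_cast; rfl
  have h := tendsto_integral_of_dominated_convergence _ hmeas hdom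
    (fun n => Eventually.of_forall (hle n)) (Eventually.of_forall hlim)
  rw [integral_zero] at h
  obtain ⟨n, hn⟩ := (h.eventually (gt_mem_nhds zero_lt_one)).exists
  refine ⟨n + 1, Nat.succ_pos n, ?_, ?_⟩
  · have := hdom.mono' (hmeas n) (Eventually.of_forall (hle n))
    rw [hg] at this
    exact this
  · rw [hg] at hn
    exact hn.le

theorem exists_mtrial {γ : ℝ} (hγ : 1 / 2 < γ) (hγ' : γ < 3 / 2) (hW : Pot (γ + 1 / 2) W)
    {n : ℕ} {φ : Fin n → ℝ → Vec m} (hφ : IsTrialFamily φ) :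
    ∃ (N : ℕ) (Φ Φ' : ℝ → Matrix (Fin N) (Fin m) ℂ) (μ : Fin N → ℝ), MTrial W Φ Φ' μ ∧
      negMoment (energyMatrix W φ) γ = ∑ i, μ i ^ γ := by
  classical
  have hp : 1 ≤ γ + 1 / 2 := by linarith
  have hp2 : γ + 1 / 2 ≤ 2 := by linarith
  obtain ⟨h1, h2, h3⟩ := hφ
  obtain ⟨Φ₀, hΦ₀⟩ : ∃ Φ₀ : ℝ → Matrix (Fin n) (Fin m) ℂ,
      Φ₀ = fun x => Matrix.of fun k l => star (φ k x l) := ⟨_, rfl⟩
  obtain ⟨Φ₁, hΦ₁⟩ : ∃ Φ₁ : ℝ → Matrix (Fin n) (Fin m) ℂ,
      Φ₁ = fun x => Matrix.of fun k l => star (deriv (φ k) x l) := ⟨_, rfl⟩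
  have hpre : Pre Φ₀ Φ₁ := by
    refine ⟨fun x => hda_iff.2 fun k l => ?_, ?_, ?_⟩
    · simp only [hΦ₀, hΦ₁, of_apply]
      have d1 : HasDerivAt (φ k) (deriv (φ k) x) x :=
        ((h1 k).differentiable (by simp) x).hasDerivAt
      have d2 := ((EuclideanSpace.proj l : Vec m →L[ℂ] ℂ).restrictScalars ℝ).hasFDerivAt.comp_hasDerivAt
        x d1
      exact HasDerivAt.star d2
    · rw [hΦ₁]
      refine continuous_matrix fun k l => ?_
      simp only [of_apply]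
      have c1 : Continuous (deriv (φ k)) := (h1 k).continuous_deriv (by simp)
      exact ((EuclideanSpace.proj l : Vec m →L[ℂ] ℂ).continuous.comp c1).star
    · have hK : IsCompact (⋃ k, tsupport (φ k)) := isCompact_iUnion fun k => h2 k
      obtain ⟨R, hR⟩ := hK.isBounded.subset_ball 0
      refine ⟨R, fun x hx => ?_⟩
      have hx' : ∀ k, x ∉ tsupport (φ k) := fun k hk => by
        have := hR (mem_iUnion.2 ⟨k, hk⟩)
        simp only [Metric.mem_ball, dist_zero_right, Real.norm_eq_abs] at this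
        linarith
      constructor
      · ext k l
        simp [hΦ₀, image_eq_zero_of_notMem_tsupport (hx' k)]
      · ext k l
        have : deriv (φ k) x = 0 := by
          by_contra hc
          exact hx' k (support_deriv_subset hc)
        simp [hΦ₁, this]
  have horth : ∫ x, Φ₀ x * (Φ₀ x)ᴴ = 1 := by
    ext k l
    rw [integral_entry hpre.int0, one_apply, ← h3 k l]
    congr 1
    funext x
    simp [hΦ₀, mul_apply, PiLp.inner_apply, mul_comm]
  have hen : ∫ x, (Φ₁ x * (Φ₁ x)ᴴ - Φ₀ x * W x * (Φ₀ x)ᴴ) = energyMatrix W φ := by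
    ext k l
    rw [integral_entry (hpre.int3 hW hp hp2)]
    simp only [energyMatrix, of_apply]
    congr 1
    funext x
    simp only [hΦ₀, hΦ₁, Matrix.sub_apply, mul_apply, PiLp.inner_apply, of_apply,
      conjTranspose_apply, star_star, toEuclideanLin_apply, mulVec, dotProduct, RCLike.inner_apply,
      Finset.sum_mul]
    congr 1
    · exact Finset.sum_congr rfl fun i _ => mul_comm _ _
    · rw [Finset.sum_comm]
      refine Finset.sum_congr rfl fun i _ => Finset.sum_congr rfl fun j _ => ?_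
      simp only [Complex.star_def]
      ring
  have hherm : (energyMatrix W φ).IsHermitian := by
    rw [← hen]
    ext k l
    rw [conjTranspose_apply, integral_entry (hpre.int3 hW hp hp2),
      integral_entry (hpre.int3 hW hp hp2), Complex.star_def, ← integral_conj]
    congr 1
    funext x
    have : (Φ₁ x * (Φ₁ x)ᴴ - Φ₀ x * W x * (Φ₀ x)ᴴ).IsHermitian :=
      (isHermitian_mul_conjTranspose_self _).sub
        (isHermitian_mul_mul_conjTranspose _ (hW.psd x).1)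
    exact this.apply k l
  obtain ⟨E, hE⟩ : ∃ E, E = energyMatrix W φ := ⟨_, rfl⟩
  rw [← hE] at hen hherm ⊢
  obtain ⟨s, hs⟩ : ∃ s : Finset (Fin n), s = Finset.univ.filter fun i => ev E i < 0 := ⟨_, rfl⟩
  have hms : ∀ i, i ∈ s ↔ ev E i < 0 := by simp [hs]
  let e : Fin s.card ≃ s := s.equivFin.symm
  let ι : Fin s.card → Fin n := fun i => e i
  have hι : Function.Injective ι := Subtype.val_injective.comp e.injective
  obtain ⟨C, hC⟩ : ∃ C : Matrix (Fin s.card) (Fin n) ℂ, C = ((eU E)ᴴ).submatrix ι id := ⟨_, rfl⟩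
  have hsub : ∀ X : Matrix (Fin n) (Fin n) ℂ,
      C * X * Cᴴ = ((eU E)ᴴ * X * eU E).submatrix ι ι := by
    intro X
    ext i j
    simp [hC, mul_apply]
  have hm := hpre.mul C
  refine ⟨s.card, fun x => C * Φ₀ x, fun x => C * Φ₁ x, fun i => -ev E (ι i),
    ⟨hm.deriv, hm.cont', hm.supp, ?_, ?_, fun i => ?_⟩, ?_⟩
  · rw [hpre.orth_mul, horth, hsub, Matrix.mul_one, eU_mul', submatrix_one _ hι]
  · rw [hpre.energy_mul hW hp hp2, hen, hsub, eU_ct_mul hherm, Matrix.mul_assoc, eU_mul',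
      Matrix.mul_one, rdiag_neg, rdiag, submatrix_diagonal _ _ hι]
    simp only [neg_neg]
    rfl
  · exact neg_pos.2 ((hms _).1 (e i).2)
  · rw [negMoment_eq hherm, trf]
    have e1 : ∑ i, (-ev E (ι i)) ^ γ = ∑ i ∈ s, (-ev E i) ^ γ := by
      rw [← Finset.sum_coe_sort s]
      exact Equiv.sum_comp e (fun i : s => (-ev E i) ^ γ)
    rw [e1, ← Finset.sum_subset (Finset.subset_univ s)]
    · refine Finset.sum_congr rfl fun i hi => ?_
      rw [max_eq_left (neg_pos.2 ((hms i).1 hi)).le]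
    · intro i _ hi
      rw [hms, not_lt] at hi
      rw [max_eq_right (neg_nonpos.2 hi), Real.zero_rpow (by linarith)]

/-- keeping only some rows -/
theorem MTrial.submatrix {p : ℝ} (hW : Pot p W) (hp : 1 ≤ p) (hp2 : p ≤ 2) {N N' : ℕ}
    {Φ Φ' : ℝ → Matrix (Fin N) (Fin m) ℂ} {μ : Fin N → ℝ} (h : MTrial W Φ Φ' μ)
    {ι : Fin N' → Fin N} (hι : Function.Injective ι) :
    MTrial W (fun x => (Φ x).submatrix ι id) (fun x => (Φ' x).submatrix ι id) (μ ∘ ι) := by
  obtain ⟨C, hC⟩ : ∃ C : Matrix (Fin N') (Fin N) ℂ,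
      C = (1 : Matrix (Fin N) (Fin N) ℂ).submatrix ι id := ⟨_, rfl⟩
  have hl : ∀ X : Matrix (Fin N) (Fin m) ℂ, X.submatrix ι id = C * X := by
    intro X
    ext i j
    simp [hC, mul_apply, one_apply]
  have hsub : ∀ X : Matrix (Fin N) (Fin N) ℂ, C * X * Cᴴ = X.submatrix ι ι := by
    intro X
    ext i j
    simp [hC, mul_apply, one_apply, apply_ite]
  simp only [hl]
  have hm := h.pre.mul C
  refine ⟨hm.deriv, hm.cont', hm.supp, ?_, ?_, fun i => h.pos _⟩
  · rw [h.pre.orth_mul, h.orth, hsub, submatrix_one _ hι]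
  · rw [h.pre.energy_mul hW hp hp2, h.energy, hsub, rdiag_neg, rdiag_neg, rdiag,
      submatrix_diagonal _ _ hι]
    rfl

/-- Bargmann-type bound -/
theorem bargmann {p : ℝ} (hW : Pot p W) (hp : 1 ≤ p) (hp2 : p ≤ 2) {A c : ℝ} (hc : 0 < c)
    (hdec : ∀ᵐ x : ℝ, ‖W x‖ ≤ A * Real.exp (-c * |x|)) :
    ∃ N₀ : ℕ, ∀ (N : ℕ) (Φ Φ' : ℝ → Matrix (Fin N) (Fin m) ℂ) (μ : Fin N → ℝ),
      MTrial W Φ Φ' μ → N ≤ N₀ := by
  classical
  obtain ⟨n, hn, hgi, hg1⟩ := exists_dist_weight (A := A) hc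
  have hn' : (0 : ℝ) < n := by exact_mod_cast hn
  let J : Finset ℤ := Finset.Icc (-(n : ℤ) ^ 2) ((n : ℤ) ^ 2)
  refine ⟨Fintype.card (J × Fin m), fun N Φ Φ' μ h => ?_⟩
  by_contra hN
  rw [not_le] at hN
  let L : (Fin N → ℂ) →ₗ[ℂ] (J × Fin m → ℂ) :=
    Matrix.vecMulLinear (Matrix.of fun i (q : J × Fin m) => Φ ((q.1 : ℤ) / (n : ℝ)) i q.2)
  have hker : LinearMap.ker L ≠ ⊥ := LinearMap.ker_ne_bot_of_finrank_lt (by simpa using hN)
  obtain ⟨v, hv, hv0⟩ := Submodule.exists_mem_ne_zero_of_ne_bot hker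
  obtain ⟨C, hC⟩ : ∃ C : Matrix Unit (Fin N) ℂ, C = Matrix.of fun _ i => v i := ⟨_, rfl⟩
  have hz : ∀ j : ℤ, j ∈ J → C * Φ (j / (n : ℝ)) = 0 := by
    intro j hj
    ext u l
    have := congrFun (LinearMap.mem_ker.1 hv) (⟨j, hj⟩, l)
    simpa [L, hC, mul_apply, vecMul, dotProduct] using this
  have hm := h.pre.mul C
  obtain ⟨I, hI⟩ : ∃ I, I = ∫ z, ‖C * Φ' z‖ ^ 2 := ⟨_, rfl⟩
  have hI0 : 0 ≤ I := hI ▸ integral_nonneg fun z => by positivity
  have hpt : ∀ x, ‖C * Φ x‖ ^ 2 ≤ (if |x| ≤ n then 1 / (n : ℝ) else |x|) * I := by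
    intro x
    split_ifs with hx
    · have hj : ⌊n * x⌋ ∈ J := by
        rw [Finset.mem_Icc]
        obtain ⟨hx1, hx2⟩ := abs_le.1 hx
        constructor
        · rw [Int.le_floor]; push_cast; nlinarith
        · rw [← Int.lt_add_one_iff, Int.floor_lt]; push_cast; nlinarith
      refine (hm.norm_sq_le (x := x) (hz _ hj)).trans ?_
      rw [← hI]
      refine mul_le_mul_of_nonneg_right ?_ hI0
      have e1 : x - (⌊n * x⌋ : ℝ) / n = (n * x - ⌊n * x⌋) / n := by field_simp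
      rw [e1, abs_div, abs_of_pos hn']
      refine div_le_div_of_nonneg_right ?_ hn'.le
      rw [abs_le]
      constructor
      · linarith [Int.floor_le (n * x)]
      · linarith [Int.lt_floor_add_one (n * x)]
    · have hj : (0 : ℤ) ∈ J := by
        rw [Finset.mem_Icc]
        constructor
        · exact neg_nonpos.2 (by positivity)
        · positivity
      have := hm.norm_sq_le (x := x) (hz _ hj)
      rw [← hI] at this
      simpa using this
  have hen := congrArg rtr (h.pre.energy_mul hW hp hp2 C)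
  rw [h.energy, integral_sub hm.int1 (hm.int2 hW hp hp2), rtr_sub, ← integral_rtr hm.int1,
    ← integral_rtr (hm.int2 hW hp hp2)] at hen
  simp only [← norm_sq_eq_rtr'] at hen
  rw [← hI] at hen
  have h1 : ∫ x, rtr (C * Φ x * W x * (C * Φ x)ᴴ) ≤ ∫ x : ℝ,
      (|A| * Real.exp (-c * |x|) * if |x| ≤ n then 1 / (n : ℝ) else |x|) * I := by
    refine integral_mono_ae (integrable_rtr (hm.int2 hW hp hp2)) (hgi.mul_const _) ?_
    filter_upwards [hdec] with x hx
    have e1 := (le_abs_self _).trans (abs_rtr_mul_le (C * Φ x * W x) (C * Φ x)ᴴ)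
    rw [norm_ct] at e1
    have e2 := mul_le_mul_of_nonneg_right (norm_mul_le' (C * Φ x) (W x)) (norm_nonneg (C * Φ x))
    have e3 : ‖W x‖ ≤ |A| * Real.exp (-c * |x|) :=
      hx.trans (mul_le_mul_of_nonneg_right (le_abs_self A) (Real.exp_pos _).le)
    have e4 := mul_le_mul e3 (hpt x) (by positivity) (by positivity)
    calc rtr (C * Φ x * W x * (C * Φ x)ᴴ) ≤ ‖W x‖ * ‖C * Φ x‖ ^ 2 := by nlinarith
      _ ≤ _ := by rw [mul_assoc]; exact e4
  rw [integral_mul_const] at h1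
  have h2 := mul_le_mul_of_nonneg_right hg1 hI0
  have h3 : rtr (C * -rdiag μ * Cᴴ) < 0 := by
    rw [Matrix.mul_neg, Matrix.neg_mul, rtr_neg, neg_lt_zero]
    have e1 := rtr_rdiag_sandwich (fun _ : Unit => (1 : ℝ)) μ C
    rw [rdiag_const, one_smul, Matrix.one_mul] at e1
    rw [e1]
    simp only [Finset.univ_unique, Finset.sum_singleton, hC, of_apply, one_mul]
    obtain ⟨i, hi⟩ := Function.ne_iff.1 hv0
    refine Finset.sum_pos' (fun j _ => mul_nonneg (by positivity) (h.pos j).le)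
      ⟨i, Finset.mem_univ _, mul_pos (pow_pos (norm_pos_iff.2 hi) 2) (h.pos i)⟩
  linarith

end Crest.Agent.R332
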