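import Crest.Agent.R332.Data
import Crest.Agent.R332.Trial
import Crest.Agent.R332.Stage1
import Crest.Agent.R332.Stage2

/-!
Row 332: assembling the equality case.
-/

set_option autoImplicit false
set_option linter.unusedSectionVars false

open Matrix MeasureTheory Set Filter Topology Crest.Agent.R342
open scoped ComplexOrder Matrix.Norms.Frobenius

namespace Crest.Agent.R332

open Crest.MathPhysics.LiebThirring

variable {m : ℕ} {W : ℝ → Matrix (Fin m) (Fin m) ℂ} {γ : ℝ}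

/-- extension of a co-isometry to a unitary -/
theorem extend_coisometry {N : ℕ} {D : Matrix (Fin N) (Fin m) ℂ} (hD : D * Dᴴ = 1) {r : ℝ}
    {κ c : Fin N → ℝ} (hκ : ∀ j, 0 < κ j) :
    ∃ (U : Matrix.unitaryGroup (Fin m) ℂ) (a c' : Fin m → ℝ), (∀ i, 0 ≤ a i) ∧
      ∀ x : ℝ, Dᴴ * rdiag (fun j => soliton r (κ j) (c j) x) * D =
        (U : Matrix (Fin m) (Fin m) ℂ) *
          Matrix.diagonal (fun i => ((soliton r (a i) (c' i) x : ℝ) : ℂ)) *
            star (U : Matrix (Fin m) (Fin m) ℂ) := by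
  let v : Fin N → EuclideanSpace ℂ (Fin m) := fun j => WithLp.toLp 2 (fun k => star (D j k))
  have hv : Orthonormal ℂ v := by
    rw [orthonormal_iff_ite]
    intro j j'
    have h1 := congrFun (congrFun hD j) j'
    rw [Matrix.mul_apply, Matrix.one_apply] at h1
    rw [← h1, PiLp.inner_apply]
    refine Finset.sum_congr rfl fun k _ => ?_
    simp [v, conjTranspose_apply, mul_comm]
  have hNm : N ≤ m := by
    have := hv.linearIndependent.fintype_card_le_finrank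
    simpa using this
  let v' : Fin m → EuclideanSpace ℂ (Fin m) := fun i => if h : (i : ℕ) < N then v ⟨i, h⟩ else 0
  have hv' : Orthonormal ℂ (Set.domRestrict {i : Fin m | (i : ℕ) < N} v') := by
    have h1 := hv.comp (fun i : {i : Fin m | (i : ℕ) < N} => (⟨i.1, i.2⟩ : Fin N))
      (fun i i' h => Subtype.ext (Fin.ext (by simpa using h)))
    convert h1 using 1
    funext i
    have hi : (i.1 : ℕ) < N := i.2
    exact dif_pos hi
  obtain ⟨b, hb⟩ := hv'.exists_orthonormalBasis_extension_of_card_eq (ι := Fin m) (by simp)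
  let U : Matrix (Fin m) (Fin m) ℂ := Matrix.of fun k i => b i k
  have hU : U ∈ Matrix.unitaryGroup (Fin m) ℂ := by
    rw [Matrix.mem_unitaryGroup_iff']
    ext i i'
    have h1 := orthonormal_iff_ite.1 b.orthonormal i i'
    rw [PiLp.inner_apply] at h1
    rw [Matrix.mul_apply, Matrix.one_apply, ← h1]
    refine Finset.sum_congr rfl fun k _ => ?_
    simp [U, star_apply, mul_comm]
  refine ⟨⟨U, hU⟩, fun i => if h : (i : ℕ) < N then κ ⟨i, h⟩ else 0,
    fun i => if h : (i : ℕ) < N then c ⟨i, h⟩ else 0, fun i => ?_, fun x => ?_⟩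
  · beta_reduce
    split_ifs
    · exact (hκ _).le
    · exact le_rfl
  · ext k l
    rw [Matrix.mul_apply, Matrix.mul_apply]
    refine Fintype.sum_of_injective (Fin.castLE hNm) (Fin.castLE_injective hNm) _ _
      (fun i hi => ?_) (fun j => ?_)
    · have hi' : ¬ (i : ℕ) < N := fun h => hi ⟨⟨i, h⟩, rfl⟩
      rw [Matrix.mul_diagonal]
      simp [hi', soliton]
    · have hj : ((Fin.castLE hNm j : Fin m) : ℕ) < N := j.2
      have h1 : b (Fin.castLE hNm j) = v j := by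
        rw [hb _ hj]; simp only [v']; rw [dif_pos hj]; rfl
      unfold rdiag
      rw [Matrix.mul_diagonal, Matrix.mul_diagonal]
      simp [U, h1, v, star_apply, conjTranspose_apply]

theorem extremal_structure (hγ : 1 / 2 < γ) (hγ' : γ < 3 / 2) (hW : Pot (γ + 1 / 2) W)
    (h : ∀ ε : ℝ, 0 < ε → ∃ (N : ℕ) (Φ Φ' : ℝ → Matrix (Fin N) (Fin m) ℂ) (μ : Fin N → ℝ),
      MTrial W Φ Φ' μ ∧ sharpConst γ * (∫ x, trp (γ + 1 / 2) (W x)) - ε ≤ ∑ i, μ i ^ γ) :
    ∃ (U : Matrix.unitaryGroup (Fin m) ℂ) (a c : Fin m → ℝ), (∀ i, 0 ≤ a i) ∧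
      ∀ᵐ x : ℝ, W x = (U : Matrix (Fin m) (Fin m) ℂ) *
        Matrix.diagonal (fun i => ((soliton (γ - 1 / 2)⁻¹ (a i) (c i) x : ℝ) : ℂ)) *
          star (U : Matrix (Fin m) (Fin m) ℂ) := by
  classical
  have hγ0 : 0 < γ := by linarith
  set S : ℝ := sharpConst γ * (∫ x, trp (γ + 1 / 2) (W x)) with hS
  obtain ⟨k, hk, hsat⟩ := exists_sat hγ hγ' hW
  obtain ⟨A, c, hc, hdec⟩ := stage1 (k := k) hγ hγ' hW (fun ε hε => by
    obtain ⟨ε', hε', h2⟩ := hsat ε hε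
    obtain ⟨N, Φ, Φ', μ, hM, hle⟩ := h ε' hε'
    obtain ⟨_, D, _, hD, _⟩ := h2 N Φ Φ' μ hM hle
    exact ⟨N, D, hD⟩)
  obtain ⟨N₀, hN₀⟩ := bargmann hW (by linarith) (by linarith) hc hdec
  let P : ℕ → Prop := fun N => ∀ ε : ℝ, 0 < ε →
    ∃ (Φ Φ' : ℝ → Matrix (Fin N) (Fin m) ℂ) (μ : Fin N → ℝ),
      MTrial W Φ Φ' μ ∧ S - ε ≤ ∑ i, μ i ^ γ
  have hex : ∃ N, P N := by
    by_contra hcon
    simp only [P] at hcon
    push Not at hcon
    choose e he0 he using hcon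
    obtain ⟨N₁, _, hmin⟩ := Finset.exists_min_image (Finset.range (N₀ + 1)) e ⟨0, by simp⟩
    obtain ⟨N, Φ, Φ', μ, hM, hle⟩ := h (e N₁) (he0 N₁)
    have h1 := hmin N (Finset.mem_range.2 (Nat.lt_succ_of_le (hN₀ N Φ Φ' μ hM)))
    have h2 := he N Φ Φ' μ hM
    linarith
  have hPN : P (Nat.find hex) := Nat.find_spec hex
  have hmin : ∀ N' < Nat.find hex, ¬ P N' := fun N' h => Nat.find_min hex h
  generalize Nat.find hex = N at hPN hmin
  obtain ⟨c₀, hc₀, hdata⟩ : ∃ c₀ : ℝ, 0 < c₀ ∧ ∀ ε : ℝ, 0 < ε →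
      ∃ (Φ Φ' : ℝ → Matrix (Fin N) (Fin m) ℂ) (μ : Fin N → ℝ),
        MTrial W Φ Φ' μ ∧ S - ε ≤ ∑ i, μ i ^ γ ∧ ∀ i, c₀ ≤ μ i := by
    cases N with
    | zero =>
      refine ⟨1, one_pos, fun ε hε => ?_⟩
      obtain ⟨Φ, Φ', μ, hM, hle⟩ := hPN ε hε
      exact ⟨Φ, Φ', μ, hM, hle, fun i => i.elim0⟩
    | succ N' =>
      have h1 := hmin N' (Nat.lt_succ_self _)
      simp only [P] at h1
      push Not at h1
      obtain ⟨ε₀, hε₀, h1⟩ := h1
      refine ⟨(ε₀ / 2) ^ γ⁻¹, by positivity, fun ε hε => ?_⟩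
      obtain ⟨Φ, Φ', μ, hM, hle⟩ := hPN (min ε (ε₀ / 2)) (by positivity)
      refine ⟨Φ, Φ', μ, hM, by linarith [min_le_left ε (ε₀ / 2)], fun i => ?_⟩
      have h2 := h1 _ _ _ (hM.submatrix hW (by linarith) (by linarith)
        (Fin.succAbove_right_injective (p := i)))
      rw [Fin.sum_univ_succAbove _ i] at hle
      simp only [Function.comp] at h2
      have h3 : ε₀ / 2 ≤ μ i ^ γ := by linarith [min_le_right ε (ε₀ / 2)]
      exact (Real.rpow_inv_le_iff_of_pos (by positivity) (hM.pos i).le hγ0).2 h3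
  obtain ⟨D, κ, c', hD, hκ, hae⟩ := stage2 (N := N) hγ hγ' hW hk hc₀ (fun ε hε => by
    obtain ⟨ε', hε', h2⟩ := hsat ε hε
    obtain ⟨Φ, Φ', μ, hM, hle, hlow⟩ := hdata ε' hε'
    obtain ⟨h3, h4⟩ := h2 N Φ Φ' μ hM hle
    exact ⟨Φ, Φ', μ, hM, fun i => ⟨hlow i, h3 i⟩, h4⟩)
  obtain ⟨U, a, c'', ha, hU⟩ := extend_coisometry (r := (γ - 1 / 2)⁻¹) (c := c') hD hκ
  exact ⟨U, a, c'', ha, hae.mono fun x hx => hx.trans (hU x)⟩

end Crest.Agent.R332
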