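import Crest.Agent.R332.SeqAE

/-!
Row 332: the fixed-point matrix stays bounded below; limit of the Gram matrix.
-/

set_option autoImplicit false
set_option linter.unusedSectionVars false

open Matrix MeasureTheory Set Filter Topology Crest.Agent.R342
open scoped ComplexOrder Matrix.Norms.Frobenius

namespace Crest.Agent.R332

variable {m : ℕ} {W : ℝ → Matrix (Fin m) (Fin m) ℂ} {γ k : ℝ}

section aux
variable {a b : Type} [Fintype a] [Fintype b]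

lemma kap_integrable {E : Type*} [NormedAddCommGroup E] {f : ℝ → E} (hf : Continuous f) {R : ℝ}
    (hR : ∀ x, R ≤ |x| → f x = 0) : Integrable f := by
  refine hf.integrable_of_hasCompactSupport
    (HasCompactSupport.intro (isCompact_Icc (a := -R) (b := R)) fun x hx => hR x ?_)
  by_contra h
  exact hx (mem_Icc.2 (abs_le.1 (not_le.1 h).le))

/-- one-dimensional Sobolev bound -/
lemma kap_sup {z z' : ℝ → Matrix a b ℂ} (hz : ∀ x, HasDerivAt z (z' x) x) (hz' : Continuous z')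
    {R : ℝ} (hR : ∀ x, R ≤ |x| → z x = 0 ∧ z' x = 0) {θ : ℝ} (hθ : 0 < θ) (x : ℝ) :
    ‖z x‖ ^ 2 ≤ θ * (∫ y, ‖z y‖ ^ 2) + (∫ y, ‖z' y‖ ^ 2) / θ := by
  have hc : Continuous z := continuous_iff_continuousAt.2 fun y => (hz y).continuousAt
  have i1 : Integrable fun y => ‖z y‖ ^ 2 :=
    kap_integrable (by fun_prop) (R := R) fun y hy => by simp [(hR y hy).1]
  have i2 : Integrable fun y => ‖z' y‖ ^ 2 :=
    kap_integrable (by fun_prop) (R := R) fun y hy => by simp [(hR y hy).2]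
  set g' : ℝ → ℝ := fun y => rtr ((z' y)ᴴ * z y + (z y)ᴴ * z' y) with hg'
  have hg : ∀ y, HasDerivAt (fun y => rtr ((z y)ᴴ * z y)) (g' y) y := fun y =>
    hda_rtr (hda_mul (hda_ct (hz y)) (hz y))
  have hg'c : Continuous g' := continuous_rtr.comp
    ((hz'.matrix_conjTranspose.matrix_mul hc).add (hc.matrix_conjTranspose.matrix_mul hz'))
  set p := -(|x| + |R|) with hp
  have hpx : p ≤ x := by have := neg_abs_le x; have := abs_nonneg R; linarith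
  have hp0 : z p = 0 := by
    refine (hR p ?_).1
    rw [hp, abs_neg, abs_of_nonneg (by positivity)]
    have := le_abs_self R; have := abs_nonneg x; linarith
  have h1 := intervalIntegral.integral_eq_sub_of_hasDerivAt (a := p) (b := x)
    (fun y _ => hg y) (hg'c.intervalIntegrable _ _)
  rw [hp0, Matrix.mul_zero, rtr_zero, sub_zero, ← norm_sq_eq_rtr] at h1
  have i3 : Integrable fun y => θ * ‖z y‖ ^ 2 + ‖z' y‖ ^ 2 / θ :=
    (i1.const_mul θ).add (i2.div_const θ)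
  have h2 : ∫ y in p..x, g' y ≤ ∫ y in p..x, (θ * ‖z y‖ ^ 2 + ‖z' y‖ ^ 2 / θ) := by
    refine intervalIntegral.integral_mono_on hpx (hg'c.intervalIntegrable _ _)
      i3.intervalIntegrable fun y _ => ?_
    have e1 := (le_abs_self _).trans (abs_rtr_mul_le (z' y)ᴴ (z y))
    have e2 := (le_abs_self _).trans (abs_rtr_mul_le (z y)ᴴ (z' y))
    rw [norm_ct] at e1 e2
    have e3 : 2 * (‖z y‖ * ‖z' y‖) ≤ θ * ‖z y‖ ^ 2 + ‖z' y‖ ^ 2 / θ := by
      have : θ * ‖z y‖ ^ 2 + ‖z' y‖ ^ 2 / θ - 2 * (‖z y‖ * ‖z' y‖) =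
          (θ * ‖z y‖ - ‖z' y‖) ^ 2 / θ := by field_simp; ring
      have h0 : 0 ≤ (θ * ‖z y‖ - ‖z' y‖) ^ 2 / θ := by positivity
      linarith
    simp only [hg', rtr_add]
    linarith
  have h3 : ∫ y in p..x, (θ * ‖z y‖ ^ 2 + ‖z' y‖ ^ 2 / θ) ≤
      ∫ y, (θ * ‖z y‖ ^ 2 + ‖z' y‖ ^ 2 / θ) := by
    rw [intervalIntegral.integral_of_le hpx]
    exact setIntegral_le_integral i3 (Eventually.of_forall fun y => by positivity)
  rw [integral_add (i1.const_mul θ) (i2.div_const θ), integral_const_mul, integral_div] at h3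
  linarith

lemma kap_diag [DecidableEq b] (T : Matrix a b ℂ) (v : b → ℝ) (i : a) :
    ((T * rdiag v * Tᴴ) i i).re = ∑ l, ‖T i l‖ ^ 2 * v l := by
  rw [mul_apply, Complex.re_sum]
  refine Finset.sum_congr rfl fun l _ => ?_
  rw [rdiag, mul_diagonal, conjTranspose_apply, mul_right_comm, Complex.star_def,
    Complex.mul_conj', ← Complex.ofReal_pow, ← Complex.ofReal_mul, Complex.ofReal_re]

lemma kap_row_sum [DecidableEq a] [DecidableEq b] {T : Matrix a b ℂ} (h : T * Tᴴ = 1) (i : a) :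
    ∑ l, ‖T i l‖ ^ 2 = 1 := by
  have := kap_diag T (fun _ => 1) i
  rw [rdiag_const, one_smul, Matrix.mul_one, h] at this
  simpa using this.symm

/-- the `j`-th row as a matrix -/
def kapRow (A : Matrix a b ℂ) (j : a) : Matrix Unit b ℂ := Matrix.of fun _ l => A j l

lemma kapRow_mul {c : Type} [Fintype c] (A : Matrix a b ℂ) (B : Matrix b c ℂ) (j : a) :
    kapRow A j * B = kapRow (A * B) j := by
  ext u l; simp [kapRow, mul_apply]

lemma kapRow_norm_sq (A : Matrix a b ℂ) (j : a) : ‖kapRow A j‖ ^ 2 = ((A * Aᴴ) j j).re := by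
  rw [norm_sq_eq_rtr', rtr_eq_sum]
  simp [kapRow, mul_apply]

lemma kapRow_norm_le (A : Matrix a b ℂ) (j : a) : ‖kapRow A j‖ ^ 2 ≤ ‖A‖ ^ 2 := by
  rw [norm_sq_eq_sum, norm_sq_eq_sum]
  simp only [kapRow, of_apply, Finset.univ_unique, Finset.sum_singleton]
  exact Finset.single_le_sum (f := fun i => ∑ l, ‖A i l‖ ^ 2) (fun _ _ => by positivity)
    (Finset.mem_univ j)

lemma kapRow_F [DecidableEq a] {κ : a → ℝ} {F : Matrix a a ℂ} (hκ : ∀ i, 0 < κ i)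
    (h1 : (rdiag κ - F).PosSemidef) (h2 : (rdiag κ + F).PosSemidef) (Z : Matrix a b ℂ) (j : a) :
    ‖kapRow (F * Z) j‖ ^ 2 ≤ κ j * rtr (rdiag κ * (Z * Zᴴ)) := by
  set E : Matrix Unit a ℂ := kapRow 1 j with hE
  set u : Matrix Unit b ℂ := kapRow (F * Z) j with hu
  have hEu : E * (F * Z) = u := by rw [hE, kapRow_mul, Matrix.one_mul]
  have hEK : E * rdiag κ * Eᴴ = (κ j) • (1 : Matrix Unit Unit ℂ) := by
    ext x y
    rw [hE, kapRow_mul, Matrix.one_mul, mul_apply, Finset.sum_eq_single j]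
    · simp [kapRow, rdiag]
    · intro l _ hl
      simp [kapRow, one_apply_ne hl.symm]
    · simp
  have h := rtr_sq_le_of_psd h1 h2 (Eᴴ * u) Z
  have e1 : (Eᴴ * u)ᴴ * F * Z = uᴴ * u := by
    rw [conjTranspose_mul, conjTranspose_conjTranspose, Matrix.mul_assoc, Matrix.mul_assoc, hEu]
  have e2 : rtr ((Eᴴ * u)ᴴ * rdiag κ * (Eᴴ * u)) = κ j * ‖u‖ ^ 2 := by
    have : (Eᴴ * u)ᴴ * rdiag κ * (Eᴴ * u) = uᴴ * (E * rdiag κ * Eᴴ) * u := by
      rw [conjTranspose_mul, conjTranspose_conjTranspose]; simp only [Matrix.mul_assoc]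
    rw [this, hEK, Matrix.mul_smul, Matrix.smul_mul, Matrix.mul_one, rtr_smul, norm_sq_eq_rtr]
  have e3 : rtr (Zᴴ * rdiag κ * Z) = rtr (rdiag κ * (Z * Zᴴ)) := by
    rw [Matrix.mul_assoc, rtr_mul_comm, Matrix.mul_assoc]
  have e4 : ‖u‖ ^ 2 ≤ ‖trace (uᴴ * u)‖ := by
    rw [norm_sq_eq_rtr]; exact (le_abs_self _).trans (Complex.abs_re_le_norm _)
  have e5 : 0 ≤ rtr (rdiag κ * (Z * Zᴴ)) :=
    rtr_mul_nonneg ((rdiag_psd_iff κ).2 fun i => (hκ i).le) (posSemidef_self_mul_conjTranspose Z)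
  rw [e1, e2, e3] at h
  have h3 : (‖u‖ ^ 2) ^ 2 ≤ κ j * ‖u‖ ^ 2 * rtr (rdiag κ * (Z * Zᴴ)) :=
    (pow_le_pow_left₀ (by positivity) e4 2).trans h
  rcases (sq_nonneg ‖u‖).eq_or_lt with h0 | hpos
  · rw [← h0]; exact mul_nonneg (hκ j).le e5
  · refine le_of_mul_le_mul_right ?_ hpos
    nlinarith

end aux

lemma MTrial.kap_cont {N : ℕ} {Φ Φ' : ℝ → Matrix (Fin N) (Fin m) ℂ} {μ : Fin N → ℝ}
    (h : MTrial W Φ Φ' μ) : Continuous Φ :=
  continuous_iff_continuousAt.2 fun y => (h.deriv y).continuousAt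

lemma MTrial.kap_int {N : ℕ} {Φ Φ' : ℝ → Matrix (Fin N) (Fin m) ℂ} {μ : Fin N → ℝ}
    (h : MTrial W Φ Φ' μ) : Integrable fun x => Φ x * (Φ x)ᴴ := by
  obtain ⟨R, hR⟩ := h.supp
  exact kap_integrable (h.kap_cont.matrix_mul h.kap_cont.matrix_conjTranspose) (R := R)
    fun x hx => by simp [(hR x hx).1]

lemma MTrial.kap_gram {N : ℕ} {Φ Φ' : ℝ → Matrix (Fin N) (Fin m) ℂ} {μ : Fin N → ℝ}
    (h : MTrial W Φ Φ' μ) {a : Type} [Fintype a] (C : Matrix a (Fin N) ℂ) :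
    ∫ x, (C * Φ x) * (C * Φ x)ᴴ = C * Cᴴ := by
  have e : ∀ x, (C * Φ x) * (C * Φ x)ᴴ = C * (Φ x * (Φ x)ᴴ) * Cᴴ := fun x => by
    rw [conjTranspose_mul]; simp only [Matrix.mul_assoc]
  simp only [e]
  rw [integral_mul_right _ (integrable_mul_left _ h.kap_int), integral_mul_left _ h.kap_int,
    h.orth, Matrix.mul_one]

lemma kap_arith {M θ P Λ c₀ Q S : ℝ} (hM0 : 0 ≤ M) (hθ0 : 0 < θ) (hP0 : 0 ≤ P) (hL0 : 0 ≤ Λ)
    (hθc : c₀ = 4 * (M + 1) * θ) (hen : P - Q = -S) (hμc : c₀ * Λ ≤ S)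
    (hpot : Q ≤ c₀ / 2 * Λ + M * (θ * Λ + P / θ)) : θ ^ 2 * Λ ≤ P := by
  have h5 : M * (θ * Λ + P / θ) ≤ (M + 1) * (θ * Λ + P / θ) :=
    mul_le_mul_of_nonneg_right (by linarith) (by positivity)
  have h6 : (M + 1) * (θ * Λ) ≤ (M + 1) * (P / θ) := by
    have h8 : c₀ * Λ = 4 * ((M + 1) * (θ * Λ)) := by rw [hθc]; ring
    have h7 : c₀ / 2 * Λ = 2 * ((M + 1) * (θ * Λ)) := by rw [hθc]; ring
    rw [mul_add (M + 1)] at h5
    linarith
  have h7 := le_of_mul_le_mul_left h6 (by positivity)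
  rw [le_div_iff₀ hθ0] at h7
  linarith

/-- kinetic energy of a combination of the trial functions -/
lemma MTrial.kap_kinetic {p : ℝ} (hW : Pot p W) (hp : 1 ≤ p) (hp2 : p ≤ 2) {N : ℕ}
    {Φ Φ' : ℝ → Matrix (Fin N) (Fin m) ℂ} {μ : Fin N → ℝ} (h : MTrial W Φ Φ' μ) {c₀ : ℝ}
    (hc : 0 < c₀) (hμ : ∀ i, c₀ ≤ μ i) (c : Matrix Unit (Fin N) ℂ) :
    (c₀ / (4 * ((∫ x, max (‖W x‖ - c₀ / 2) 0) + 1))) ^ 2 * ‖c‖ ^ 2 ≤ ∫ x, ‖c * Φ' x‖ ^ 2 := by
  obtain ⟨R, hR⟩ := h.supp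
  set M := ∫ x, max (‖W x‖ - c₀ / 2) 0 with hM
  have hM0 : 0 ≤ M := integral_nonneg fun x => le_max_right _ _
  set θ := c₀ / (4 * (M + 1)) with hθ
  have hθ0 : 0 < θ := by positivity
  have hΦ := h.kap_cont
  have hz : ∀ x, HasDerivAt (fun y => c * Φ y) (c * Φ' x) x := fun x => by
    simpa using hda_mul (hasDerivAt_const x c) (h.deriv x)
  have hzc : Continuous fun y => c * Φ y := continuous_const.matrix_mul hΦ
  have hz' : Continuous fun y => c * Φ' y := continuous_const.matrix_mul h.cont'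
  have hR' : ∀ x, R ≤ |x| → c * Φ x = 0 ∧ c * Φ' x = 0 := fun x hx => by
    simp [(hR x hx).1, (hR x hx).2]
  have i0 : Integrable fun x => (c * Φ x) * (c * Φ x)ᴴ :=
    kap_integrable (hzc.matrix_mul hzc.matrix_conjTranspose) (R := R)
      fun x hx => by simp [(hR x hx).1]
  have hΛ : ∫ x, ‖c * Φ x‖ ^ 2 = ‖c‖ ^ 2 := by
    simp only [norm_sq_eq_rtr']
    rw [integral_rtr i0, h.kap_gram]
  have i1 : Integrable fun y => ‖c * Φ y‖ ^ 2 :=
    kap_integrable (by fun_prop) (R := R) fun y hy => by simp [(hR y hy).1]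
  have i2 : Integrable fun y => ‖c * Φ' y‖ ^ 2 :=
    kap_integrable (by fun_prop) (R := R) fun y hy => by simp [(hR y hy).2]
  set P := ∫ x, ‖c * Φ' x‖ ^ 2 with hP
  have hP0 : 0 ≤ P := integral_nonneg fun x => by positivity
  have hsup : ∀ x, ‖c * Φ x‖ ^ 2 ≤ θ * ‖c‖ ^ 2 + P / θ := fun x => by
    have := kap_sup hz hz' hR' hθ0 x
    rwa [hΛ] at this
  -- the energy identity
  have j1 : Integrable fun x => Φ' x * (Φ' x)ᴴ :=
    kap_integrable (h.cont'.matrix_mul h.cont'.matrix_conjTranspose) (R := R)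
      fun x hx => by simp [(hR x hx).2]
  have j2 : Integrable fun x => Φ x * W x * (Φ x)ᴴ :=
    hW.integrable_sandwich hp hp2 hΦ hΦ.matrix_conjTranspose fun x hx => (hR x hx).1
  have j3 : Integrable fun x => (c * Φ x) * W x * (c * Φ x)ᴴ :=
    hW.integrable_sandwich hp hp2 hzc hzc.matrix_conjTranspose fun x hx => (hR' x hx).1
  have hen : P - ∫ x, rtr ((c * Φ x) * W x * (c * Φ x)ᴴ) = -rtr (c * rdiag μ * cᴴ) := by
    have e : ∀ x, ‖c * Φ' x‖ ^ 2 - rtr ((c * Φ x) * W x * (c * Φ x)ᴴ) =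
        rtr (c * (Φ' x * (Φ' x)ᴴ - Φ x * W x * (Φ x)ᴴ) * cᴴ) := fun x => by
      rw [norm_sq_eq_rtr', ← rtr_sub]
      simp only [conjTranspose_mul, Matrix.mul_sub, Matrix.sub_mul, Matrix.mul_assoc]
    rw [hP, ← integral_sub i2 (integrable_rtr j3)]
    simp only [e]
    have j4 : Integrable fun x => Φ' x * (Φ' x)ᴴ - Φ x * W x * (Φ x)ᴴ := j1.sub j2
    rw [integral_rtr (integrable_mul_right _ (integrable_mul_left _ j4)),
      integral_mul_right _ (integrable_mul_left _ j4), integral_mul_left _ j4, h.energy,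
      Matrix.mul_neg, Matrix.neg_mul, rtr_neg]
  have hμc : c₀ * ‖c‖ ^ 2 ≤ rtr (c * rdiag μ * cᴴ) := by
    rw [rtr_eq_sum, norm_sq_eq_sum, Finset.mul_sum]
    refine Finset.sum_le_sum fun u _ => ?_
    rw [kap_diag, Finset.mul_sum]
    refine Finset.sum_le_sum fun l _ => ?_
    rw [mul_comm]
    exact mul_le_mul_of_nonneg_left (hμ l) (by positivity)
  have iM := hW.integrable_excess hp hp2 (half_pos hc)
  have hpot : ∫ x, rtr ((c * Φ x) * W x * (c * Φ x)ᴴ) ≤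
      ∫ x, (c₀ / 2 * ‖c * Φ x‖ ^ 2 + max (‖W x‖ - c₀ / 2) 0 * (θ * ‖c‖ ^ 2 + P / θ)) := by
    refine integral_mono (integrable_rtr j3) ((i1.const_mul _).add (iM.mul_const _)) fun x => ?_
    have e1 := (le_abs_self _).trans (abs_rtr_mul_le ((c * Φ x) * W x) (c * Φ x)ᴴ)
    rw [norm_ct] at e1
    have e2 : ‖(c * Φ x) * W x‖ * ‖c * Φ x‖ ≤ ‖W x‖ * ‖c * Φ x‖ ^ 2 := by
      have := mul_le_mul_of_nonneg_right (norm_mul_le' (c * Φ x) (W x)) (norm_nonneg (c * Φ x))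
      nlinarith
    have e3 : ‖W x‖ ≤ c₀ / 2 + max (‖W x‖ - c₀ / 2) 0 := by
      have := le_max_left (‖W x‖ - c₀ / 2) 0; linarith
    have e4 := mul_le_mul_of_nonneg_right e3 (sq_nonneg ‖c * Φ x‖)
    have e5 := mul_le_mul_of_nonneg_left (hsup x) (le_max_right (‖W x‖ - c₀ / 2) 0)
    show rtr ((c * Φ x) * W x * (c * Φ x)ᴴ) ≤
      c₀ / 2 * ‖c * Φ x‖ ^ 2 + max (‖W x‖ - c₀ / 2) 0 * (θ * ‖c‖ ^ 2 + P / θ)
    linarith
  rw [integral_add (i1.const_mul _) (iM.mul_const _), integral_const_mul, integral_mul_const,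
    hΛ, ← hM] at hpot
  have hθc : c₀ = 4 * (M + 1) * θ := by rw [hθ]; field_simp
  exact kap_arith hM0 hθ0 hP0 (sq_nonneg _) hθc hen hμc hpot

lemma Link.kap_CC_lt {ε : ℝ} {N : ℕ} {D : BData W ε N} {Φ Φ' : ℝ → Matrix (Fin N) (Fin m) ℂ}
    {μ : Fin N → ℝ} (L : Link γ D Φ Φ' μ) (h : γ < 1) :
    L.C * L.Cᴴ = rdiag fun i => D.κ i ^ (2 * γ - 2) := by
  rw [L.hC, if_pos h, conjTranspose_mul, rdiag_ct, Matrix.mul_assoc, ← Matrix.mul_assoc L.T,
    L.T_unit, Matrix.one_mul, rdiag_mul]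
  congr 1; funext i
  rw [← Real.rpow_add (D.κ_pos i)]; congr 1; ring

lemma Link.kap_CC_ge {ε : ℝ} {N : ℕ} {D : BData W ε N} {Φ Φ' : ℝ → Matrix (Fin N) (Fin m) ℂ}
    {μ : Fin N → ℝ} (L : Link γ D Φ Φ' μ) (h : ¬γ < 1) (hμ : ∀ j, 0 < μ j) :
    L.C * L.Cᴴ = L.T * rdiag (fun j => μ j ^ (γ - 1)) * L.Tᴴ := by
  rw [L.hC, if_neg h, conjTranspose_mul, rdiag_ct, Matrix.mul_assoc, Matrix.mul_assoc,
    ← Matrix.mul_assoc (rdiag _), rdiag_mul]
  congr 3; funext j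
  rw [← Real.rpow_add (hμ j)]; congr 1; ring

/-- upper bound for the kinetic energy of one row -/
lemma Link.kap_upper {ε : ℝ} (hε : 0 < ε) {N : ℕ} {D : BData W ε N}
    {Φ Φ' : ℝ → Matrix (Fin N) (Fin m) ℂ} {μ : Fin N → ℝ} (L : Link γ D Φ Φ' μ)
    (h : MTrial W Φ Φ' μ) (j : Fin N) :
    ∫ x, ‖kapRow L.C j * Φ' x‖ ^ 2 ≤ 2 * L.sq + 2 * (D.κ j * rtr (D.K * (L.C * L.Cᴴ))) := by
  obtain ⟨R, hR⟩ := h.supp
  have hab := (D.a_lt_b hε).le
  have hΦ := h.kap_cont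
  have hZ : Continuous fun y => L.C * Φ y := continuous_const.matrix_mul hΦ
  have hZ' : Continuous fun y => L.C * Φ' y := continuous_const.matrix_mul h.cont'
  have hz' : Continuous fun y => kapRow L.C j * Φ' y := continuous_const.matrix_mul h.cont'
  have i0 : Integrable fun x => (L.C * Φ x) * (L.C * Φ x)ᴴ :=
    kap_integrable (hZ.matrix_mul hZ.matrix_conjTranspose) (R := R)
      fun x hx => by simp [(hR x hx).1]
  have i1 : Integrable fun x => rtr (D.K * ((L.C * Φ x) * (L.C * Φ x)ᴴ)) :=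
    integrable_rtr (integrable_mul_left _ i0)
  have e1 : ∫ x, ‖kapRow L.C j * Φ' x‖ ^ 2 = ∫ x in D.a..D.b, ‖kapRow L.C j * Φ' x‖ ^ 2 := by
    rw [intervalIntegral.integral_of_le hab]
    refine (setIntegral_eq_integral_of_forall_compl_eq_zero fun x hx => ?_).symm
    rw [(L.supp x fun h' => hx (Ioo_subset_Ioc_self h')).2]
    simp
  have hsq : ContinuousOn (fun x => ‖L.C * Φ' x - D.F x * (L.C * Φ x)‖ ^ 2) (Icc D.a D.b) := by
    have h1 : ContinuousOn (fun x => D.F x * (L.C * Φ x)) (Icc D.a D.b) := by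
      rw [continuousOn_iff_continuous_domRestrict]
      exact (continuousOn_iff_continuous_domRestrict.1 D.F_cont).matrix_mul
        (hZ.comp continuous_subtype_val)
    exact ((hZ'.continuousOn.sub h1).norm).pow 2
  have i2 : IntervalIntegrable (fun x => ‖L.C * Φ' x - D.F x * (L.C * Φ x)‖ ^ 2) volume D.a D.b :=
    (hsq.mono (by rw [uIcc_of_le hab])).intervalIntegrable
  have e2 : ∫ x in D.a..D.b, ‖kapRow L.C j * Φ' x‖ ^ 2 ≤
      ∫ x in D.a..D.b, (2 * ‖L.C * Φ' x - D.F x * (L.C * Φ x)‖ ^ 2 +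
        2 * (D.κ j * rtr (D.K * ((L.C * Φ x) * (L.C * Φ x)ᴴ)))) := by
    refine intervalIntegral.integral_mono_on hab ((hz'.norm.pow 2).intervalIntegrable _ _)
      ((i2.const_mul 2).add ((i1.const_mul _).const_mul 2).intervalIntegrable) fun x hx => ?_
    have f1 := kapRow_F D.κ_pos (D.up x hx) (D.lo x hx) (L.C * Φ x) j
    have f2 := kapRow_norm_le (L.C * Φ' x - D.F x * (L.C * Φ x)) j
    have f3 : kapRow L.C j * Φ' x = kapRow (L.C * Φ' x - D.F x * (L.C * Φ x)) j +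
        kapRow (D.F x * (L.C * Φ x)) j := by
      rw [kapRow_mul]; ext u l; simp [kapRow]
    have f4 := norm_add_le (kapRow (L.C * Φ' x - D.F x * (L.C * Φ x)) j)
      (kapRow (D.F x * (L.C * Φ x)) j)
    rw [← f3] at f4
    have f5 := pow_le_pow_left₀ (norm_nonneg _) f4 2
    unfold BData.K
    nlinarith [sq_nonneg (‖kapRow (L.C * Φ' x - D.F x * (L.C * Φ x)) j‖ -
      ‖kapRow (D.F x * (L.C * Φ x)) j‖)]
  have e3 : ∫ x in D.a..D.b, rtr (D.K * ((L.C * Φ x) * (L.C * Φ x)ᴴ)) ≤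
      rtr (D.K * (L.C * L.Cᴴ)) := by
    rw [← h.kap_gram L.C, ← integral_mul_left _ i0, ← integral_rtr (integrable_mul_left _ i0),
      intervalIntegral.integral_of_le hab]
    refine setIntegral_le_integral i1 (Eventually.of_forall fun x => ?_)
    exact rtr_mul_nonneg ((rdiag_psd_iff _).2 fun i => (D.κ_pos i).le)
      (posSemidef_self_mul_conjTranspose _)
  rw [intervalIntegral.integral_add (i2.const_mul 2)
    ((i1.const_mul _).const_mul 2).intervalIntegrable, intervalIntegral.integral_const_mul,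
    intervalIntegral.integral_const_mul, intervalIntegral.integral_const_mul] at e2
  have e4 := mul_le_mul_of_nonneg_left e3 (D.κ_pos j).le
  rw [e1]
  unfold Link.sq
  linarith

theorem Link.gram {ε : ℝ} {N : ℕ} {D : BData W ε N} {Φ Φ' : ℝ → Matrix (Fin N) (Fin m) ℂ}
    {μ : Fin N → ℝ} (L : Link γ D Φ Φ' μ) (h : MTrial W Φ Φ' μ) :
    ∫ x, (L.C * Φ x) * (L.C * Φ x)ᴴ = L.C * L.Cᴴ := h.kap_gram L.C

theorem kappa_lower (hγ : 1 / 2 < γ) (hγ' : γ < 3 / 2) (hW : Pot (γ + 1 / 2) W) (N : ℕ) {c₀ : ℝ}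
    (hc : 0 < c₀) : ∃ κ₀ ε₀ : ℝ, 0 < κ₀ ∧ 0 < ε₀ ∧ ∀ ε : ℝ, 0 < ε → ε ≤ ε₀ →
      ∀ (Φ Φ' : ℝ → Matrix (Fin N) (Fin m) ℂ) (μ : Fin N → ℝ), MTrial W Φ Φ' μ →
        (∀ i, c₀ ≤ μ i ∧ μ i ≤ k) →
        ∀ (D : BData W ε N) (L : Link γ D Φ Φ' μ), Sat γ k D → L.sq ≤ ε → ∀ j, κ₀ ≤ D.κ j := by
  set θ := c₀ / (4 * ((∫ x, max (‖W x‖ - c₀ / 2) 0) + 1)) with hθ
  have hM0 : 0 ≤ ∫ x, max (‖W x‖ - c₀ / 2) 0 := integral_nonneg fun x => le_max_right _ _
  have hθ0 : 0 < θ := by positivity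
  set k' := max k 1 with hk'
  have hk0 : 0 < k' := lt_of_lt_of_le one_pos (le_max_right _ _)
  have hkk : k ≤ k' := le_max_left _ _
  set c₁ := min (k' ^ (2 * γ - 2)) (c₀ ^ (γ - 1)) with hc₁
  have hc₁0 : 0 < c₁ := lt_min (Real.rpow_pos_of_pos hk0 _) (Real.rpow_pos_of_pos hc _)
  set B := k' ^ (2 * γ - 1) + k' * k' ^ (γ - 1) with hB
  have hB1 : 0 < k' ^ (2 * γ - 1) := Real.rpow_pos_of_pos hk0 _
  have hB2 : 0 < k' * k' ^ (γ - 1) := mul_pos hk0 (Real.rpow_pos_of_pos hk0 _)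
  set C₁ := (N : ℝ) * B + 1 with hC₁
  have hC₁0 : 0 < C₁ := by positivity
  refine ⟨θ ^ 2 * c₁ / (4 * C₁), θ ^ 2 * c₁ / 4, by positivity, by positivity, ?_⟩
  intro ε hε hε₀ Φ Φ' μ h hμ D L hS hsq j
  have hlow := h.kap_kinetic hW (by linarith) (by linarith) hc (fun i => (hμ i).1) (kapRow L.C j)
  have hup := L.kap_upper hε h j
  rw [kapRow_norm_sq, ← hθ] at hlow
  have hdiag : ∀ i, c₁ ≤ ((L.C * L.Cᴴ) i i).re ∧ D.κ i * ((L.C * L.Cᴴ) i i).re ≤ B := by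
    intro i
    have hκ := D.κ_pos i
    have hκk : D.κ i ≤ k' := (hS.κ_le i).trans hkk
    by_cases hγ1 : γ < 1
    · rw [L.kap_CC_lt hγ1]
      simp only [rdiag, diagonal_apply_eq, Complex.ofReal_re]
      refine ⟨(min_le_left _ _).trans
        (Real.rpow_le_rpow_of_nonpos hκ hκk (by linarith)), ?_⟩
      have e : D.κ i * D.κ i ^ (2 * γ - 2) = D.κ i ^ (2 * γ - 1) := by
        rw [mul_comm, ← Real.rpow_add_one hκ.ne']; congr 1; ring
      rw [e]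
      have := Real.rpow_le_rpow hκ.le hκk (z := 2 * γ - 1) (by linarith)
      linarith
    · rw [L.kap_CC_ge hγ1 h.pos, kap_diag]
      have hrow := kap_row_sum L.T_unit i
      have hγ2 : 0 ≤ γ - 1 := by linarith [not_lt.1 hγ1]
      have e1 : c₀ ^ (γ - 1) ≤ ∑ l, ‖L.T i l‖ ^ 2 * μ l ^ (γ - 1) := by
        calc c₀ ^ (γ - 1) = ∑ l, ‖L.T i l‖ ^ 2 * c₀ ^ (γ - 1) := by
              rw [← Finset.sum_mul, hrow, one_mul]
          _ ≤ _ := Finset.sum_le_sum fun l _ => mul_le_mul_of_nonneg_left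
              (Real.rpow_le_rpow hc.le (hμ l).1 hγ2) (by positivity)
      have e2 : ∑ l, ‖L.T i l‖ ^ 2 * μ l ^ (γ - 1) ≤ k' ^ (γ - 1) := by
        calc ∑ l, ‖L.T i l‖ ^ 2 * μ l ^ (γ - 1) ≤ ∑ l, ‖L.T i l‖ ^ 2 * k' ^ (γ - 1) :=
              Finset.sum_le_sum fun l _ => mul_le_mul_of_nonneg_left
                (Real.rpow_le_rpow (h.pos l).le ((hμ l).2.trans hkk) hγ2) (by positivity)
          _ = _ := by rw [← Finset.sum_mul, hrow, one_mul]
      refine ⟨(min_le_right _ _).trans e1, ?_⟩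
      have e3 := mul_le_mul hκk e2 ((Real.rpow_pos_of_pos hc _).le.trans e1) hk0.le
      linarith
  have htr : rtr (D.K * (L.C * L.Cᴴ)) ≤ C₁ := by
    unfold BData.K
    rw [rtr_rdiag_mul]
    calc ∑ i, D.κ i * ((L.C * L.Cᴴ) i i).re ≤ ∑ _i : Fin N, B :=
          Finset.sum_le_sum fun i _ => (hdiag i).2
      _ ≤ C₁ := by simp [hC₁]
  have h1 := mul_le_mul_of_nonneg_left (hdiag j).1 (sq_nonneg θ)
  have h2 := mul_le_mul_of_nonneg_left htr (D.κ_pos j).le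
  rw [div_le_iff₀ (by positivity)]
  linarith

theorem gram_limit (hγ : 1 / 2 < γ) (hγ' : γ < 3 / 2) {N : ℕ} {c₀ : ℝ} (hc : 0 < c₀)
    (𝒰 : Ultrafilter ℕ) {e : ℕ → ℝ} (he : Tendsto e 𝒰 (𝓝 0))
    {Φ Φ' : ℕ → ℝ → Matrix (Fin N) (Fin m) ℂ} {μ : ℕ → Fin N → ℝ}
    (hμ : ∀ i j, c₀ ≤ μ i j ∧ μ i j ≤ k) (D : ∀ i, BData W (e i) N)
    (L : ∀ i, Link γ (D i) (Φ i) (Φ' i) (μ i)) (hkd : ∀ i, (L i).kd ≤ e i)
    {κ : Fin N → ℝ} (hκ : ∀ j, 0 < κ j) (hlim : Tendsto (fun i => (D i).κ) 𝒰 (𝓝 κ)) :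
    Tendsto (fun i => (L i).C * (L i).Cᴴ) 𝒰 (𝓝 (rdiag fun j => κ j ^ (2 * γ - 2))) := by
  have hκj : ∀ j, Tendsto (fun i => (D i).κ j) 𝒰 (𝓝 (κ j)) := fun j => tendsto_pi_nhds.1 hlim j
  by_cases hγ1 : γ < 1
  · simp only [fun i => (L i).kap_CC_lt hγ1]
    refine (continuous_rdiag.tendsto _).comp (tendsto_pi_nhds.2 fun j => ?_)
    exact (hκj j).rpow_const (Or.inl (hκ j).ne')
  have hμ0 : ∀ i j, 0 < μ i j := fun i j => hc.trans_le (hμ i j).1
  simp only [fun i => (L i).kap_CC_ge hγ1 (hμ0 i)]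
  have hγ2 : 1 ≤ γ := not_lt.1 hγ1
  obtain ⟨T, hT⟩ := exists_ultralim 𝒰 (F := fun i => (L i).T)
    (Eventually.of_forall fun i => (opLe_of_coisometry (L i).T_unit).norm_le)
  obtain ⟨ν, hν, hνl⟩ : ∃ ν ∈ Icc (fun _ : Fin N => c₀) (fun _ => k), Tendsto μ 𝒰 (𝓝 ν) := by
    have : (↑(𝒰.map μ) : Filter _) ≤ 𝓟 (Icc (fun _ : Fin N => c₀) (fun _ => k)) := by
      rw [Filter.le_principal_iff]
      exact Eventually.of_forall (p := fun i => μ i ∈ Icc (fun _ : Fin N => c₀) (fun _ => k))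
        fun i => ⟨fun j => (hμ i j).1, fun j => (hμ i j).2⟩
    exact isCompact_Icc.ultrafilter_le_nhds _ this
  have hν0 : ∀ j, 0 < ν j := fun j => hc.trans_le (hν.1 j)
  have hνj : ∀ j, Tendsto (fun i => μ i j) 𝒰 (𝓝 (ν j)) := fun j => tendsto_pi_nhds.1 hνl j
  have hTc : Tendsto (fun i => (L i).Tᴴ) 𝒰 (𝓝 Tᴴ) :=
    ((continuous_id.matrix_conjTranspose).tendsto T).comp hT
  have hmul : ∀ {A B : ℕ → Matrix (Fin N) (Fin N) ℂ} {A₀ B₀ : Matrix (Fin N) (Fin N) ℂ},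
      Tendsto A 𝒰 (𝓝 A₀) → Tendsto B 𝒰 (𝓝 B₀) →
      Tendsto (fun i => A i * B i) 𝒰 (𝓝 (A₀ * B₀)) := fun hA hB => hA.mul hB
  have hTT : T * Tᴴ = 1 := by
    have h1 := hmul hT hTc
    simp only [fun i => (L i).T_unit] at h1
    exact tendsto_nhds_unique h1 tendsto_const_nhds
  have hTe : ∀ a b, Tendsto (fun i => (L i).T a b) 𝒰 (𝓝 (T a b)) := fun a b =>
    ((entryL a b).continuous.tendsto T).comp hT
  have hkl : Tendsto (fun i => (L i).kd) 𝒰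
      (𝓝 (∑ a, ∑ b, ‖T a b‖ ^ 2 * breg γ (κ a ^ 2) (ν b))) := by
    simp only [Link.kd, if_neg hγ1]
    refine tendsto_finsetSum _ fun a _ => tendsto_finsetSum _ fun b _ => ?_
    refine ((hTe a b).norm.pow 2).mul ?_
    unfold breg
    exact ((((hκj a).pow 2).rpow_const (Or.inr (by linarith))).sub
      ((hνj b).rpow_const (Or.inl (hν0 b).ne'))).sub
      ((((hνj b).rpow_const (Or.inl (hν0 b).ne')).const_mul γ).mul
        (((hκj a).pow 2).sub (hνj b)))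
  have hle : ∑ a, ∑ b, ‖T a b‖ ^ 2 * breg γ (κ a ^ 2) (ν b) ≤ 0 :=
    le_of_tendsto_of_tendsto' hkl he hkd
  have hnn : ∀ a b, 0 ≤ ‖T a b‖ ^ 2 * breg γ (κ a ^ 2) (ν b) := fun a b => by
    refine mul_nonneg (by positivity) ?_
    have := rpow_tangent_le hγ2 (sq_nonneg (κ a)) (hν0 b).le
    unfold breg; linarith
  have hz : ∀ a b, ‖T a b‖ ^ 2 * breg γ (κ a ^ 2) (ν b) = 0 := by
    have h1 := le_antisymm hle
      (Finset.sum_nonneg fun a _ => Finset.sum_nonneg fun b _ => hnn a b)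
    intro a b
    have h2 := (Finset.sum_eq_zero_iff_of_nonneg
      fun a _ => Finset.sum_nonneg fun b _ => hnn a b).1 h1 a (Finset.mem_univ a)
    exact (Finset.sum_eq_zero_iff_of_nonneg fun b _ => hnn a b).1 h2 b (Finset.mem_univ b)
  have hint : rdiag (fun j => κ j ^ (2 * γ - 2)) * T = T * rdiag fun j => ν j ^ (γ - 1) := by
    ext a b
    simp only [rdiag, diagonal_mul, mul_diagonal]
    by_cases hab : T a b = 0
    · simp [hab]
    have h1 : breg γ (κ a ^ 2) (ν b) = 0 :=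
      (mul_eq_zero.1 (hz a b)).resolve_left (pow_ne_zero 2 (norm_ne_zero_iff.2 hab))
    have h2 : κ a ^ (2 * γ - 2) = ν b ^ (γ - 1) := by
      rcases hγ2.eq_or_lt with h3 | h3
      · rw [← h3]; simp
      · have h4 : κ a ^ 2 = ν b := by
          by_contra h5
          have := rpow_tangent_lt h3 (sq_nonneg (κ a)) (hν0 b).le h5
          unfold breg at h1; linarith
        rw [← h4, ← Real.rpow_natCast, ← Real.rpow_mul (hκ a).le]
        congr 1; push_cast; ring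
    rw [h2, mul_comm]
  have hfin : (rdiag fun j => κ j ^ (2 * γ - 2)) = T * rdiag (fun j => ν j ^ (γ - 1)) * Tᴴ := by
    rw [← hint, Matrix.mul_assoc, hTT, Matrix.mul_one]
  rw [hfin]
  refine hmul (hmul hT ?_) hTc
  refine (continuous_rdiag.tendsto _).comp (tendsto_pi_nhds.2 fun j => ?_)
  exact (hνj j).rpow_const (Or.inl (hν0 j).ne')

end Crest.Agent.R332
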