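import Crest.Agent.R332.Mat

/-!
Row 332: auxiliary lemmas for `Limit.lean`.
-/

set_option autoImplicit false
set_option linter.unusedSectionVars false

open Matrix MeasureTheory Set Filter Topology Crest.Agent.R342
open scoped ComplexOrder Matrix.Norms.Frobenius

namespace Crest.Agent.R332

section general
variable {E : Type*} [NormedAddCommGroup E] [NormedSpace ℝ E]

lemma lim_extend {h : ℝ → E} {a b : ℝ} (hab : a ≤ b) (hh : ContinuousOn h (Icc a b)) :
    ∃ g : ℝ → E, Continuous g ∧ ∀ x ∈ Icc a b, g x = h x := by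
  refine ⟨fun x => h (projIcc a b hab x), ?_, fun x hx => by simp only [projIcc_of_mem hab hx]⟩
  exact hh.comp_continuous (continuous_subtype_val.comp continuous_projIcc)
    fun x => (projIcc a b hab x).2

lemma lim_ici {D : ℝ → E} {D' : E} {p q x : ℝ} (hx : x ∈ Ico p q)
    (h : HasDerivWithinAt D D' (Icc p q) x) : HasDerivWithinAt D D' (Ici x) x :=
  h.mono_of_mem_nhdsWithin (Icc_mem_nhdsGE_of_mem hx)

lemma lim_mirror {D : ℝ → E} {D' : E} {p q y : ℝ} (h : HasDerivWithinAt D D' (Icc p q) (-y)) :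
    HasDerivWithinAt (fun z => D (-z)) (-D') (Icc (-q) (-p)) y := by
  have h1 : HasDerivWithinAt (fun z : ℝ => -z) (-1) (Icc (-q) (-p)) y :=
    (hasDerivAt_neg y).hasDerivWithinAt
  have h2 := HasDerivWithinAt.scomp (h := fun z : ℝ => -z) y h h1
    (fun z hz => ⟨by linarith [hz.2], by linarith [hz.1]⟩)
  simpa [Function.comp_def] using h2

lemma lim_gron1 {D D' : ℝ → E} {p q L ε δ : ℝ} (hL : 0 < L) (hε : 0 ≤ ε) (hδ : 0 ≤ δ)
    (hD : ∀ x ∈ Icc p q, HasDerivWithinAt D (D' x) (Icc p q) x) (h0 : ‖D p‖ ≤ δ)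
    (hb : ∀ x ∈ Icc p q, ‖D' x‖ ≤ L * ‖D x‖ + ε) :
    ∀ x ∈ Icc p q, ‖D x‖ ≤ (δ + ε / L) * Real.exp (L * (q - p)) := by
  intro x hx
  have h := norm_le_gronwallBound_of_norm_deriv_right_le
    (fun y hy => (hD y hy).continuousWithinAt)
    (fun y hy => lim_ici hy (hD y (Ico_subset_Icc_self hy))) h0
    (fun y hy => hb y (Ico_subset_Icc_self hy)) x hx
  rw [gronwallBound_of_K_ne_0 hL.ne'] at h
  have h1 : Real.exp (L * (x - p)) ≤ Real.exp (L * (q - p)) := by
    gcongr; exact hx.2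
  have h2 : 0 ≤ ε / L := by positivity
  calc ‖D x‖ ≤ δ * Real.exp (L * (x - p)) + ε / L * (Real.exp (L * (x - p)) - 1) := h
    _ ≤ δ * Real.exp (L * (q - p)) + ε / L * Real.exp (L * (q - p)) := by
        gcongr; linarith
    _ = _ := by ring

lemma lim_gron2 {D D' : ℝ → E} {p q x₀ L ε δ : ℝ} (hL : 0 < L) (hε : 0 ≤ ε) (hδ : 0 ≤ δ)
    (hx₀ : x₀ ∈ Icc p q)
    (hD : ∀ x ∈ Icc p q, HasDerivWithinAt D (D' x) (Icc p q) x) (h0 : ‖D x₀‖ ≤ δ)
    (hb : ∀ x ∈ Icc p q, ‖D' x‖ ≤ L * ‖D x‖ + ε) :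
    ∀ x ∈ Icc p q, ‖D x‖ ≤ (δ + ε / L) * Real.exp (L * (q - p)) := by
  intro x hx
  have h2 : 0 ≤ δ + ε / L := by positivity
  rcases le_total x₀ x with h | h
  · have hs : Icc x₀ q ⊆ Icc p q := Icc_subset_Icc_left hx₀.1
    refine (lim_gron1 hL hε hδ (fun y hy => (hD y (hs hy)).mono hs) h0
      (fun y hy => hb y (hs hy)) x ⟨h, hx.2⟩).trans ?_
    gcongr; exact hx₀.1
  · have hs : Icc p x₀ ⊆ Icc p q := Icc_subset_Icc_right hx₀.2
    have hm : ∀ y ∈ Icc (-x₀) (-p), -y ∈ Icc p x₀ := fun y hy =>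
      ⟨by linarith [hy.2], by linarith [hy.1]⟩
    have := lim_gron1 (D := fun z => D (-z)) (D' := fun z => -D' (-z)) (p := -x₀) (q := -p)
      hL hε hδ (fun y hy => lim_mirror ((hD _ (hs (hm y hy))).mono hs)) (by simpa using h0)
      (fun y hy => by simpa using hb _ (hs (hm y hy))) (-x) ⟨by linarith, by linarith [hx.1]⟩
    simp only [neg_neg] at this
    refine this.trans ?_
    have h3 : -p - -x₀ ≤ q - p := by linarith [hx₀.2]
    gcongr

end general

lemma lim_hasDerivAt_tanh (x : ℝ) : HasDerivAt Real.tanh (1 - Real.tanh x ^ 2) x := by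
  have h : Real.tanh = fun y => Real.sinh y / Real.cosh y := funext Real.tanh_eq_sinh_div_cosh
  have hc := (Real.cosh_pos x).ne'
  have h1 := (Real.hasDerivAt_sinh x).div (Real.hasDerivAt_cosh x) hc
  have h2 : HasDerivAt (fun y => Real.sinh y / Real.cosh y) (1 - Real.tanh x ^ 2) x :=
    h1.congr_deriv (by rw [Real.tanh_eq_sinh_div_cosh]; field_simp)
  rwa [← h] at h2

lemma lim_one_sub_tanh_sq (x : ℝ) : 1 - Real.tanh x ^ 2 = 1 / Real.cosh x ^ 2 := by
  have hc := (Real.cosh_pos x).ne'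
  rw [Real.tanh_eq_sinh_div_cosh]
  field_simp
  linarith [Real.cosh_sq x]

/-- scalar solutions of the limiting Riccati equation -/
lemma lim_scalar {r κ l x₀ : ℝ} (hr : 0 < r) (hκ : 0 < κ) (h1 : l ≤ κ) (h2 : -κ ≤ l) :
    ∃ f : ℝ → ℝ, f x₀ = l ∧ (∀ x, HasDerivAt f (-r * (κ * κ - f x * f x)) x) ∧ (∀ x, |f x| ≤ κ) ∧
      ((∃ c, ∀ x, f x = -κ * Real.tanh (r * κ * (x - c))) ∨ (∀ x, f x = κ) ∨ (∀ x, f x = -κ)) := by
  rcases h1.eq_or_lt with rfl | h1
  · exact ⟨fun _ => l, rfl, fun x => by simpa using hasDerivAt_const x l,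
      fun x => (abs_of_pos hκ).le, Or.inr (Or.inl fun _ => rfl)⟩
  rcases h2.eq_or_lt with rfl | h2
  · exact ⟨fun _ => -κ, rfl, fun x => by simpa using hasDerivAt_const x (-κ),
      fun x => by rw [abs_neg]; exact (abs_of_pos hκ).le, Or.inr (Or.inr fun _ => rfl)⟩
  have hm : -l / κ ∈ Ioo (-1 : ℝ) 1 := by
    constructor
    · rw [lt_div_iff₀ hκ]; linarith
    · rw [div_lt_iff₀ hκ]; linarith
  refine ⟨fun x => -κ * Real.tanh (r * κ * (x - (x₀ - Real.artanh (-l / κ) / (r * κ)))), ?_, ?_, ?_,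
    Or.inl ⟨_, fun _ => rfl⟩⟩
  · have : r * κ * (x₀ - (x₀ - Real.artanh (-l / κ) / (r * κ))) = Real.artanh (-l / κ) := by
      field_simp; ring
    simp only [this, Real.tanh_artanh hm]
    field_simp
  · intro x
    have h3 : HasDerivAt (fun x => r * κ * (x - (x₀ - Real.artanh (-l / κ) / (r * κ)))) (r * κ) x := by
      simpa using ((hasDerivAt_id x).sub_const (x₀ - Real.artanh (-l / κ) / (r * κ))).const_mul (r * κ)
    have h4 := ((lim_hasDerivAt_tanh _).comp x h3).const_mul (-κ)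
    exact h4.congr_deriv (by ring)
  · intro x
    rw [abs_mul, abs_neg, abs_of_pos hκ]
    exact mul_le_of_le_one_right hκ.le (Real.abs_tanh_lt_one _).le

variable {n : Type} [Fintype n] [DecidableEq n]

lemma lim_herm_smul_one (t : ℝ) : (t • (1 : Matrix n n ℂ)).IsHermitian := by
  rw [← rdiag_const]; exact rdiag_herm _

lemma lim_psd_smul_one {t : ℝ} (ht : 0 ≤ t) : (t • (1 : Matrix n n ℂ)).PosSemidef :=
  psd_smul PosSemidef.one ht

lemma lim_herm_of {K : Matrix n n ℂ} {t : ℝ} (h : (K - t • (1 : Matrix n n ℂ)).PosSemidef) :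
    K.IsHermitian := by
  have := h.1.add (lim_herm_smul_one (n := n) t)
  simpa using this

lemma lim_psd_of {K : Matrix n n ℂ} {t s : ℝ} (h : (K - t • (1 : Matrix n n ℂ)).PosSemidef)
    (hs : s ≤ t) : (K - s • (1 : Matrix n n ℂ)).PosSemidef := by
  have := h.add (lim_psd_smul_one (n := n) (sub_nonneg.2 hs))
  convert this using 1
  rw [sub_smul]; abel

lemma lim_herm_F {K F : Matrix n n ℂ} (h1 : (K - F).PosSemidef) (h2 : (K + F).PosSemidef) :
    F.IsHermitian := by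
  have h3 : ((K + F) - (K - F)).IsHermitian := h2.1.sub h1.1
  have h4 : (K + F) - (K - F) = (2 : ℂ) • F := by rw [two_smul]; abel
  rw [h4] at h3
  have h5 : (2 : ℂ) • Fᴴ = (2 : ℂ) • F := by
    have := h3.eq
    rw [conjTranspose_smul] at this
    simpa using this
  exact smul_right_injective _ (two_ne_zero) h5

lemma lim_norm_F {K F : Matrix n n ℂ} (hK : K.IsHermitian) (h1 : (K - F).PosSemidef)
    (h2 : (K + F).PosSemidef) {t : ℝ} (ht : ‖K‖ ≤ t) : ‖F‖ ≤ t * √(Fintype.card n) := by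
  have h0 : 0 ≤ t := (norm_nonneg _).trans ht
  have h3 := ((opLe_norm K).mono ht).psd_sub hK
  refine OpLe.norm_le (opLe_of_psd (lim_herm_F h1 h2) h0 ?_ ?_)
  · convert h3.add h1 using 1; abel
  · convert h3.add h2 using 1; abel

lemma lim_sq_psd {K : Matrix n n ℂ} {t : ℝ} (ht : 0 ≤ t)
    (h : (K - t • (1 : Matrix n n ℂ)).PosSemidef) :
    (K * K - (t ^ 2) • (1 : Matrix n n ℂ)).PosSemidef := by
  have h1 : ((K - t • (1 : Matrix n n ℂ))ᴴ * (K - t • (1 : Matrix n n ℂ))).PosSemidef :=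
    posSemidef_conjTranspose_mul_self _
  rw [h.1.eq] at h1
  have h2 := h1.add (psd_smul h (show 0 ≤ 2 * t by positivity))
  convert h2 using 1
  simp only [Matrix.sub_mul, Matrix.mul_sub, Matrix.smul_mul, Matrix.mul_smul, Matrix.one_mul,
    Matrix.mul_one, smul_sub, smul_smul]
  module

lemma lim_conj_psd {U : Matrix n n ℂ} (h1 : Uᴴ * U = 1) {v : n → ℝ}
    (h : (U * rdiag v * Uᴴ).PosSemidef) (j : n) : 0 ≤ v j := by
  have h2 := h.conjTranspose_mul_mul_same U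
  have e : Uᴴ * (U * rdiag v * Uᴴ) * U = rdiag v := by
    calc Uᴴ * (U * rdiag v * Uᴴ) * U = (Uᴴ * U) * rdiag v * (Uᴴ * U) := by
          simp only [Matrix.mul_assoc]
      _ = rdiag v := by rw [h1]; simp
  rw [e, rdiag_psd_iff] at h2
  exact h2 j

lemma lim_conj_mul {U : Matrix n n ℂ} (h1 : Uᴴ * U = 1) (v w : n → ℝ) :
    (U * rdiag v * Uᴴ) * (U * rdiag w * Uᴴ) = U * rdiag (fun j => v j * w j) * Uᴴ := by
  calc (U * rdiag v * Uᴴ) * (U * rdiag w * Uᴴ) = U * (rdiag v * (Uᴴ * U) * rdiag w) * Uᴴ := by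
        simp only [Matrix.mul_assoc]
    _ = _ := by rw [h1, Matrix.mul_one, rdiag_mul]

lemma lim_conj_sub (U : Matrix n n ℂ) (v w : n → ℝ) :
    (U * rdiag v * Uᴴ) - (U * rdiag w * Uᴴ) = U * rdiag (fun j => v j - w j) * Uᴴ := by
  rw [← Matrix.sub_mul, ← Matrix.mul_sub, rdiag_sub]

lemma lim_conj_add (U : Matrix n n ℂ) (v w : n → ℝ) :
    (U * rdiag v * Uᴴ) + (U * rdiag w * Uᴴ) = U * rdiag (fun j => v j + w j) * Uᴴ := by
  rw [← Matrix.add_mul, ← Matrix.mul_add, rdiag_add]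

lemma lim_conj_neg (U : Matrix n n ℂ) (v : n → ℝ) :
    -(U * rdiag v * Uᴴ) = U * rdiag (fun j => -v j) * Uᴴ := by
  rw [← rdiag_neg, Matrix.mul_neg, Matrix.neg_mul]

lemma lim_conj_smul (U : Matrix n n ℂ) (t : ℝ) (v : n → ℝ) :
    t • (U * rdiag v * Uᴴ) = U * rdiag (fun j => t * v j) * Uᴴ := by
  rw [← rdiag_smul, Matrix.mul_smul, Matrix.smul_mul]

lemma lim_conj_const {U : Matrix n n ℂ} (h2 : U * Uᴴ = 1) (t : ℝ) :
    t • (1 : Matrix n n ℂ) = U * rdiag (fun _ => t) * Uᴴ := by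
  rw [rdiag_const, Matrix.mul_smul, Matrix.smul_mul, Matrix.mul_one, h2]

lemma lim_Umat_conj {U : Matrix n n ℂ} (h1 : Uᴴ * U = 1) (v w : n → ℝ) :
    Umat (U * rdiag v * Uᴴ) (U * rdiag w * Uᴴ) =
      U * rdiag (fun j => v j * v j - w j * w j) * Uᴴ := by
  rw [Umat, lim_conj_mul h1, lim_conj_mul h1, lim_conj_sub]

/-- forward version of the tail lemma -/
theorem lim_tail_pos {K : Matrix n n ℂ} {κ₀ a R : ℝ} (hκ : 0 < κ₀)
    (hK : (K - κ₀ • (1 : Matrix n n ℂ)).PosSemidef) (haR : a ≤ R) {G A : ℝ → Matrix n n ℂ}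
    (hode : ∀ x ∈ Icc a R, HasDerivWithinAt G (Umat K (G x) - A x) (Icc a R) x)
    (hG : ∀ x ∈ Icc a R, (G x).IsHermitian) (hA : ContinuousOn A (Icc a R))
    (hGa : (G a - (κ₀ / 2) • (1 : Matrix n n ℂ)).PosSemidef)
    (hsmall : (∫ x in a..R, max (‖A x‖ - κ₀ ^ 2 / 2) 0) ≤ κ₀ / 8) :
    ∀ x ∈ Icc a R, (G x - (κ₀ / 4) • (1 : Matrix n n ℂ)).PosSemidef := by
  obtain ⟨h, hc, hh⟩ := lim_extend (h := fun x => max (‖A x‖ - κ₀ ^ 2 / 2) 0) haR
    ((hA.norm.sub continuousOn_const).sup continuousOn_const)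
  set p : ℝ → ℝ := fun s => max (κ₀ / 2 - s) 0 with hp
  have hp0 : ∀ s, 0 ≤ p s := fun s => le_max_right _ _
  have hg : ∀ s, HasDerivAt (fun s => p s ^ 2) (-2 * p s) s := by
    intro s
    have h1 : HasDerivAt (fun y : ℝ => max y 0 ^ 2) (2 * max (κ₀ / 2 - s) 0) (κ₀ / 2 - s) := by
      rcases lt_trichotomy (κ₀ / 2 - s) 0 with h | h | h
      · rw [max_eq_right h.le, mul_zero]
        refine (hasDerivAt_const _ (0 : ℝ)).congr_of_eventuallyEq ?_
        filter_upwards [Iio_mem_nhds h] with y hy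
        rw [max_eq_right (le_of_lt hy)]; simp
      · rw [h, max_self, mul_zero, hasDerivAt_iff_isLittleO_nhds_zero]
        simp only [zero_add, max_self, smul_zero, sub_zero, ne_eq, OfNat.ofNat_ne_zero,
          not_false_eq_true, zero_pow]
        refine Asymptotics.IsBigO.trans_isLittleO (g := fun y : ℝ => y ^ 2) ?_
          (Asymptotics.isLittleO_pow_id (by norm_num))
        refine Asymptotics.IsBigO.of_bound' (Eventually.of_forall fun y => ?_)
        rcases le_total y 0 with hy | hy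
        · rw [max_eq_right hy]; simp; positivity
        · rw [max_eq_left hy]
      · rw [max_eq_left h.le]
        have h2 : HasDerivAt (fun y : ℝ => y ^ 2) (2 * (κ₀ / 2 - s)) (κ₀ / 2 - s) := by
          simpa using hasDerivAt_pow 2 (κ₀ / 2 - s)
        refine h2.congr_of_eventuallyEq ?_
        filter_upwards [Ioi_mem_nhds h] with y hy
        rw [max_eq_left (le_of_lt hy)]
    have h2 : HasDerivAt (fun s : ℝ => κ₀ / 2 - s) (-1) s := by
      simpa using (hasDerivAt_id s).const_sub (κ₀ / 2)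
    have h3 := HasDerivAt.comp (h₂ := fun y : ℝ => max y 0 ^ 2) s h1 h2
    exact h3.congr_deriv (by simp only [hp]; ring)
  set I : ℝ → ℝ := fun x => ∫ y in a..x, h y with hI
  have hId : ∀ x, HasDerivAt I (h x) x := fun x => (hc.integral_hasStrictDerivAt a x).hasDerivAt
  have hh0 : ∀ x ∈ Icc a R, 0 ≤ h x := fun x hx => by rw [hh x hx]; exact le_max_right _ _
  have hI0 : ∀ x ∈ Icc a R, 0 ≤ I x := fun x hx =>
    intervalIntegral.integral_nonneg hx.1 fun y hy => hh0 y ⟨hy.1, hy.2.trans hx.2⟩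
  have hI1 : ∀ x ∈ Icc a R, I x ≤ κ₀ / 8 := by
    intro x hx
    have e1 : I R = ∫ x in a..R, max (‖A x‖ - κ₀ ^ 2 / 2) 0 :=
      intervalIntegral.integral_congr fun y hy => hh y (by rwa [uIcc_of_le haR] at hy)
    have e2 : I x + ∫ y in x..R, h y = I R :=
      intervalIntegral.integral_add_adjacent_intervals (hc.intervalIntegrable _ _)
        (hc.intervalIntegrable _ _)
    have e3 : 0 ≤ ∫ y in x..R, h y :=
      intervalIntegral.integral_nonneg hx.2 fun y hy => hh0 y ⟨hx.1.trans hy.1, hy.2⟩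
    linarith
  have hu : ∀ x ∈ Icc a R, HasDerivWithinAt (fun y => trf (fun s => p s ^ 2) (G y))
      (rtr (fc (fun s => -2 * p s) (G x) * (Umat K (G x) - A x))) (Icc a R) x := fun x hx =>
    hasDerivWithinAt_trf hx (hode x hx) hG fun j => hg _
  have hB : ∀ x, HasDerivAt (fun x => (κ₀ / 8 + I x) ^ 2) (2 * (κ₀ / 8 + I x) * h x) x := by
    intro x
    exact (((hId x).const_add (κ₀ / 8)).pow 2).congr_deriv (by simp)
  have hev : ∀ x ∈ Icc a R, trf (fun s => p s ^ 2) (G x) ≤ (κ₀ / 8 + I x) ^ 2 →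
      ∀ j, κ₀ / 4 ≤ ev (G x) j := by
    intro x hx hle j
    have h1 : p (ev (G x) j) ^ 2 ≤ trf (fun s => p s ^ 2) (G x) :=
      Finset.single_le_sum (f := fun j => p (ev (G x) j) ^ 2) (fun i _ => sq_nonneg _)
        (Finset.mem_univ j)
    have h2 : p (ev (G x) j) ≤ κ₀ / 8 + I x :=
      (pow_le_pow_iff_left₀ (hp0 _) (by linarith [hI0 x hx]) two_ne_zero).1 (h1.trans hle)
    have h3 : κ₀ / 2 - ev (G x) j ≤ p (ev (G x) j) := le_max_left _ _
    linarith [hI1 x hx]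
  have key := image_le_of_deriv_right_lt_deriv_boundary
    (f := fun y => trf (fun s => p s ^ 2) (G y))
    (f' := fun x => rtr (fc (fun s => -2 * p s) (G x) * (Umat K (G x) - A x))) (a := a) (b := R)
    (fun x hx => (hu x hx).continuousWithinAt)
    (fun x hx => lim_ici hx (hu x (Ico_subset_Icc_self hx))) (B := fun x => (κ₀ / 8 + I x) ^ 2)
    (B' := fun x => 2 * (κ₀ / 8 + I x) * h x) ?_ hB ?_
  · intro x hx
    exact (le_ev_iff (hG x hx) _).1 (hev x hx (key hx))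
  · have h1 := (le_ev_iff (hG a ⟨le_rfl, haR⟩) _).2 hGa
    have h2 : trf (fun s => p s ^ 2) (G a) = 0 := Finset.sum_eq_zero fun j _ => by
      simp only [hp]
      rw [max_eq_right (by linarith [h1 j])]; simp
    simp only [h2]
    positivity
  · intro x hx' heq
    have hx := Ico_subset_Icc_self hx'
    beta_reduce at heq ⊢
    have hevx := hev x hx heq.le
    set P := fc p (G x) with hP
    have hPp : P.PosSemidef := fc_psd fun i => hp0 _
    have hnorm : ‖P‖ = κ₀ / 8 + I x := by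
      have : ‖P‖ ^ 2 = (κ₀ / 8 + I x) ^ 2 := by rw [← heq, hP, norm_fc_sq]; rfl
      exact (sq_eq_sq₀ (norm_nonneg _) (by linarith [hI0 x hx])).1 this
    have e1 : fc (fun s => -2 * p s) (G x) = (-2 : ℝ) • P := (fc_smul _ _ _).symm
    have t1 : κ₀ ^ 2 * rtr P ≤ rtr (P * (K * K)) := by
      have := rtr_mul_mono hPp (lim_sq_psd hκ.le hK)
      rwa [Matrix.mul_smul, Matrix.mul_one, rtr_smul] at this
    have t2 : rtr (P * (G x * G x)) ≤ κ₀ ^ 2 / 4 * rtr P := by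
      rw [← Matrix.mul_assoc, hP, fc_mul_self (hG x hx), fc_mul_self (hG x hx), rtr_fc, rtr_fc,
        trf, trf, Finset.mul_sum]
      refine Finset.sum_le_sum fun j _ => ?_
      have h1 := hevx j
      simp only [hp]
      rcases le_total (κ₀ / 2 - ev (G x) j) 0 with h2 | h2
      · rw [max_eq_right h2]; simp
      · rw [max_eq_left h2]
        have h3 : ev (G x) j * ev (G x) j ≤ κ₀ ^ 2 / 4 := by nlinarith
        nlinarith
    have t3 : rtr (P * A x) ≤ ‖P‖ * ‖A x‖ := (le_abs_self _).trans (abs_rtr_mul_le _ _)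
    have t4 : ‖P‖ ≤ rtr P := norm_le_rtr hPp
    have t5 : ‖A x‖ - κ₀ ^ 2 / 2 ≤ h x := by rw [hh x hx]; exact le_max_left _ _
    rw [e1, Matrix.smul_mul, rtr_smul, Matrix.mul_sub, Umat, Matrix.mul_sub, rtr_sub, rtr_sub,
      ← hnorm]
    have hu0 : 0 < ‖P‖ := by rw [hnorm]; linarith [hI0 x hx]
    have hk2 : 0 < κ₀ ^ 2 := by positivity
    nlinarith [mul_le_mul_of_nonneg_left t4 hk2.le, mul_le_mul_of_nonneg_left t5 hu0.le,
      mul_pos hu0 hk2]

end Crest.Agent.R332
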