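import Crest.Agent.R332.Mat
import Crest.Agent.R332.LimitAux

/-!
Row 332: limits of nearly saturating Riccati flows are diagonal soliton flows.
-/

set_option autoImplicit false
set_option linter.unusedSectionVars false

open Matrix MeasureTheory Set Filter Topology Crest.Agent.R342
open scoped ComplexOrder Matrix.Norms.Frobenius

namespace Crest.Agent.R332

variable {n : Type} [Fintype n] [DecidableEq n]

/-- far out, the Riccati solution stays negative -/
theorem tail_neg {K : Matrix n n ℂ} {κ₀ R b : ℝ} (hκ : 0 < κ₀)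
    (hK : (K - κ₀ • (1 : Matrix n n ℂ)).PosSemidef) (hRb : R ≤ b) {F A : ℝ → Matrix n n ℂ}
    (hode : ∀ x ∈ Icc R b, HasDerivWithinAt F (Umat K (F x) - A x) (Icc R b) x)
    (hF : ∀ x ∈ Icc R b, (F x).IsHermitian) (hA : ContinuousOn A (Icc R b))
    (hFb : (-F b - (κ₀ / 2) • (1 : Matrix n n ℂ)).PosSemidef)
    (hsmall : (∫ x in R..b, max (‖A x‖ - κ₀ ^ 2 / 2) 0) ≤ κ₀ / 8) :
    ∀ x ∈ Icc R b, (-F x - (κ₀ / 4) • (1 : Matrix n n ℂ)).PosSemidef := by
  have hm : ∀ y ∈ Icc (-b) (-R), -y ∈ Icc R b := fun y hy =>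
    ⟨by linarith [hy.2], by linarith [hy.1]⟩
  have key := lim_tail_pos (K := K) (a := -b) (R := -R) (G := fun y => -F (-y))
    (A := fun y => A (-y)) hκ hK (by linarith)
    (fun y hy => by
      have h1 := (lim_mirror (hode _ (hm y hy))).neg
      rw [neg_neg] at h1
      have e : Umat K (-F (-y)) = Umat K (F (-y)) := by simp [Umat]
      rw [e]
      exact h1)
    (fun y hy => (hF _ (hm y hy)).neg)
    (hA.comp continuous_neg.continuousOn hm)
    (by simpa using hFb)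
    (by
      rw [intervalIntegral.integral_comp_neg (fun x => max (‖A x‖ - κ₀ ^ 2 / 2) 0)]
      simpa using hsmall)
  intro x hx
  simpa using key (-x) ⟨by linarith [hx.2], by linarith [hx.1]⟩

lemma lim_compare {r M p q x₀ : ℝ} (hr : 0 < r) (hM : 0 < M) {K Kl : Matrix n n ℂ}
    {F A G : ℝ → Matrix n n ℂ} (hx₀ : x₀ ∈ Icc p q)
    (hode : ∀ x ∈ Icc p q, HasDerivWithinAt F (Umat K (F x) - A x) (Icc p q) x)
    (hA : ContinuousOn A (Icc p q)) (hG : ∀ x, HasDerivAt G ((-r) • Umat Kl (G x)) x)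
    (hFM : ∀ x ∈ Icc p q, ‖F x‖ ≤ M) (hGM : ∀ x, ‖G x‖ ≤ M) :
    ∀ x ∈ Icc p q, ‖G x - F x‖ ≤
      (‖F x₀ - G x₀‖ + (r * ‖K * K - Kl * Kl‖ +
        2 * r * M * ∫ y in p..q, err1 r K (F y) (A y)) / (2 * r * M)) *
        Real.exp (2 * r * M * (q - p)) + ∫ y in p..q, err1 r K (F y) (A y) := by
  have hpq : p ≤ q := hx₀.1.trans hx₀.2
  have hFc : ContinuousOn F (Icc p q) := fun x hx => (hode x hx).continuousWithinAt
  have hEc : ContinuousOn (fun x => (r + 1) • Umat K (F x) - A x) (Icc p q) := by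
    have h1 : ContinuousOn (fun x => Umat K (F x)) (Icc p q) :=
      continuousOn_const.sub (hFc.mul hFc)
    exact (h1.const_smul (r + 1)).sub hA
  obtain ⟨e, hc, he⟩ := lim_extend hpq hEc
  set ε := ∫ y in p..q, err1 r K (F y) (A y) with hε
  have hε' : ε = ∫ y in p..q, ‖e y‖ := by
    refine intervalIntegral.integral_congr fun y hy => ?_
    rw [uIcc_of_le hpq] at hy
    simp only [he y hy, err1]
    exact norm_sub_rev _ _
  have hε0 : 0 ≤ ε := by
    rw [hε']; exact intervalIntegral.integral_nonneg hpq fun y _ => norm_nonneg _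
  set J : ℝ → Matrix n n ℂ := fun x => ∫ y in x₀..x, e y with hJ
  have hJd : ∀ x, HasDerivAt J (e x) x := fun x => (hc.integral_hasStrictDerivAt x₀ x).hasDerivAt
  have hJb : ∀ x ∈ Icc p q, ‖J x‖ ≤ ε := by
    intro x hx
    refine intervalIntegral.norm_integral_le_abs_integral_norm.trans ?_
    have h1 : |∫ y in x₀..x, ‖e y‖| ≤ |∫ y in p..q, ‖e y‖| := by
      refine intervalIntegral.abs_integral_mono_interval ?_
        (Eventually.of_forall fun y => norm_nonneg _) (hc.norm.intervalIntegrable _ _)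
      rw [uIoc_of_le hpq]
      intro y hy
      exact ⟨lt_of_le_of_lt (le_min hx₀.1 hx.1) hy.1, hy.2.trans (max_le hx₀.2 hx.2)⟩
    rw [← hε', abs_of_nonneg hε0] at h1
    exact h1
  have hL : 0 < 2 * r * M := by positivity
  have key := lim_gron2 (D := fun x => F x - G x - J x)
    (D' := fun x => (Umat K (F x) - A x) - (-r) • Umat Kl (G x) - e x) (p := p) (q := q) (x₀ := x₀)
    (δ := ‖F x₀ - G x₀‖) (ε := r * ‖K * K - Kl * Kl‖ + 2 * r * M * ε) hL (by positivity)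
    (norm_nonneg _) hx₀
    (fun x hx => ((hode x hx).sub (hG x).hasDerivWithinAt).sub (hJd x).hasDerivWithinAt)
    (by simp [hJ]) ?_
  · intro x hx
    have h1 := key x hx
    have h2 := hJb x hx
    have h3 : G x - F x = -(F x - G x - J x) - J x := by abel
    calc ‖G x - F x‖ ≤ ‖-(F x - G x - J x)‖ + ‖J x‖ := by rw [h3]; exact norm_sub_le _ _
      _ ≤ _ := by rw [norm_neg]; exact add_le_add h1 h2
  · intro x hx
    have e1 : (Umat K (F x) - A x) - (-r) • Umat Kl (G x) - e x =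
        r • (F x * (F x - G x) + (F x - G x) * G x) - r • (K * K - Kl * Kl) := by
      rw [he x hx]
      simp only [Umat, Matrix.mul_sub, Matrix.sub_mul]
      module
    have h1 : ‖F x - G x‖ ≤ ‖F x - G x - J x‖ + ε := by
      calc ‖F x - G x‖ = ‖(F x - G x - J x) + J x‖ := by congr 1; abel
        _ ≤ ‖F x - G x - J x‖ + ‖J x‖ := norm_add_le _ _
        _ ≤ _ := by gcongr; exact hJb x hx
    have h2 : ‖F x * (F x - G x) + (F x - G x) * G x‖ ≤ 2 * M * ‖F x - G x‖ := by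
      calc _ ≤ ‖F x * (F x - G x)‖ + ‖(F x - G x) * G x‖ := norm_add_le _ _
        _ ≤ ‖F x‖ * ‖F x - G x‖ + ‖F x - G x‖ * ‖G x‖ :=
            add_le_add (norm_mul_le' _ _) (norm_mul_le' _ _)
        _ ≤ M * ‖F x - G x‖ + ‖F x - G x‖ * M := by
            gcongr
            · exact hFM x hx
            · exact hGM x
        _ = _ := by ring
    beta_reduce
    rw [e1]
    calc _ ≤ ‖r • (F x * (F x - G x) + (F x - G x) * G x)‖ + ‖r • (K * K - Kl * Kl)‖ :=
          norm_sub_le _ _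
      _ = r * ‖F x * (F x - G x) + (F x - G x) * G x‖ + r * ‖K * K - Kl * Kl‖ := by
          rw [norm_smul, norm_smul, Real.norm_eq_abs, abs_of_pos hr]
      _ ≤ r * (2 * M * (‖F x - G x - J x‖ + ε)) + r * ‖K * K - Kl * Kl‖ := by
          gcongr
          exact h2.trans (by gcongr)
      _ = _ := by ring

/-- the diagonal soliton flow -/
noncomputable def flow (r : ℝ) (U : Matrix n n ℂ) (κ c : n → ℝ) (x : ℝ) : Matrix n n ℂ :=
  U * rdiag (fun j => -κ j * Real.tanh (r * κ j * (x - c j))) * Uᴴ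

theorem soliton_limit {r κ₀ : ℝ} (hr : 0 < r) (hκ : 0 < κ₀) (𝒰 : Ultrafilter ℕ)
    (K : ℕ → Matrix n n ℂ) (F A : ℕ → ℝ → Matrix n n ℂ) (a b η : ℕ → ℝ) (Kl : Matrix n n ℂ)
    (hK : Tendsto K 𝒰 (𝓝 Kl))
    (hKl : ∀ᶠ i in 𝒰, (K i - κ₀ • (1 : Matrix n n ℂ)).PosSemidef)
    (ha : Tendsto a 𝒰 atBot) (hb : Tendsto b 𝒰 atTop) (hη : Tendsto η 𝒰 (𝓝 0))
    (hode : ∀ᶠ i in 𝒰,
      (∀ x ∈ Icc (a i) (b i),
        HasDerivWithinAt (F i) (Umat (K i) (F i x) - A i x) (Icc (a i) (b i)) x ∧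
        (K i - F i x).PosSemidef ∧ (K i + F i x).PosSemidef) ∧
      ContinuousOn (A i) (Icc (a i) (b i)) ∧ F i (a i) = K i ∧
      F i (b i) = -K i + (2 * η i) • (1 : Matrix n n ℂ))
    (herr : ∀ R : ℝ, 0 < R →
      Tendsto (fun i => ∫ x in (-R)..R, err1 r (K i) (F i x) (A i x)) 𝒰 (𝓝 0))
    (hcomm : ∃ x₀ : ℝ, Tendsto (fun i => err2 (K i) (F i x₀)) 𝒰 (𝓝 0))
    (htail : ∀ c ε : ℝ, 0 < c → 0 < ε → ∃ R : ℝ, 0 < R ∧ ∀ᶠ i in 𝒰,
      (∫ x in R..b i, max (‖A i x‖ - c) 0) ≤ ε ∧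
        (∫ x in a i..(-R), max (‖A i x‖ - c) 0) ≤ ε) :
    ∃ (U : Matrix n n ℂ) (κ c : n → ℝ), Uᴴ * U = 1 ∧ U * Uᴴ = 1 ∧ (∀ j, 0 < κ j) ∧
      Kl = U * rdiag κ * Uᴴ ∧
      (∀ R : ℝ, TendstoUniformlyOn F (flow r U κ c) 𝒰 (Icc (-R) R)) ∧
      ∃ R : ℝ, 0 < R ∧ ∀ᶠ i in 𝒰,
        (∀ x ∈ Icc R (b i), (-F i x - (κ₀ / 4) • (1 : Matrix n n ℂ)).PosSemidef) ∧
        (∀ x ∈ Icc (a i) (-R), (F i x - (κ₀ / 4) • (1 : Matrix n n ℂ)).PosSemidef) := by
  obtain ⟨x₀, hx₀⟩ := hcomm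
  have hin : ∀ R : ℝ, ∀ᶠ i in (𝒰 : Filter ℕ), a i ≤ -R ∧ R ≤ b i := fun R =>
    (ha.eventually_le_atBot (-R)).and (hb.eventually_ge_atTop R)
  -- uniform bound
  set M : ℝ := (‖Kl‖ + 1) * √(Fintype.card n) + 1 with hMdef
  have hM : 0 < M := by positivity
  have hKb : ∀ᶠ i in (𝒰 : Filter ℕ), ‖K i‖ ≤ ‖Kl‖ + 1 :=
    hK.norm.eventually (eventually_le_nhds (lt_add_one _))
  have hFM : ∀ᶠ i in (𝒰 : Filter ℕ), ∀ x ∈ Icc (a i) (b i), ‖F i x‖ ≤ M := by
    filter_upwards [hKb, hKl, hode] with i h1 h2 h3 x hx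
    have := lim_norm_F (lim_herm_of h2) (h3.1 x hx).2.1 (h3.1 x hx).2.2 h1
    linarith
  have hx₀in : ∀ᶠ i in (𝒰 : Filter ℕ), x₀ ∈ Icc (a i) (b i) := by
    filter_upwards [hin |x₀|] with i hi
    exact ⟨hi.1.trans (neg_abs_le _), (le_abs_self _).trans hi.2⟩
  obtain ⟨F0, hF0⟩ := exists_ultralim 𝒰 (F := fun i => F i x₀) (M := M) (by
    filter_upwards [hFM, hx₀in] with i h1 h2 using h1 _ h2)
  have hKl0 : (Kl - κ₀ • (1 : Matrix n n ℂ)).PosSemidef :=
    psd_of_tendsto (hK.sub_const _) hKl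
  have hup : (Kl - F0).PosSemidef := psd_of_tendsto (hK.sub hF0) (by
    filter_upwards [hode, hx₀in] with i h1 h2 using (h1.1 _ h2).2.1)
  have hlo : (Kl + F0).PosSemidef := psd_of_tendsto (hK.add hF0) (by
    filter_upwards [hode, hx₀in] with i h1 h2 using (h1.1 _ h2).2.2)
  have hKlh : Kl.IsHermitian := lim_herm_of hKl0
  have hF0h : F0.IsHermitian := lim_herm_F hup hlo
  have hKlp : Kl.PosSemidef := by simpa using lim_psd_of hKl0 hκ.le
  have hc2 : Kl * Kl * F0 = F0 * (Kl * Kl) := by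
    have h1 : Tendsto (fun i => err2 (K i) (F i x₀)) 𝒰 (𝓝 ‖Kl * Kl * F0 - F0 * (Kl * Kl)‖) :=
      (((hK.mul hK).mul hF0).sub (hF0.mul (hK.mul hK))).norm
    have h2 := tendsto_nhds_unique h1 hx₀
    exact sub_eq_zero.1 (norm_eq_zero.1 h2)
  have hc1 : Kl * F0 = F0 * Kl := by
    have hKK : (Kl * Kl).IsHermitian := by
      have := isHermitian_conjTranspose_mul_self Kl
      rwa [hKlh.eq] at this
    have h1 := fc_intertwine Real.sqrt hKK hKK hc2
    have h2 : fc Real.sqrt (Kl * Kl) = Kl := by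
      have h3 : Kl * Kl = fc (fun t => t * t) Kl := by
        rw [← fc_mul, fc_id hKlh]
      rw [h3, fc_comp, fc_congr_psd hKlp (g := fun t => t) fun t ht => Real.sqrt_mul_self ht,
        fc_id hKlh]
    rwa [h2] at h1
  obtain ⟨U, κ, l, hU1, hU2, hKe, hFe⟩ := exists_joint_diag hKlh hF0h hc1
  have hκ0 : ∀ j, κ₀ ≤ κ j := by
    intro j
    rw [hKe, lim_conj_const hU2, lim_conj_sub] at hKl0
    exact sub_nonneg.1 (lim_conj_psd hU1 hKl0 j)
  have hκp : ∀ j, 0 < κ j := fun j => hκ.trans_le (hκ0 j)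
  have hl1 : ∀ j, l j ≤ κ j := by
    intro j
    rw [hKe, hFe, lim_conj_sub] at hup
    exact sub_nonneg.1 (lim_conj_psd hU1 hup j)
  have hl2 : ∀ j, -κ j ≤ l j := by
    intro j
    rw [hKe, hFe, lim_conj_add] at hlo
    have := lim_conj_psd hU1 hlo j
    linarith
  choose f hf0 hfd hfb hfc using fun j => lim_scalar (x₀ := x₀) hr (hκp j) (hl1 j) (hl2 j)
  set G : ℝ → Matrix n n ℂ := fun x => U * rdiag (fun j => f j x) * Uᴴ with hG
  have hG0 : G x₀ = F0 := by simp only [hG, hf0, hFe]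
  have hGd : ∀ x, HasDerivAt G ((-r) • Umat Kl (G x)) x := by
    intro x
    have h1 := hda_mul (hda_mul (hasDerivAt_const x U)
      (hasDerivAt_rdiag (v := fun y j => f j y) fun j => hfd j x)) (hasDerivAt_const x Uᴴ)
    refine h1.congr_deriv ?_
    simp only [hG]
    rw [hKe, lim_Umat_conj hU1, lim_conj_smul]
    simp
  have hGM : ∀ x, ‖G x‖ ≤ M := by
    intro x
    have h1 : (Kl - G x).PosSemidef := by
      simp only [hG]
      rw [hKe, lim_conj_sub]
      exact ((rdiag_psd_iff _).2 fun j => sub_nonneg.2 (le_of_abs_le (hfb j x))).mul_mul_conjTranspose_same U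
    have h2 : (Kl + G x).PosSemidef := by
      simp only [hG]
      rw [hKe, lim_conj_add]
      refine ((rdiag_psd_iff _).2 fun j => ?_).mul_mul_conjTranspose_same U
      have := neg_le_of_abs_le (hfb j x)
      linarith
    have := lim_norm_F hKlh h1 h2 (le_add_of_nonneg_right zero_le_one)
    linarith
  have hunif : ∀ R : ℝ, TendstoUniformlyOn F G 𝒰 (Icc (-R) R) := by
    intro R
    set R' : ℝ := |R| + |x₀| + 1 with hR'
    have hR'0 : 0 < R' := by positivity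
    have hsub : Icc (-R) R ⊆ Icc (-R') R' := by
      have := le_abs_self R
      have := abs_nonneg x₀
      exact Icc_subset_Icc (by linarith) (by linarith)
    refine TendstoUniformlyOn.mono ?_ hsub
    have hx₀R : x₀ ∈ Icc (-R') R' := by
      have := le_abs_self x₀
      have := neg_abs_le x₀
      have := abs_nonneg R
      exact ⟨by linarith, by linarith⟩
    rw [tuo_iff]
    intro ε hε
    have t1 : Tendsto (fun i => ‖F i x₀ - G x₀‖) 𝒰 (𝓝 0) := by
      rw [hG0]; exact tendsto_iff_norm_sub_tendsto_zero.1 hF0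
    have t2 : Tendsto (fun i => ‖K i * K i - Kl * Kl‖) 𝒰 (𝓝 0) :=
      tendsto_iff_norm_sub_tendsto_zero.1 (hK.mul hK)
    have t3 := herr R' hR'0
    have t4 := ((t1.add (((t2.const_mul r).add (t3.const_mul (2 * r * M))).div_const
      (2 * r * M))).mul_const (Real.exp (2 * r * M * (R' - -R')))).add t3
    simp only [mul_zero, add_zero, zero_div, zero_mul] at t4
    filter_upwards [t4.eventually (eventually_lt_nhds hε), hin R', hode, hFM] with i h1 h2 h3 h4 x hx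
    have hs : Icc (-R') R' ⊆ Icc (a i) (b i) := Icc_subset_Icc h2.1 h2.2
    exact (lim_compare hr hM hx₀R (fun y hy => (h3.1 y (hs hy)).1.mono hs) (h3.2.1.mono hs) hGd
      (fun y hy => h4 y (hs hy)) hGM x hx).trans_lt h1
  obtain ⟨R, hR, hRt⟩ := htail (κ₀ ^ 2 / 2) (κ₀ / 8) (by positivity) (by positivity)
  have htails : ∀ᶠ i in (𝒰 : Filter ℕ),
      (∀ x ∈ Icc R (b i), (-F i x - (κ₀ / 4) • (1 : Matrix n n ℂ)).PosSemidef) ∧
      (∀ x ∈ Icc (a i) (-R), (F i x - (κ₀ / 4) • (1 : Matrix n n ℂ)).PosSemidef) := by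
    filter_upwards [hRt, hin R, hode, hKl,
      hη.eventually (eventually_le_nhds (show (0 : ℝ) < κ₀ / 4 by positivity))]
      with i h1 h2 h3 h4 h5
    have hh : ∀ x ∈ Icc (a i) (b i), (F i x).IsHermitian := fun x hx =>
      lim_herm_F (h3.1 x hx).2.1 (h3.1 x hx).2.2
    constructor
    · have hs : Icc R (b i) ⊆ Icc (a i) (b i) := Icc_subset_Icc_left (by linarith [h2.1])
      refine tail_neg hκ h4 h2.2 (fun y hy => (h3.1 y (hs hy)).1.mono hs) (fun y hy => hh y (hs hy))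
        (h3.2.1.mono hs) ?_ h1.1
      have := lim_psd_of h4 (show κ₀ / 2 + 2 * η i ≤ κ₀ by linarith)
      rw [h3.2.2.2]
      convert this using 1
      rw [add_smul]; abel
    · have hs : Icc (a i) (-R) ⊆ Icc (a i) (b i) := Icc_subset_Icc_right (by linarith [h2.2])
      refine lim_tail_pos hκ h4 h2.1 (fun y hy => (h3.1 y (hs hy)).1.mono hs)
        (fun y hy => hh y (hs hy)) (h3.2.1.mono hs) ?_ h1.2
      rw [h3.2.2.1]
      exact lim_psd_of h4 (by linarith)
  have hGR : (-G R - (κ₀ / 4) • (1 : Matrix n n ℂ)).PosSemidef := by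
    refine psd_of_tendsto (l := (𝒰 : Filter ℕ))
      ((((hunif R).tendsto_at ⟨by linarith, le_rfl⟩).neg).sub_const _) ?_
    filter_upwards [htails, hin R] with i h1 h2 using h1.1 R ⟨le_rfl, h2.2⟩
  have hGR' : (G (-R) - (κ₀ / 4) • (1 : Matrix n n ℂ)).PosSemidef := by
    refine psd_of_tendsto (l := (𝒰 : Filter ℕ))
      (((hunif R).tendsto_at ⟨le_rfl, by linarith⟩).sub_const _) ?_
    filter_upwards [htails, hin R] with i h1 h2 using h1.2 (-R) ⟨h2.1, le_rfl⟩
  have htanh : ∀ j, ∃ c, ∀ x, f j x = -κ j * Real.tanh (r * κ j * (x - c)) := by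
    intro j
    simp only [hG] at hGR hGR'
    rw [lim_conj_neg, lim_conj_const hU2, lim_conj_sub] at hGR
    rw [lim_conj_const hU2, lim_conj_sub] at hGR'
    have h1 := lim_conj_psd hU1 hGR j
    have h2 := lim_conj_psd hU1 hGR' j
    have h3 := hκp j
    rcases hfc j with h | h | h
    · exact h
    · rw [h] at h1; linarith
    · rw [h] at h2; linarith
  choose c hc using htanh
  have hGf : G = flow r U κ c := by
    funext x
    simp only [hG, flow, hc]
  exact ⟨U, κ, c, hU1, hU2, hκp, hKe, hGf ▸ hunif, R, hR, htails⟩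

/-- along the flow, `(r+1)(K² - F²)` is the diagonal soliton matrix -/
theorem Umat_flow {r : ℝ} {U : Matrix n n ℂ} (h1 : Uᴴ * U = 1) (κ c : n → ℝ) (x : ℝ) :
    (r + 1) • Umat (U * rdiag κ * Uᴴ) (flow r U κ c x) =
      U * rdiag (fun j => Crest.MathPhysics.LiebThirring.soliton r (κ j) (c j) x) * Uᴴ := by
  rw [flow, lim_Umat_conj h1, lim_conj_smul]
  congr 3
  funext j
  have := lim_one_sub_tanh_sq (r * κ j * (x - c j))
  unfold Crest.MathPhysics.LiebThirring.soliton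
  rw [div_eq_mul_one_div, ← this]
  ring

end Crest.Agent.R332
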