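import Crest.Agent.R332.Defs

/-!
Row 332: matrix toolkit (Frobenius norm, operator bounds, functional calculus, trace functions).
-/

set_option autoImplicit false
set_option linter.unusedSectionVars false

open Matrix MeasureTheory Set Filter Topology Crest.Agent.R342
open scoped ComplexOrder Matrix.Norms.Frobenius

namespace Crest.Agent.R332

section norms
variable {a b c : Type} [Fintype a] [Fintype b] [Fintype c]

lemma le_of_sq_le_sq' {x y : ℝ} (h : x ^ 2 ≤ y ^ 2) (hy : 0 ≤ y) : x ≤ y :=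
  (abs_le_of_sq_le_sq' h hy).2

lemma eq_of_sq_eq_sq' {x y : ℝ} (h : x ^ 2 = y ^ 2) (hx : 0 ≤ x) (hy : 0 ≤ y) : x = y :=
  le_antisymm (le_of_sq_le_sq' h.le hy) (le_of_sq_le_sq' h.ge hx)

lemma norm_sq_eq_sum (A : Matrix a b ℂ) : ‖A‖ ^ 2 = ∑ i, ∑ j, ‖A i j‖ ^ 2 := by
  rw [frobenius_norm_def, ← Real.sqrt_eq_rpow, Real.sq_sqrt (by positivity)]
  simp

lemma norm_sq_eq_nsq (A : Matrix a b ℂ) : ‖A‖ ^ 2 = nsq A := by rw [norm_sq_eq_sum, nsq_eq_sum]

lemma norm_sq_eq_rtr (A : Matrix a b ℂ) : ‖A‖ ^ 2 = rtr (Aᴴ * A) := norm_sq_eq_nsq A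

lemma norm_sq_eq_rtr' (A : Matrix a b ℂ) : ‖A‖ ^ 2 = rtr (A * Aᴴ) := by
  rw [norm_sq_eq_rtr]; unfold rtr; rw [trace_mul_comm]

lemma norm_entry_le (A : Matrix a b ℂ) (i : a) (j : b) : ‖A i j‖ ≤ ‖A‖ := by
  apply le_of_sq_le_sq' _ (norm_nonneg _)
  rw [norm_sq_eq_sum]
  calc ‖A i j‖ ^ 2 ≤ ∑ j, ‖A i j‖ ^ 2 :=
        Finset.single_le_sum (f := fun j => ‖A i j‖ ^ 2) (fun _ _ => by positivity)
          (Finset.mem_univ j)
    _ ≤ _ := Finset.single_le_sum (f := fun i => ∑ j, ‖A i j‖ ^ 2) (fun _ _ => by positivity)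
          (Finset.mem_univ i)

lemma norm_ct (A : Matrix a b ℂ) : ‖Aᴴ‖ = ‖A‖ := frobenius_norm_conjTranspose A

lemma norm_mul_le' (A : Matrix a b ℂ) (B : Matrix b c ℂ) : ‖A * B‖ ≤ ‖A‖ * ‖B‖ := frobenius_norm_mul A B

lemma norm_trace_mul_le (A : Matrix a b ℂ) (B : Matrix b a ℂ) : ‖trace (A * B)‖ ≤ ‖A‖ * ‖B‖ := by
  have h1 : ‖trace (A * B)‖ ≤ ∑ p : a × b, ‖A p.1 p.2‖ * ‖B p.2 p.1‖ := by
    rw [Fintype.sum_prod_type]
    simp only [trace, diag_apply, mul_apply]
    refine (norm_sum_le _ _).trans (Finset.sum_le_sum fun i _ => ?_)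
    refine (norm_sum_le _ _).trans (Finset.sum_le_sum fun j _ => ?_)
    exact norm_mul_le _ _
  refine h1.trans (le_of_sq_le_sq' ?_ (by positivity))
  refine (Finset.sum_mul_sq_le_sq_mul_sq _ _ _).trans (le_of_eq ?_)
  rw [mul_pow, norm_sq_eq_sum, norm_sq_eq_sum, Fintype.sum_prod_type, Fintype.sum_prod_type,
    Finset.sum_comm (f := fun i j => ‖B j i‖ ^ 2)]

lemma abs_rtr_mul_le (A : Matrix a b ℂ) (B : Matrix b a ℂ) : |rtr (A * B)| ≤ ‖A‖ * ‖B‖ := (Complex.abs_re_le_norm _).trans (norm_trace_mul_le A B)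

lemma norm_sub_sq_rtr (A B : Matrix a b ℂ) :
    ‖A - B‖ ^ 2 = ‖A‖ ^ 2 - 2 * rtr (Aᴴ * B) + ‖B‖ ^ 2 := by
  have h : rtr (Bᴴ * A) = rtr (Aᴴ * B) := by
    unfold rtr
    rw [← Complex.conj_re, ← Complex.star_def, ← trace_conjTranspose]; simp
  simp only [norm_sq_eq_rtr, conjTranspose_sub, Matrix.sub_mul, Matrix.mul_sub]
  unfold rtr at *
  simp only [trace_sub, Complex.sub_re]
  linarith

lemma norm_isometry_mul [DecidableEq b] {U : Matrix a b ℂ} (hU : Uᴴ * U = 1) (X : Matrix b c ℂ) :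
    ‖U * X‖ = ‖X‖ := by
  apply eq_of_sq_eq_sq' _ (norm_nonneg _) (norm_nonneg _)
  rw [norm_sq_eq_rtr, norm_sq_eq_rtr, conjTranspose_mul, Matrix.mul_assoc, ← Matrix.mul_assoc Uᴴ,
    hU, Matrix.one_mul]

lemma norm_mul_coisometry [DecidableEq a] {U : Matrix a b ℂ} (hU : U * Uᴴ = 1)
    (X : Matrix c a ℂ) : ‖X * U‖ = ‖X‖ := by
  rw [← norm_ct, conjTranspose_mul, norm_isometry_mul (by simpa using hU), norm_ct]

lemma rtr_add (A B : Matrix a a ℂ) : rtr (A + B) = rtr A + rtr B := by simp [rtr]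
lemma rtr_sub (A B : Matrix a a ℂ) : rtr (A - B) = rtr A - rtr B := by simp [rtr]
lemma rtr_neg (A : Matrix a a ℂ) : rtr (-A) = -rtr A := by simp [rtr]
lemma rtr_smul (t : ℝ) (A : Matrix a a ℂ) : rtr (t • A) = t * rtr A := by simp [rtr]
lemma rtr_zero : rtr (0 : Matrix a a ℂ) = 0 := by simp [rtr]
lemma rtr_one [DecidableEq a] : rtr (1 : Matrix a a ℂ) = Fintype.card a := by simp [rtr]
lemma rtr_sum {J : Type*} (s : Finset J) (A : J → Matrix a a ℂ) :
    rtr (∑ j ∈ s, A j) = ∑ j ∈ s, rtr (A j) := by simp [rtr, trace_sum]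
lemma rtr_mul_comm (A : Matrix a b ℂ) (B : Matrix b a ℂ) : rtr (A * B) = rtr (B * A) := by unfold rtr; rw [trace_mul_comm]
lemma rtr_ct (A : Matrix a a ℂ) : rtr Aᴴ = rtr A := by unfold rtr; rw [trace_conjTranspose]; simp
lemma rtr_eq_sum (A : Matrix a a ℂ) : rtr A = ∑ i, (A i i).re := by simp [rtr, trace]
lemma rtr_nonneg {A : Matrix a a ℂ} (hA : A.PosSemidef) : 0 ≤ rtr A := (Complex.nonneg_iff.mp hA.trace_nonneg).1
lemma rtr_mul_nonneg {A B : Matrix a a ℂ} (hA : A.PosSemidef) (hB : B.PosSemidef) :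
    0 ≤ rtr (A * B) := tp_nonneg hA hB
/-- `tr (A B) ≤ tr (A C)` for `0 ≤ A`, `B ≤ C` -/
lemma rtr_mul_mono {A B C : Matrix a a ℂ} (hA : A.PosSemidef) (h : (C - B).PosSemidef) :
    rtr (A * B) ≤ rtr (A * C) := by
  have := rtr_mul_nonneg hA h
  rw [Matrix.mul_sub, rtr_sub] at this
  linarith
lemma continuous_rtr : Continuous (rtr : Matrix a a ℂ → ℝ) := by unfold rtr; fun_prop

/-- `rtr` as a continuous real-linear map -/
noncomputable def rtrL : Matrix a a ℂ →L[ℝ] ℝ :=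
  LinearMap.toContinuousLinearMap
    { toFun := rtr, map_add' := rtr_add, map_smul' := fun t A => rtr_smul t A }

@[simp] lemma rtrL_apply (A : Matrix a a ℂ) : rtrL A = rtr A := rfl

lemma psd_smul {A : Matrix a a ℂ} (hA : A.PosSemidef) {t : ℝ} (ht : 0 ≤ t) :
    (t • A).PosSemidef := hA.smul ht

lemma psd_of_cols {A : Matrix a a ℂ} (hA : A.IsHermitian)
    (h : ∀ X : Matrix a Unit ℂ, 0 ≤ rtr (Xᴴ * A * X)) : A.PosSemidef := by
  refine PosSemidef.of_dotProduct_mulVec_nonneg hA fun x => ?_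
  have e : star x ⬝ᵥ A *ᵥ x =
      trace ((Matrix.of fun i (_ : Unit) => x i)ᴴ * A * (Matrix.of fun i (_ : Unit) => x i)) := by
    simp only [trace, diag_apply, mul_apply, dotProduct, mulVec, Finset.univ_unique,
      Finset.sum_singleton, conjTranspose_apply, of_apply, Pi.star_apply, Finset.mul_sum,
      Finset.sum_mul, mul_assoc]
    exact Finset.sum_comm
  refine Complex.nonneg_iff.2 ⟨?_, ?_⟩
  · rw [e]; exact h _
  · exact (hA.im_star_dotProduct_mulVec_self x).symm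

lemma psd_of_tendsto {ι : Type*} {l : Filter ι} [l.NeBot] {A : ι → Matrix a a ℂ}
    {B : Matrix a a ℂ} (h : Tendsto A l (𝓝 B)) (hA : ∀ᶠ i in l, (A i).PosSemidef) :
    B.PosSemidef := by
  classical
  refine PosSemidef.of_dotProduct_mulVec_nonneg ?_ fun x => ?_
  · have h1 : Tendsto (fun i => (A i)ᴴ) l (𝓝 Bᴴ) :=
      ((continuous_id.matrix_conjTranspose).tendsto B).comp h
    have h2 : Tendsto (fun i => (A i)ᴴ) l (𝓝 B) :=
      h.congr' (hA.mono fun i hi => hi.1.eq.symm)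
    exact tendsto_nhds_unique h1 h2
  · have hc : Continuous fun M : Matrix a a ℂ => star x ⬝ᵥ M *ᵥ x := by fun_prop
    exact ge_of_tendsto ((hc.tendsto B).comp h) (hA.mono fun i hi => hi.dotProduct_mulVec_nonneg x)

/-- bounded sequences of matrices converge along ultrafilters -/
lemma exists_ultralim {ι : Type*} (𝒰 : Ultrafilter ι) {F : ι → Matrix a b ℂ} {M : ℝ}
    (h : ∀ᶠ i in 𝒰, ‖F i‖ ≤ M) : ∃ G, Tendsto F 𝒰 (𝓝 G) := by
  have : (↑(𝒰.map F) : Filter _) ≤ 𝓟 (Metric.closedBall (0 : Matrix a b ℂ) M) := by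
    rw [Filter.le_principal_iff]
    exact h.mono fun i hi => by simpa using hi
  obtain ⟨G, -, hG⟩ := (isCompact_closedBall (0 : Matrix a b ℂ) M).ultrafilter_le_nhds _ this
  exact ⟨G, hG⟩

lemma tuo_iff {ι X : Type*} {l : Filter ι} {F : ι → X → Matrix a b ℂ} {G : X → Matrix a b ℂ}
    {s : Set X} : TendstoUniformlyOn F G l s ↔
      ∀ ε : ℝ, 0 < ε → ∀ᶠ i in l, ∀ x ∈ s, ‖G x - F i x‖ < ε := by
  refine Metric.tendstoUniformlyOn_iff.trans ?_
  simp [dist_eq_norm]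

/-- Cauchy–Schwarz for `-K ≤ F ≤ K` -/
lemma rtr_sq_le_of_psd {K F : Matrix a a ℂ} (h1 : (K - F).PosSemidef) (h2 : (K + F).PosSemidef)
    (X Y : Matrix a b ℂ) :
    ‖trace (Xᴴ * F * Y)‖ ^ 2 ≤ rtr (Xᴴ * K * X) * rtr (Yᴴ * K * Y) := by
  have hK : K.PosSemidef := by
    have := psd_smul (h1.add h2) (t := 1 / 2) (by norm_num)
    convert this using 1
    ext i j; simp; ring
  have hF : F.IsHermitian := by
    have e : F = K - (K - F) := by abel
    rw [e]; exact hK.1.sub h1.1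
  have key : ∀ X Y : Matrix a b ℂ,
      2 * rtr (Xᴴ * F * Y) ≤ rtr (Xᴴ * K * X) + rtr (Yᴴ * K * Y) := by
    intro X Y
    have e1 := rtr_nonneg (h2.conjTranspose_mul_mul_same (X - Y))
    have e2 := rtr_nonneg (h1.conjTranspose_mul_mul_same (X + Y))
    have e3 : rtr (Yᴴ * F * X) = rtr (Xᴴ * F * Y) := by
      rw [← rtr_ct]; simp [hF.eq, Matrix.mul_assoc]
    simp only [conjTranspose_sub, conjTranspose_add, Matrix.sub_mul, Matrix.mul_sub,
      Matrix.add_mul, Matrix.mul_add, rtr_add, rtr_sub] at e1 e2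
    linarith
  set z := trace (Xᴴ * F * Y) with hz
  set P := rtr (Xᴴ * K * X)
  set Q := rtr (Yᴴ * K * Y)
  have hP : 0 ≤ P := rtr_nonneg (hK.conjTranspose_mul_mul_same X)
  have hQ : 0 ≤ Q := rtr_nonneg (hK.conjTranspose_mul_mul_same Y)
  have key2 : ∀ t : ℝ, 2 * t * ‖z‖ ^ 2 ≤ t ^ 2 * ‖z‖ ^ 2 * P + Q := by
    intro t
    have := key (((t : ℂ) * z) • X) Y
    have e1 : rtr ((((t : ℂ) * z) • X)ᴴ * F * Y) = t * ‖z‖ ^ 2 := by
      simp only [conjTranspose_smul, Matrix.smul_mul, rtr, trace_smul, ← hz, smul_eq_mul]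
      have : star ((t : ℂ) * z) * z = ((t * ‖z‖ ^ 2 : ℝ) : ℂ) := by
        rw [star_mul', Complex.star_def, Complex.conj_ofReal, mul_assoc, Complex.conj_mul']
        push_cast; ring
      rw [this, Complex.ofReal_re]
    have e2 : rtr ((((t : ℂ) * z) • X)ᴴ * K * (((t : ℂ) * z) • X)) = t ^ 2 * ‖z‖ ^ 2 * P := by
      simp only [conjTranspose_smul, Matrix.smul_mul, Matrix.mul_smul, smul_smul]
      have : ((t : ℂ) * z) * star ((t : ℂ) * z) = ((t ^ 2 * ‖z‖ ^ 2 : ℝ) : ℂ) := by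
        rw [Complex.star_def, Complex.mul_conj', norm_mul, Complex.norm_real, Real.norm_eq_abs,
          ← Complex.ofReal_pow, mul_pow, sq_abs]
      rw [this]
      simp only [rtr, trace_smul, smul_eq_mul, Complex.re_ofReal_mul, P]
    rw [e1, e2] at this
    linarith
  rcases hP.eq_or_lt with h0 | hpos
  · by_contra hcon
    rw [← h0, zero_mul, not_le] at hcon
    have := key2 ((Q + 1) / (2 * ‖z‖ ^ 2))
    rw [← h0, mul_zero, zero_add] at this
    have e : 2 * ((Q + 1) / (2 * ‖z‖ ^ 2)) * ‖z‖ ^ 2 = Q + 1 := by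
      have := hcon.ne'
      generalize ‖z‖ ^ 2 = u at *
      field_simp
    linarith
  · have := key2 (1 / P)
    have e1 : 2 * (1 / P) * ‖z‖ ^ 2 = 2 * (‖z‖ ^ 2 / P) := by ring
    have e2 : (1 / P) ^ 2 * ‖z‖ ^ 2 * P = ‖z‖ ^ 2 / P := by field_simp
    rw [e1, e2] at this
    have h3 : ‖z‖ ^ 2 / P ≤ Q := by linarith
    rw [div_le_iff₀ hpos] at h3
    linarith

/-! operator norm bounds -/

lemma OpLe.norm_mul_le {A : Matrix a b ℂ} {t : ℝ} (h : OpLe A t) (X : Matrix b c ℂ) :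
    ‖A * X‖ ≤ t * ‖X‖ := by
  apply le_of_sq_le_sq' _ (mul_nonneg h.1 (norm_nonneg _))
  rw [mul_pow, norm_sq_eq_sum, norm_sq_eq_sum, Finset.sum_comm, Finset.sum_comm (f := fun i j => ‖X i j‖ ^ 2),
    Finset.mul_sum]
  refine Finset.sum_le_sum fun j _ => ?_
  have h1 := h.2 (Matrix.of fun i _ => X i j)
  have h2 := pow_le_pow_left₀ (norm_nonneg _) h1 2
  rw [mul_pow, norm_sq_eq_sum, norm_sq_eq_sum] at h2
  simpa [mul_apply] using h2

lemma OpLe.ct {A : Matrix a b ℂ} {t : ℝ} (h : OpLe A t) : OpLe Aᴴ t := by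
  refine ⟨h.1, fun X => ?_⟩
  have h1 : ‖Aᴴ * X‖ ^ 2 ≤ ‖X‖ * (t * ‖Aᴴ * X‖) := by
    rw [norm_sq_eq_rtr, conjTranspose_mul, conjTranspose_conjTranspose, Matrix.mul_assoc]
    refine (le_abs_self _).trans ((abs_rtr_mul_le _ _).trans ?_)
    rw [norm_ct]
    exact mul_le_mul_of_nonneg_left (h.2 _) (norm_nonneg _)
  rcases (norm_nonneg (Aᴴ * X)).eq_or_lt with h0 | hpos
  · rw [← h0]; exact mul_nonneg h.1 (norm_nonneg _)
  · have : ‖Aᴴ * X‖ * ‖Aᴴ * X‖ ≤ (t * ‖X‖) * ‖Aᴴ * X‖ := by nlinarith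
    exact le_of_mul_le_mul_right this hpos

lemma OpLe.norm_mul_le' {A : Matrix a b ℂ} {t : ℝ} (h : OpLe A t) (X : Matrix c a ℂ) :
    ‖X * A‖ ≤ t * ‖X‖ := by
  rw [← norm_ct, conjTranspose_mul, ← norm_ct X]
  exact h.ct.norm_mul_le _

lemma OpLe.mono {A : Matrix a b ℂ} {s t : ℝ} (h : OpLe A s) (hst : s ≤ t) : OpLe A t := ⟨h.1.trans hst, fun X => (h.2 X).trans (mul_le_mul_of_nonneg_right hst (norm_nonneg _))⟩

lemma OpLe.add {A B : Matrix a b ℂ} {s t : ℝ} (hA : OpLe A s) (hB : OpLe B t) :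
    OpLe (A + B) (s + t) := by
  refine ⟨add_nonneg hA.1 hB.1, fun X => ?_⟩
  rw [Matrix.add_mul, add_mul]
  exact (norm_add_le _ _).trans (add_le_add (hA.2 X) (hB.2 X))

lemma OpLe.neg {A : Matrix a b ℂ} {s : ℝ} (hA : OpLe A s) : OpLe (-A) s := ⟨hA.1, fun X => by rw [Matrix.neg_mul, norm_neg]; exact hA.2 X⟩

lemma OpLe.sub {A B : Matrix a b ℂ} {s t : ℝ} (hA : OpLe A s) (hB : OpLe B t) :
    OpLe (A - B) (s + t) := by rw [sub_eq_add_neg]; exact hA.add hB.neg

lemma OpLe.mul {A : Matrix a b ℂ} {B : Matrix b c ℂ} {s t : ℝ} (hA : OpLe A s) (hB : OpLe B t) :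
    OpLe (A * B) (s * t) := by
  refine ⟨mul_nonneg hA.1 hB.1, fun X => ?_⟩
  rw [Matrix.mul_assoc, mul_assoc]
  exact (hA.2 _).trans (mul_le_mul_of_nonneg_left (hB.2 X) hA.1)

lemma OpLe.smul {A : Matrix a b ℂ} {s : ℝ} (hA : OpLe A s) (t : ℝ) : OpLe (t • A) (|t| * s) := by
  refine ⟨mul_nonneg (abs_nonneg _) hA.1, fun X => ?_⟩
  rw [Matrix.smul_mul, norm_smul, Real.norm_eq_abs, mul_assoc]
  exact mul_le_mul_of_nonneg_left (hA.2 X) (abs_nonneg _)

lemma opLe_norm (A : Matrix a b ℂ) : OpLe A ‖A‖ := ⟨norm_nonneg _, fun X => norm_mul_le' A X⟩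

lemma opLe_one [DecidableEq a] : OpLe (1 : Matrix a a ℂ) 1 := ⟨zero_le_one, fun X => by simp⟩

lemma OpLe.norm_le [DecidableEq b] {A : Matrix a b ℂ} {t : ℝ} (h : OpLe A t) :
    ‖A‖ ≤ t * √(Fintype.card b) := by
  have h1 := h.norm_mul_le (1 : Matrix b b ℂ)
  rw [Matrix.mul_one] at h1
  have h2 : ‖(1 : Matrix b b ℂ)‖ = √(Fintype.card b) := by
    rw [← Real.sqrt_sq (norm_nonneg (1 : Matrix b b ℂ)), norm_sq_eq_rtr]
    simp [rtr_one]
  rwa [h2] at h1

lemma opLe_iff_psd [DecidableEq b] {A : Matrix a b ℂ} {t : ℝ} (ht : 0 ≤ t) :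
    OpLe A t ↔ ((t ^ 2) • (1 : Matrix b b ℂ) - Aᴴ * A).PosSemidef := by
  have key : ∀ X : Matrix b Unit ℂ,
      rtr (Xᴴ * ((t ^ 2) • (1 : Matrix b b ℂ) - Aᴴ * A) * X) = (t * ‖X‖) ^ 2 - ‖A * X‖ ^ 2 := by
    intro X
    rw [mul_pow, norm_sq_eq_rtr, norm_sq_eq_rtr]
    simp only [Matrix.mul_sub, Matrix.sub_mul, rtr_sub, Matrix.mul_smul, Matrix.smul_mul,
      Matrix.mul_one, rtr_smul, conjTranspose_mul, Matrix.mul_assoc]
  constructor
  · intro h
    have hH : ((t ^ 2) • (1 : Matrix b b ℂ) - Aᴴ * A).IsHermitian := by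
      refine IsHermitian.sub ?_ (isHermitian_conjTranspose_mul_self A)
      simp [IsHermitian]
    refine psd_of_cols hH fun X => ?_
    rw [key]
    have := pow_le_pow_left₀ (norm_nonneg _) (h.2 X) 2
    linarith
  · intro h
    refine ⟨ht, fun X => le_of_sq_le_sq' ?_ (by positivity)⟩
    have := rtr_nonneg (h.conjTranspose_mul_mul_same X)
    rw [key] at this
    linarith

lemma opLe_of_isometry [DecidableEq b] {U : Matrix a b ℂ} (hU : Uᴴ * U = 1) : OpLe U 1 := ⟨zero_le_one, fun X => by rw [norm_isometry_mul hU, one_mul]⟩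

lemma opLe_of_coisometry [DecidableEq a] {U : Matrix a b ℂ} (hU : U * Uᴴ = 1) : OpLe U 1 := by
  have := (opLe_of_isometry (U := Uᴴ) (by simpa using hU)).ct
  simpa using this

/-! derivatives and integrals -/

lemma hdw_iff {A : ℝ → Matrix a b ℂ} {A' : Matrix a b ℂ} {s : Set ℝ} {x : ℝ} :
    HasDerivWithinAt A A' s x ↔ ∀ i j, HasDerivWithinAt (fun y => A y i j) (A' i j) s x :=
  hasDerivWithinAt_pi.trans (forall_congr' fun _ => hasDerivWithinAt_pi)

lemma hda_iff {A : ℝ → Matrix a b ℂ} {A' : Matrix a b ℂ} {x : ℝ} :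
    HasDerivAt A A' x ↔ ∀ i j, HasDerivAt (fun y => A y i j) (A' i j) x :=
  hasDerivAt_pi.trans (forall_congr' fun _ => hasDerivAt_pi)

lemma hdw_mul {A : ℝ → Matrix a b ℂ} {B : ℝ → Matrix b c ℂ} {A' : Matrix a b ℂ}
    {B' : Matrix b c ℂ} {s : Set ℝ} {x : ℝ} (hA : HasDerivWithinAt A A' s x)
    (hB : HasDerivWithinAt B B' s x) :
    HasDerivWithinAt (fun y => A y * B y) (A' * B x + A x * B') s x := by
  refine hdw_iff.2 fun i j => ?_
  simp only [mul_apply, Matrix.add_apply, ← Finset.sum_add_distrib]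
  exact HasDerivWithinAt.fun_sum fun l _ => (hdw_iff.1 hA i l).mul (hdw_iff.1 hB l j)

lemma hda_mul {A : ℝ → Matrix a b ℂ} {B : ℝ → Matrix b c ℂ} {A' : Matrix a b ℂ}
    {B' : Matrix b c ℂ} {x : ℝ} (hA : HasDerivAt A A' x) (hB : HasDerivAt B B' x) :
    HasDerivAt (fun y => A y * B y) (A' * B x + A x * B') x := 
  hasDerivWithinAt_univ.1 (hdw_mul (hasDerivWithinAt_univ.2 hA) (hasDerivWithinAt_univ.2 hB))

lemma hdw_ct {A : ℝ → Matrix a b ℂ} {A' : Matrix a b ℂ} {s : Set ℝ} {x : ℝ}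
    (hA : HasDerivWithinAt A A' s x) : HasDerivWithinAt (fun y => (A y)ᴴ) A'ᴴ s x := by
  refine hdw_iff.2 fun i j => ?_
  simp only [conjTranspose_apply]
  exact (hdw_iff.1 hA j i).star

lemma hda_ct {A : ℝ → Matrix a b ℂ} {A' : Matrix a b ℂ} {x : ℝ}
    (hA : HasDerivAt A A' x) : HasDerivAt (fun y => (A y)ᴴ) A'ᴴ x := 
  hasDerivWithinAt_univ.1 (hdw_ct (hasDerivWithinAt_univ.2 hA))

lemma hdw_rtr {A : ℝ → Matrix a a ℂ} {A' : Matrix a a ℂ} {s : Set ℝ} {x : ℝ}
    (hA : HasDerivWithinAt A A' s x) :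
    HasDerivWithinAt (fun y => rtr (A y)) (rtr A') s x := 
  (rtrL (a := a)).hasFDerivAt.comp_hasDerivWithinAt x hA

lemma hda_rtr {A : ℝ → Matrix a a ℂ} {A' : Matrix a a ℂ} {x : ℝ}
    (hA : HasDerivAt A A' x) : HasDerivAt (fun y => rtr (A y)) (rtr A') x := 
  (rtrL (a := a)).hasFDerivAt.comp_hasDerivAt x hA

lemma hasDerivAt_rdiag [DecidableEq a] {v : ℝ → a → ℝ} {v' : a → ℝ} {x : ℝ}
    (h : ∀ i, HasDerivAt (fun y => v y i) (v' i) x) :
    HasDerivAt (fun y => rdiag (v y)) (rdiag v') x := by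
  refine hda_iff.2 fun i j => ?_
  by_cases hij : i = j
  · subst hij
    simp only [rdiag, diagonal_apply_eq]
    exact (h i).ofReal_comp
  · simp only [rdiag, diagonal_apply_ne _ hij]
    exact hasDerivAt_const _ _

/-- left multiplication as a continuous real-linear map -/
noncomputable def mulLeftL (C : Matrix c a ℂ) : Matrix a b ℂ →L[ℝ] Matrix c b ℂ :=
  LinearMap.toContinuousLinearMap
    { toFun := fun A => C * A, map_add' := Matrix.mul_add C,
      map_smul' := fun t A => Matrix.mul_smul C t A }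

/-- right multiplication as a continuous real-linear map -/
noncomputable def mulRightL (C : Matrix b c ℂ) : Matrix a b ℂ →L[ℝ] Matrix a c ℂ :=
  LinearMap.toContinuousLinearMap
    { toFun := fun A => A * C, map_add' := fun A B => Matrix.add_mul A B C,
      map_smul' := fun t A => Matrix.smul_mul t A C }

/-- an entry as a continuous real-linear map -/
noncomputable def entryL (i : a) (j : b) : Matrix a b ℂ →L[ℝ] ℂ :=
  LinearMap.toContinuousLinearMap
    { toFun := fun A => A i j, map_add' := fun _ _ => rfl, map_smul' := fun _ _ => rfl }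

section integral
variable {X : Type*} [MeasurableSpace X] {ν : Measure X}

lemma integral_rtr {A : X → Matrix a a ℂ} (hA : Integrable A ν) :
    ∫ x, rtr (A x) ∂ν = rtr (∫ x, A x ∂ν) := rtrL.integral_comp_comm hA

lemma integrable_rtr {A : X → Matrix a a ℂ} (hA : Integrable A ν) :
    Integrable (fun x => rtr (A x)) ν := rtrL.integrable_comp hA

lemma integrable_mul_left (C : Matrix c a ℂ) {A : X → Matrix a b ℂ} (hA : Integrable A ν) :
    Integrable (fun x => C * A x) ν := (mulLeftL C).integrable_comp hA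

lemma integrable_mul_right (C : Matrix b c ℂ) {A : X → Matrix a b ℂ} (hA : Integrable A ν) :
    Integrable (fun x => A x * C) ν := (mulRightL C).integrable_comp hA

lemma integral_mul_left (C : Matrix c a ℂ) {A : X → Matrix a b ℂ} (hA : Integrable A ν) :
    ∫ x, C * A x ∂ν = C * ∫ x, A x ∂ν := (mulLeftL C).integral_comp_comm hA

lemma integral_mul_right (C : Matrix b c ℂ) {A : X → Matrix a b ℂ} (hA : Integrable A ν) :
    ∫ x, A x * C ∂ν = (∫ x, A x ∂ν) * C := (mulRightL C).integral_comp_comm hA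

lemma integrable_entry {A : X → Matrix a b ℂ} (hA : Integrable A ν) (i : a) (j : b) :
    Integrable (fun x => A x i j) ν := (entryL i j).integrable_comp hA

lemma integrable_of_entry {A : X → Matrix a b ℂ} (hA : ∀ i j, Integrable (fun x => A x i j) ν) :
    Integrable A ν := by
  classical
  have e : A = fun x => ∑ i, ∑ j, (A x i j) • (single i j 1 : Matrix a b ℂ) := by
    funext x
    conv_lhs => rw [matrix_eq_sum_single (A x)]
    simp [smul_single]
  rw [e]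
  refine integrable_finsetSum _ fun i _ => integrable_finsetSum _ fun j _ => ?_
  exact (hA i j).smul_const _

lemma integral_entry {A : X → Matrix a b ℂ} (hA : Integrable A ν) (i : a) (j : b) :
    (∫ x, A x ∂ν) i j = ∫ x, A x i j ∂ν := ((entryL i j).integral_comp_comm hA).symm

end integral

end norms

section fcalc
variable {n l : Type} [Fintype n] [DecidableEq n] [Fintype l] [DecidableEq l]

lemma rdiag_ct (v : n → ℝ) : (rdiag v)ᴴ = rdiag v := by
  simp only [rdiag, diagonal_conjTranspose]; congr 1; funext i; simp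
lemma rdiag_herm (v : n → ℝ) : (rdiag v).IsHermitian := rdiag_ct v
lemma rdiag_mul (v w : n → ℝ) : rdiag v * rdiag w = rdiag fun i => v i * w i := by
  simp [rdiag, diagonal_mul_diagonal]
lemma rdiag_add (v w : n → ℝ) : rdiag v + rdiag w = rdiag fun i => v i + w i := by
  simp [rdiag, diagonal_add]
lemma rdiag_sub (v w : n → ℝ) : rdiag v - rdiag w = rdiag fun i => v i - w i := by
  simp [rdiag, diagonal_sub]
lemma rdiag_neg (v : n → ℝ) : -rdiag v = rdiag fun i => -v i := by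
  simp [rdiag, diagonal_neg]
lemma rdiag_smul (t : ℝ) (v : n → ℝ) : t • rdiag v = rdiag fun i => t * v i := by
  ext i j; by_cases h : i = j <;> simp [rdiag, h]
lemma rdiag_const (t : ℝ) : (rdiag fun _ : n => t) = t • (1 : Matrix n n ℂ) := by
  ext i j; by_cases h : i = j <;> simp [rdiag, h]
lemma rdiag_psd_iff (v : n → ℝ) : (rdiag v).PosSemidef ↔ ∀ i, 0 ≤ v i := by
  simp [rdiag, posSemidef_diagonal_iff]
lemma rtr_rdiag (v : n → ℝ) : rtr (rdiag v) = ∑ i, v i := by simp [rdiag, rtr]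
lemma rtr_rdiag_mul (v : n → ℝ) (A : Matrix n n ℂ) :
    rtr (rdiag v * A) = ∑ i, v i * (A i i).re := by
  simp [rtr_eq_sum, rdiag, diagonal_mul]
lemma opLe_rdiag {v : n → ℝ} {t : ℝ} (ht : 0 ≤ t) (h : ∀ i, |v i| ≤ t) : OpLe (rdiag v) t := by
  rw [opLe_iff_psd ht, rdiag_ct, rdiag_mul, ← rdiag_const, rdiag_sub, rdiag_psd_iff]
  intro i
  have := sq_le_sq' (neg_le_of_abs_le (h i)) (le_of_abs_le (h i))
  nlinarith
lemma continuous_rdiag : Continuous (rdiag : (n → ℝ) → Matrix n n ℂ) := by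
  unfold rdiag
  exact Continuous.matrix_diagonal (by fun_prop)

lemma fc_eq (f : ℝ → ℝ) (A : Matrix n n ℂ) :
    fc f A = eU A * rdiag (fun i => f (ev A i)) * (eU A)ᴴ := rfl
lemma spectral {A : Matrix n n ℂ} (hA : A.IsHermitian) :
    A = eU A * rdiag (ev A) * (eU A)ᴴ := (fc_id hA).symm
lemma fc_herm (f : ℝ → ℝ) (A : Matrix n n ℂ) : (fc f A).IsHermitian := fc_conjTranspose f A
lemma cfc_eq_fc (f : ℝ → ℝ) {A : Matrix n n ℂ} (hA : A.IsHermitian) : cfc f A = fc f A := by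
  rw [hA.cfc_eq]
  unfold fc eU ev
  rw [dif_pos hA, dif_pos hA]
  rfl
lemma rtr_fc (f : ℝ → ℝ) (A : Matrix n n ℂ) : rtr (fc f A) = trf f A := by
  rw [fc_eq, Matrix.mul_assoc, rtr_mul_comm, Matrix.mul_assoc, eU_mul', Matrix.mul_one, rtr_rdiag]
  rfl
lemma rtr_eq_trf {A : Matrix n n ℂ} (hA : A.IsHermitian) : rtr A = trf (fun s => s) A := by
  rw [← rtr_fc, fc_id hA]
lemma norm_fc_sq (f : ℝ → ℝ) (A : Matrix n n ℂ) : ‖fc f A‖ ^ 2 = ∑ i, f (ev A i) ^ 2 := by
  rw [norm_sq_eq_nsq, nsq_fc]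
lemma tracePow_eq {m : ℕ} {A : Matrix (Fin m) (Fin m) ℂ} (hA : A.IsHermitian) (p : ℝ) :
    Crest.MathPhysics.LiebThirring.tracePow A p = trp p A := by
  unfold Crest.MathPhysics.LiebThirring.tracePow
  rw [cfc_eq_fc _ hA]; exact rtr_fc _ _
lemma negMoment_eq {m : ℕ} {A : Matrix (Fin m) (Fin m) ℂ} (hA : A.IsHermitian) (γ : ℝ) :
    Crest.MathPhysics.LiebThirring.negMoment A γ = trf (fun t => (max (-t) 0) ^ γ) A := by
  unfold Crest.MathPhysics.LiebThirring.negMoment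
  rw [cfc_eq_fc _ hA]; exact rtr_fc _ _

lemma mul_eU {A : Matrix n n ℂ} (hA : A.IsHermitian) : A * eU A = eU A * rdiag (ev A) := by
  calc A * eU A = (eU A * rdiag (ev A) * (eU A)ᴴ) * eU A := by rw [← spectral hA]
    _ = _ := by rw [Matrix.mul_assoc, eU_mul', Matrix.mul_one]

lemma eU_ct_mul {A : Matrix n n ℂ} (hA : A.IsHermitian) :
    (eU A)ᴴ * A = rdiag (ev A) * (eU A)ᴴ := by
  have := congrArg conjTranspose (mul_eU hA)
  rwa [conjTranspose_mul, conjTranspose_mul, hA.eq, rdiag_ct] at this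

lemma rdiag_intertwine (f : ℝ → ℝ) {u : n → ℝ} {v : l → ℝ} {T : Matrix n l ℂ}
    (h : rdiag u * T = T * rdiag v) :
    (rdiag fun i => f (u i)) * T = T * rdiag fun j => f (v j) := by
  ext i j
  have h1 := congrFun (congrFun h i) j
  simp only [rdiag, diagonal_mul, mul_diagonal] at h1 ⊢
  by_cases hT : T i j = 0
  · simp [hT]
  · have : (u i : ℂ) = v j := by
      rw [mul_comm] at h1; exact mul_left_cancel₀ hT h1
    rw [Complex.ofReal_inj.1 this, mul_comm]

lemma fc_mul_of_rdiag (f : ℝ → ℝ) {A : Matrix n n ℂ} (hA : A.IsHermitian) {V : Matrix n l ℂ}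
    {v : l → ℝ} (h : A * V = V * rdiag v) : fc f A * V = V * rdiag fun j => f (v j) := by
  have h1 : rdiag (ev A) * ((eU A)ᴴ * V) = ((eU A)ᴴ * V) * rdiag v := by
    rw [Matrix.mul_assoc, ← h, ← Matrix.mul_assoc, ← Matrix.mul_assoc, eU_ct_mul hA]
  have h2 := rdiag_intertwine f h1
  rw [fc_eq, Matrix.mul_assoc, Matrix.mul_assoc, h2]
  simp only [← Matrix.mul_assoc, eU_mul, Matrix.one_mul]

/-- intertwining: `A V = V B` implies `f(A) V = V f(B)` -/
lemma fc_intertwine (f : ℝ → ℝ) {A : Matrix n n ℂ} {B : Matrix l l ℂ} (hA : A.IsHermitian)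
    (hB : B.IsHermitian) {V : Matrix n l ℂ} (h : A * V = V * B) : fc f A * V = V * fc f B := by
  have h1 : A * (V * eU B) = (V * eU B) * rdiag (ev B) := by
    rw [← Matrix.mul_assoc, h, Matrix.mul_assoc, mul_eU hB, Matrix.mul_assoc]
  have h2 := fc_mul_of_rdiag f hA h1
  calc fc f A * V = fc f A * (V * eU B) * (eU B)ᴴ := by
        simp only [Matrix.mul_assoc, eU_mul, Matrix.mul_one]
    _ = _ := by rw [h2, fc_eq]; simp only [Matrix.mul_assoc]

lemma fc_rdiag (f : ℝ → ℝ) (v : n → ℝ) : fc f (rdiag v) = rdiag fun i => f (v i) := by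
  have := fc_mul_of_rdiag f (rdiag_herm v) (V := 1) (v := v) (by simp)
  simpa using this

lemma herm_conj {U : Matrix n l ℂ} {B : Matrix l l ℂ} (hB : B.IsHermitian) :
    (U * B * Uᴴ).IsHermitian := isHermitian_mul_mul_conjTranspose U hB

lemma fc_conj_mul (f : ℝ → ℝ) {U : Matrix n l ℂ} (h1 : Uᴴ * U = 1)
    {B : Matrix l l ℂ} (hB : B.IsHermitian) : fc f (U * B * Uᴴ) * U = U * fc f B :=
  fc_intertwine f (herm_conj hB) hB (by rw [Matrix.mul_assoc, h1, Matrix.mul_one])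

lemma fc_conj (f : ℝ → ℝ) {U : Matrix n l ℂ} (h1 : Uᴴ * U = 1) (h2 : U * Uᴴ = 1)
    {B : Matrix l l ℂ} (hB : B.IsHermitian) : fc f (U * B * Uᴴ) = U * fc f B * Uᴴ := by
  rw [← fc_conj_mul f h1 hB, Matrix.mul_assoc _ U, h2, Matrix.mul_one]

/-- isometric embedding, for `f 0 = 0` -/
lemma fc_conj_isometry {f : ℝ → ℝ} (hf : f 0 = 0) {U : Matrix n l ℂ} (h1 : Uᴴ * U = 1)
    {B : Matrix l l ℂ} (hB : B.IsHermitian) : fc f (U * B * Uᴴ) = U * fc f B * Uᴴ := by
  have h0 : (U * B * Uᴴ) * (1 - U * Uᴴ) = (1 - U * Uᴴ) * rdiag fun _ => 0 := by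
    rw [rdiag_const, zero_smul, Matrix.mul_zero, Matrix.mul_sub, Matrix.mul_one]
    rw [Matrix.mul_assoc (U * B), ← Matrix.mul_assoc Uᴴ, h1, Matrix.one_mul, sub_self]
  have h2 := fc_mul_of_rdiag f (herm_conj hB) h0
  simp only [hf] at h2
  rw [rdiag_const, zero_smul, Matrix.mul_zero, Matrix.mul_sub, Matrix.mul_one, sub_eq_zero,
    ← Matrix.mul_assoc, fc_conj_mul f h1 hB] at h2
  exact h2

lemma fc_comp (f g : ℝ → ℝ) (A : Matrix n n ℂ) : fc g (fc f A) = fc (fun s => g (f s)) A := by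
  rw [fc_eq f A, fc_conj g (eU_mul' A) (eU_mul A) (rdiag_herm _), fc_rdiag]; rfl

lemma fc_add_smul_one (f : ℝ → ℝ) {A : Matrix n n ℂ} (hA : A.IsHermitian) (t : ℝ) :
    fc f (A + t • (1 : Matrix n n ℂ)) = fc (fun s => f (s + t)) A := by
  have : A + t • (1 : Matrix n n ℂ) = fc (fun s => s + t) A := by
    rw [← fc_add, fc_id hA, fc_const]
  rw [this, fc_comp]

lemma fc_smul_arg (f : ℝ → ℝ) {A : Matrix n n ℂ} (hA : A.IsHermitian) (t : ℝ) :
    fc f (t • A) = fc (fun s => f (t * s)) A := by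
  have : t • A = fc (fun s => t * s) A := by rw [← fc_smul, fc_id hA]
  rw [this, fc_comp]

lemma fc_neg_arg (f : ℝ → ℝ) {A : Matrix n n ℂ} (hA : A.IsHermitian) :
    fc f (-A) = fc (fun s => f (-s)) A := by
  have := fc_smul_arg f hA (-1)
  simpa using this

lemma trf_rdiag (f : ℝ → ℝ) (v : n → ℝ) : trf f (rdiag v) = ∑ i, f (v i) := by
  rw [← rtr_fc, fc_rdiag, rtr_rdiag]

lemma trf_conj (f : ℝ → ℝ) {U : Matrix n l ℂ} (h1 : Uᴴ * U = 1) (h2 : U * Uᴴ = 1)
    {B : Matrix l l ℂ} (hB : B.IsHermitian) : trf f (U * B * Uᴴ) = trf f B := by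
  rw [← rtr_fc, fc_conj f h1 h2 hB, Matrix.mul_assoc, rtr_mul_comm, Matrix.mul_assoc, h1,
    Matrix.mul_one, rtr_fc]

lemma trf_conj_isometry {f : ℝ → ℝ} (hf : f 0 = 0) {U : Matrix n l ℂ} (h1 : Uᴴ * U = 1)
    {B : Matrix l l ℂ} (hB : B.IsHermitian) : trf f (U * B * Uᴴ) = trf f B := by
  rw [← rtr_fc, fc_conj_isometry hf h1 hB, Matrix.mul_assoc, rtr_mul_comm, Matrix.mul_assoc, h1,
    Matrix.mul_one, rtr_fc]

lemma trf_fc (f g : ℝ → ℝ) (A : Matrix n n ℂ) : trf g (fc f A) = trf (fun s => g (f s)) A := by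
  rw [← rtr_fc, fc_comp, rtr_fc]

/-- every eigenvalue of `f(A)` is `f` of an eigenvalue of `A` -/
lemma ev_fc (f : ℝ → ℝ) (A : Matrix n n ℂ) (i : n) : ∃ j, ev (fc f A) i = f (ev A j) := by
  classical
  by_contra hcon
  push Not at hcon
  set e := ev (fc f A) i
  have h1 := trf_fc f (fun s => if s = e then 1 else 0) A
  unfold trf at h1
  rw [Finset.sum_eq_zero (s := Finset.univ)
    (f := fun j => if f (ev A j) = e then (1 : ℝ) else 0)
    (fun j _ => if_neg (hcon j).symm)] at h1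
  have h2 : (1 : ℝ) ≤ ∑ j, if ev (fc f A) j = e then (1 : ℝ) else 0 := by
    have := Finset.single_le_sum (s := Finset.univ)
      (f := fun j => if ev (fc f A) j = e then (1 : ℝ) else 0)
      (fun j _ => by split_ifs <;> norm_num) (Finset.mem_univ i)
    simpa [e] using this
  linarith

lemma ev_rdiag (v : n → ℝ) (i : n) : ∃ j, ev (rdiag v) i = v j := by
  classical
  by_contra hcon
  push Not at hcon
  set e := ev (rdiag v) i
  have h1 := trf_rdiag (fun s => if s = e then 1 else 0) v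
  unfold trf at h1
  rw [Finset.sum_eq_zero (s := Finset.univ)
    (f := fun j => if v j = e then (1 : ℝ) else 0)
    (fun j _ => if_neg (hcon j).symm)] at h1
  have h2 : (1 : ℝ) ≤ ∑ j, if ev (rdiag v) j = e then (1 : ℝ) else 0 := by
    have := Finset.single_le_sum (s := Finset.univ)
      (f := fun j => if ev (rdiag v) j = e then (1 : ℝ) else 0)
      (fun j _ => by split_ifs <;> norm_num) (Finset.mem_univ i)
    simpa [e] using this
  linarith

lemma le_ev_iff {A : Matrix n n ℂ} (hA : A.IsHermitian) (t : ℝ) :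
    (∀ i, t ≤ ev A i) ↔ (A - t • (1 : Matrix n n ℂ)).PosSemidef := by
  have e : A - t • (1 : Matrix n n ℂ) = fc (fun s => s - t) A := by
    rw [← fc_sub, fc_id hA, fc_const]
  rw [e]
  exact ⟨fun h => fc_psd fun i => sub_nonneg.2 (h i),
    fun h i => sub_nonneg.1 (nonneg_of_fc_psd h i)⟩

lemma ev_le_iff {A : Matrix n n ℂ} (hA : A.IsHermitian) (t : ℝ) :
    (∀ i, ev A i ≤ t) ↔ (t • (1 : Matrix n n ℂ) - A).PosSemidef := by
  have e : t • (1 : Matrix n n ℂ) - A = fc (fun s => t - s) A := by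
    rw [← fc_sub, fc_id hA, fc_const]
  rw [e]
  exact ⟨fun h => fc_psd fun i => sub_nonneg.2 (h i),
    fun h i => sub_nonneg.1 (nonneg_of_fc_psd h i)⟩

lemma opLe_fc {f : ℝ → ℝ} {A : Matrix n n ℂ} {t : ℝ} (ht : 0 ≤ t) (h : ∀ i, |f (ev A i)| ≤ t) :
    OpLe (fc f A) t := by
  rw [opLe_iff_psd ht, fc_conjTranspose, fc_mul, ← fc_const, fc_sub]
  refine fc_psd fun i => ?_
  have := sq_le_sq' (neg_le_of_abs_le (h i)) (le_of_abs_le (h i))
  nlinarith

lemma opLe_herm_iff {A : Matrix n n ℂ} (hA : A.IsHermitian) {t : ℝ} (ht : 0 ≤ t) :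
    OpLe A t ↔ ∀ i, |ev A i| ≤ t := by
  constructor
  · intro h i
    rw [opLe_iff_psd ht, hA.eq] at h
    have e : (t ^ 2) • (1 : Matrix n n ℂ) - A * A = fc (fun s => t ^ 2 - s * s) A := by
      rw [← fc_sub, ← fc_mul, fc_id hA, fc_const]
    rw [e] at h
    have := nonneg_of_fc_psd h i
    exact abs_le_of_sq_le_sq (by nlinarith) ht
  · intro h
    have := opLe_fc (f := fun s => s) ht h
    rwa [fc_id hA] at this

lemma opLe_of_psd {A : Matrix n n ℂ} (hA : A.IsHermitian) {t : ℝ} (ht : 0 ≤ t)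
    (h1 : (t • (1 : Matrix n n ℂ) - A).PosSemidef) (h2 : (t • (1 : Matrix n n ℂ) + A).PosSemidef) :
    OpLe A t := by
  rw [opLe_herm_iff hA ht]
  intro i
  refine abs_le.2 ⟨(le_ev_iff hA (-t)).2 ?_ i, (ev_le_iff hA t).2 h1 i⟩
  convert h2 using 1
  rw [neg_smul, sub_neg_eq_add, add_comm]

lemma OpLe.psd_sub {A : Matrix n n ℂ} (hA : A.IsHermitian) {t : ℝ} (h : OpLe A t) :
    (t • (1 : Matrix n n ℂ) - A).PosSemidef := 
  (ev_le_iff hA t).1 fun i => le_of_abs_le ((opLe_herm_iff hA h.1).1 h i)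

lemma OpLe.psd_add {A : Matrix n n ℂ} (hA : A.IsHermitian) {t : ℝ} (h : OpLe A t) :
    (t • (1 : Matrix n n ℂ) + A).PosSemidef := by
  have := (le_ev_iff hA (-t)).1 fun i => neg_le_of_abs_le ((opLe_herm_iff hA h.1).1 h i)
  convert this using 1
  rw [neg_smul, sub_neg_eq_add, add_comm]

lemma abs_ev_le_norm (A : Matrix n n ℂ) (i : n) : |ev A i| ≤ ‖A‖ := by
  by_cases hA : A.IsHermitian
  · exact (opLe_herm_iff hA (norm_nonneg _)).1 (opLe_norm A) i
  · simp [ev, hA]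

lemma Adm.opLe {κ : n → ℝ} {k : ℝ} {F : Matrix n n ℂ} (h : Adm κ k F) (hk : 0 ≤ k) :
    OpLe F k := by
  have h0 : (k • (1 : Matrix n n ℂ) - rdiag κ).PosSemidef := by
    rw [← rdiag_const, rdiag_sub, rdiag_psd_iff]
    exact fun i => sub_nonneg.2 (h.le i)
  refine opLe_of_psd h.herm hk ?_ ?_
  · convert h0.add h.up using 1; abel
  · convert h0.add h.lo using 1; abel

lemma ovl_nonneg (A B : Matrix n n ℂ) (i j : n) : 0 ≤ ovl A B i j := sq_nonneg _
lemma sum_ovl_right (A B : Matrix n n ℂ) (i : n) : ∑ j, ovl A B i j = 1 := by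
  have h : ((eU A)ᴴ * eU B) * ((eU A)ᴴ * eU B)ᴴ = 1 := by
    rw [conjTranspose_mul, conjTranspose_conjTranspose, Matrix.mul_assoc,
      ← Matrix.mul_assoc (eU B), eU_mul, Matrix.one_mul, eU_mul']
  have h1 := congrArg Complex.re (congrFun (congrFun h i) i)
  rw [mul_apply] at h1
  simp only [conjTranspose_apply, Complex.star_def, Complex.mul_conj', one_apply_eq,
    Complex.one_re, Complex.re_sum, ← Complex.ofReal_pow, Complex.ofReal_re] at h1
  exact h1
lemma sum_ovl_left (A B : Matrix n n ℂ) (j : n) : ∑ i, ovl A B i j = 1 := by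
  have h : ((eU A)ᴴ * eU B)ᴴ * ((eU A)ᴴ * eU B) = 1 := by
    rw [conjTranspose_mul, conjTranspose_conjTranspose, Matrix.mul_assoc,
      ← Matrix.mul_assoc (eU A), eU_mul, Matrix.one_mul, eU_mul']
  have h1 := congrArg Complex.re (congrFun (congrFun h j) j)
  rw [mul_apply] at h1
  simp only [conjTranspose_apply, Complex.star_def, Complex.conj_mul', one_apply_eq,
    Complex.one_re, Complex.re_sum, ← Complex.ofReal_pow, Complex.ofReal_re] at h1
  exact h1

lemma rtr_rdiag_sandwich (u : n → ℝ) (v : l → ℝ) (T : Matrix n l ℂ) :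
    rtr (rdiag u * (T * rdiag v * Tᴴ)) = ∑ i, ∑ j, ‖T i j‖ ^ 2 * (u i * v j) := by
  rw [rtr_rdiag_mul]
  refine Finset.sum_congr rfl fun i _ => ?_
  rw [mul_apply, Complex.re_sum, Finset.mul_sum]
  refine Finset.sum_congr rfl fun j _ => ?_
  simp only [rdiag, mul_diagonal, conjTranspose_apply, Complex.star_def]
  rw [mul_right_comm, Complex.mul_conj', ← Complex.ofReal_pow, ← Complex.ofReal_mul,
    Complex.ofReal_re]
  ring

lemma rtr_fc_mul_fc (f g : ℝ → ℝ) (A B : Matrix n n ℂ) :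
    rtr (fc f A * fc g B) = ∑ i, ∑ j, ovl A B i j * (f (ev A i) * g (ev B j)) := by
  have := rtr_rdiag_sandwich (fun i => f (ev A i)) (fun j => g (ev B j)) ((eU A)ᴴ * eU B)
  unfold ovl
  rw [← this, fc_eq, fc_eq, Matrix.mul_assoc, Matrix.mul_assoc, rtr_mul_comm]
  simp only [conjTranspose_mul, conjTranspose_conjTranspose, Matrix.mul_assoc]

lemma trf_eq_left (f : ℝ → ℝ) (A B : Matrix n n ℂ) :
    trf f A = ∑ i, ∑ j, ovl A B i j * f (ev A i) := by
  unfold trf
  refine Finset.sum_congr rfl fun i _ => ?_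
  rw [← Finset.sum_mul, sum_ovl_right, one_mul]

lemma trf_eq_right (g : ℝ → ℝ) (A B : Matrix n n ℂ) :
    trf g B = ∑ i, ∑ j, ovl A B i j * g (ev B j) := by
  unfold trf
  rw [Finset.sum_comm]
  refine Finset.sum_congr rfl fun j _ => ?_
  rw [← Finset.sum_mul, sum_ovl_left, one_mul]

lemma norm_fc_sub_sq (f g : ℝ → ℝ) (A B : Matrix n n ℂ) :
    ‖fc f A - fc g B‖ ^ 2 = ∑ i, ∑ j, ovl A B i j * (f (ev A i) - g (ev B j)) ^ 2 := by
  rw [norm_sub_sq_rtr, fc_conjTranspose, rtr_fc_mul_fc, norm_fc_sq, norm_fc_sq]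
  have e1 := trf_eq_left (fun s => f s ^ 2) A B
  have e2 := trf_eq_right (fun s => g s ^ 2) A B
  unfold trf at e1 e2
  rw [e1, e2]
  simp only [Finset.mul_sum, ← Finset.sum_sub_distrib, ← Finset.sum_add_distrib]
  exact Finset.sum_congr rfl fun i _ => Finset.sum_congr rfl fun j _ => by ring

lemma norm_sub_sq_ev {A B : Matrix n n ℂ} (hA : A.IsHermitian) (hB : B.IsHermitian) :
    ‖A - B‖ ^ 2 = ∑ i, ∑ j, ovl A B i j * (ev A i - ev B j) ^ 2 := by
  have := norm_fc_sub_sq (fun s => s) (fun s => s) A B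
  rwa [fc_id hA, fc_id hB] at this

/-- Klein's identity -/
lemma klein_eq (g g' : ℝ → ℝ) {A B : Matrix n n ℂ} (hA : A.IsHermitian) (hB : B.IsHermitian) :
    trf g A - trf g B - rtr (fc g' B * (A - B)) =
      ∑ i, ∑ j, ovl A B i j * (g (ev A i) - g (ev B j) - g' (ev B j) * (ev A i - ev B j)) := by
  have e1 : rtr (fc g' B * A) = ∑ i, ∑ j, ovl A B i j * (ev A i * g' (ev B j)) := by
    rw [rtr_mul_comm, ← rtr_fc_mul_fc (fun s => s) g' A B, fc_id hA]
  have e2 : rtr (fc g' B * B) = ∑ i, ∑ j, ovl A B i j * (g' (ev B j) * ev B j) := by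
    rw [fc_mul_self hB, rtr_fc, trf_eq_right _ A B]
  rw [Matrix.mul_sub, rtr_sub, e1, e2, trf_eq_left g A B, trf_eq_right g A B]
  simp only [← Finset.sum_sub_distrib]
  exact Finset.sum_congr rfl fun i _ => Finset.sum_congr rfl fun j _ => by ring

/-- Klein's inequality -/
lemma klein (g g' : ℝ → ℝ) {A B : Matrix n n ℂ} (hA : A.IsHermitian) (hB : B.IsHermitian)
    (h : ∀ i j, g (ev B j) + g' (ev B j) * (ev A i - ev B j) ≤ g (ev A i)) :
    trf g B + rtr (fc g' B * (A - B)) ≤ trf g A := by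
  have h1 := klein_eq g g' hA hB
  have h2 : 0 ≤ ∑ i, ∑ j, ovl A B i j *
      (g (ev A i) - g (ev B j) - g' (ev B j) * (ev A i - ev B j)) :=
    Finset.sum_nonneg fun i _ => Finset.sum_nonneg fun j _ =>
      mul_nonneg (ovl_nonneg _ _ _ _) (by linarith [h i j])
  linarith

/-- Frobenius-Lipschitz bound -/
lemma norm_fc_sub_le {f : ℝ → ℝ} {L : ℝ} (hL : 0 ≤ L) {A B : Matrix n n ℂ} (hA : A.IsHermitian)
    (hB : B.IsHermitian) (h : ∀ i j, |f (ev A i) - f (ev B j)| ≤ L * |ev A i - ev B j|) :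
    ‖fc f A - fc f B‖ ≤ L * ‖A - B‖ := by
  apply le_of_sq_le_sq' _ (by positivity)
  rw [mul_pow, norm_fc_sub_sq, norm_sub_sq_ev hA hB, Finset.mul_sum]
  refine Finset.sum_le_sum fun i _ => ?_
  rw [Finset.mul_sum]
  refine Finset.sum_le_sum fun j _ => ?_
  have h1 := pow_le_pow_left₀ (abs_nonneg _) (h i j) 2
  rw [sq_abs, mul_pow, sq_abs] at h1
  have := mul_le_mul_of_nonneg_left h1 (ovl_nonneg A B i j)
  linarith

lemma norm_comm_fc_sq (f : ℝ → ℝ) (A B : Matrix n n ℂ) :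
    ‖comm (fc f A) B‖ ^ 2 =
      ∑ i, ∑ j, (f (ev A i) - f (ev A j)) ^ 2 * ‖((eU A)ᴴ * B * eU A) i j‖ ^ 2 := by
  have e : comm (fc f A) B = eU A * (comm (rdiag fun i => f (ev A i)) ((eU A)ᴴ * B * eU A)) *
      (eU A)ᴴ := by
    simp only [comm, fc_eq, Matrix.mul_sub, Matrix.sub_mul, Matrix.mul_assoc, eU_mul,
      Matrix.mul_one]
    simp only [← Matrix.mul_assoc, eU_mul, Matrix.one_mul]
  rw [e, norm_mul_coisometry (by simpa using eU_mul' A), norm_isometry_mul (eU_mul' A),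
    norm_sq_eq_sum]
  refine Finset.sum_congr rfl fun i _ => Finset.sum_congr rfl fun j _ => ?_
  simp only [comm, rdiag, Matrix.sub_apply, diagonal_mul, mul_diagonal]
  rw [mul_comm _ ((f (ev A j) : ℝ) : ℂ), ← sub_mul, norm_mul, mul_pow, ← Complex.ofReal_sub,
    Complex.norm_real, Real.norm_eq_abs, sq_abs]

/-- Frobenius-Lipschitz bound for commutators -/
lemma norm_comm_fc_le {f : ℝ → ℝ} {L : ℝ} (hL : 0 ≤ L) {A : Matrix n n ℂ} (hA : A.IsHermitian)
    (B : Matrix n n ℂ) (h : ∀ i j, |f (ev A i) - f (ev A j)| ≤ L * |ev A i - ev A j|) :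
    ‖comm (fc f A) B‖ ≤ L * ‖comm A B‖ := by
  apply le_of_sq_le_sq' _ (by positivity)
  have e := norm_comm_fc_sq (fun s => s) A B
  rw [fc_id hA] at e
  rw [mul_pow, norm_comm_fc_sq, e, Finset.mul_sum]
  refine Finset.sum_le_sum fun i _ => ?_
  rw [Finset.mul_sum]
  refine Finset.sum_le_sum fun j _ => ?_
  have h1 := pow_le_pow_left₀ (abs_nonneg _) (h i j) 2
  rw [sq_abs, mul_pow, sq_abs] at h1
  have := mul_le_mul_of_nonneg_right h1 (sq_nonneg ‖((eU A)ᴴ * B * eU A) i j‖)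
  linarith

lemma norm_comm_symm (A B : Matrix n n ℂ) : ‖comm A B‖ = ‖comm B A‖ := by
  unfold comm; rw [norm_sub_rev]

/-- every eigenvalue of `A` is within `‖A - B‖` of an eigenvalue of `B` -/
lemma exists_ev_near {A B : Matrix n n ℂ} (hA : A.IsHermitian) (hB : B.IsHermitian) (i : n) :
    ∃ j, |ev A i - ev B j| ≤ ‖A - B‖ := by
  by_contra hcon
  push Not at hcon
  have h1 : ∑ j, ovl A B i j * (ev A i - ev B j) ^ 2 ≤ ‖A - B‖ ^ 2 := by
    rw [norm_sub_sq_ev hA hB]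
    exact Finset.single_le_sum (f := fun i => ∑ j, ovl A B i j * (ev A i - ev B j) ^ 2)
      (fun i _ => Finset.sum_nonneg fun j _ => mul_nonneg (ovl_nonneg _ _ _ _) (sq_nonneg _))
      (Finset.mem_univ i)
  have h2 : ∀ j, ‖A - B‖ ^ 2 < (ev A i - ev B j) ^ 2 := fun j => by
    have := hcon j
    rw [← sq_abs (ev A i - ev B j)]
    exact pow_lt_pow_left₀ this (norm_nonneg _) two_ne_zero
  obtain ⟨j, hj⟩ : ∃ j, 0 < ovl A B i j := by
    by_contra h3
    push Not at h3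
    have := Finset.sum_nonpos (s := Finset.univ) fun j _ => h3 j
    rw [sum_ovl_right] at this
    linarith
  have h4 : ∑ j, ovl A B i j * ‖A - B‖ ^ 2 < ∑ j, ovl A B i j * (ev A i - ev B j) ^ 2 :=
    Finset.sum_lt_sum (fun j _ => mul_le_mul_of_nonneg_left (h2 j).le (ovl_nonneg _ _ _ _))
      ⟨j, Finset.mem_univ j, mul_lt_mul_of_pos_left (h2 j) hj⟩
  rw [← Finset.sum_mul, sum_ovl_right, one_mul] at h4
  linarith

/-- core continuity statement -/
lemma tendsto_fc_core {ι : Type*} {L : Filter ι} {A : ι → Matrix n n ℂ} {B : Matrix n n ℂ}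
    {f : ι → ℝ → ℝ} {g : ℝ → ℝ} (hA : Tendsto A L (𝓝 B)) (hh : ∀ᶠ i in L, (A i).IsHermitian)
    (hB : B.IsHermitian)
    (hf : ∀ ε : ℝ, 0 < ε → ∃ δ : ℝ, 0 < δ ∧ ∀ᶠ i in L, ∀ k j, |ev (A i) k - ev B j| < δ →
      |f i (ev (A i) k) - g (ev B j)| < ε) :
    Tendsto (fun i => fc (f i) (A i)) L (𝓝 (fc g B)) := by
  have hn : Tendsto (fun i => ‖A i - B‖) L (𝓝 0) := tendsto_iff_norm_sub_tendsto_zero.1 hA
  obtain ⟨δ₁, hδ₁, h₁⟩ := hf 1 one_pos
  set M : ℝ := ∑ j, |g (ev B j)| with hM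
  have hMj : ∀ j, |g (ev B j)| ≤ M := fun j =>
    Finset.single_le_sum (f := fun j => |g (ev B j)|) (fun _ _ => abs_nonneg _) (Finset.mem_univ j)
  have hM0 : 0 ≤ M := Finset.sum_nonneg fun _ _ => abs_nonneg _
  refine tendsto_iff_norm_sub_tendsto_zero.2 ?_
  have hsq : Tendsto (fun i => ‖fc (f i) (A i) - fc g B‖ ^ 2) L (𝓝 0) := by
    rw [Metric.tendsto_nhds]
    intro ε hε
    set e : ℝ := √(ε / (2 * (Fintype.card n + 1))) with he
    have he0 : 0 < e := Real.sqrt_pos.2 (by positivity)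
    have he2 : e ^ 2 = ε / (2 * (Fintype.card n + 1)) := Real.sq_sqrt (by positivity)
    obtain ⟨δ, hδ, h₂⟩ := hf e he0
    have h3 : Tendsto (fun i => (2 * M + 1) ^ 2 / δ ^ 2 * ‖A i - B‖ ^ 2) L (𝓝 0) := by
      simpa using (hn.pow 2).const_mul ((2 * M + 1) ^ 2 / δ ^ 2)
    filter_upwards [h₁, h₂, hh, hn.eventually (gt_mem_nhds hδ₁),
      h3.eventually (gt_mem_nhds (half_pos hε))] with i h₁ h₂ hh h4 h5
    rw [Real.dist_eq, sub_zero, abs_of_nonneg (sq_nonneg _), norm_fc_sub_sq]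
    have hb : ∀ k j, (f i (ev (A i) k) - g (ev B j)) ^ 2 ≤
        e ^ 2 + (2 * M + 1) ^ 2 / δ ^ 2 * (ev (A i) k - ev B j) ^ 2 := by
      intro k j
      by_cases hc : |ev (A i) k - ev B j| < δ
      · have := pow_le_pow_left₀ (abs_nonneg _) (h₂ k j hc).le 2
        rw [sq_abs] at this
        have : 0 ≤ (2 * M + 1) ^ 2 / δ ^ 2 * (ev (A i) k - ev B j) ^ 2 := by positivity
        linarith
      · push Not at hc
        obtain ⟨j', hj'⟩ := exists_ev_near hh hB k
        have h6 := h₁ k j' (hj'.trans_lt h4)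
        have h7 : |f i (ev (A i) k) - g (ev B j)| ≤ 2 * M + 1 := by
          have a1 := abs_le.1 (hMj j)
          have a2 := abs_le.1 (hMj j')
          have a3 := abs_lt.1 h6
          rw [abs_le]; constructor <;> linarith
        have h8 := pow_le_pow_left₀ (abs_nonneg _) h7 2
        have h9 := pow_le_pow_left₀ hδ.le hc 2
        rw [sq_abs] at h8 h9
        have h10 : (2 * M + 1) ^ 2 ≤ (2 * M + 1) ^ 2 / δ ^ 2 * (ev (A i) k - ev B j) ^ 2 := by
          calc (2 * M + 1) ^ 2 = (2 * M + 1) ^ 2 / δ ^ 2 * δ ^ 2 := by field_simp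
            _ ≤ _ := mul_le_mul_of_nonneg_left h9 (by positivity)
        nlinarith [sq_nonneg e]
    calc ∑ k, ∑ j, ovl (A i) B k j * (f i (ev (A i) k) - g (ev B j)) ^ 2
        ≤ ∑ k, ∑ j, ovl (A i) B k j *
            (e ^ 2 + (2 * M + 1) ^ 2 / δ ^ 2 * (ev (A i) k - ev B j) ^ 2) :=
          Finset.sum_le_sum fun k _ => Finset.sum_le_sum fun j _ =>
            mul_le_mul_of_nonneg_left (hb k j) (ovl_nonneg _ _ _ _)
      _ = Fintype.card n * e ^ 2 + (2 * M + 1) ^ 2 / δ ^ 2 * ‖A i - B‖ ^ 2 := by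
          rw [norm_sub_sq_ev hh hB]
          simp only [mul_add, Finset.sum_add_distrib, ← Finset.sum_mul, sum_ovl_right,
            Finset.mul_sum]
          congr 1
          · simp
          · exact Finset.sum_congr rfl fun k _ => Finset.sum_congr rfl fun j _ => by ring
      _ < ε := by
          have : (Fintype.card n : ℝ) * e ^ 2 ≤ ε / 2 := by
            rw [he2, ← mul_div_assoc, div_le_div_iff₀ (by positivity) (by positivity)]
            nlinarith
          linarith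
  have := hsq.sqrt
  simpa using this

lemma tendsto_fc_within {ι : Type*} {L : Filter ι} {A : ι → Matrix n n ℂ} {B : Matrix n n ℂ}
    {f : ι → ℝ → ℝ} {g : ℝ → ℝ} {S : Set ℝ} (hA : Tendsto A L (𝓝 B))
    (hh : ∀ᶠ i in L, (A i).IsHermitian) (hB : B.IsHermitian)
    (hS : ∀ᶠ i in L, ∀ k, ev (A i) k ∈ S)
    (hf : ∀ j, Tendsto (fun q : ι × ℝ => f q.1 q.2) (L ×ˢ 𝓝[S] (ev B j)) (𝓝 (g (ev B j)))) :
    Tendsto (fun i => fc (f i) (A i)) L (𝓝 (fc g B)) := by
  refine tendsto_fc_core hA hh hB fun ε hε => ?_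
  have h1 : ∀ j, ∃ δ : ℝ, 0 < δ ∧ ∀ᶠ i in L, ∀ s ∈ S, |s - ev B j| < δ →
      |f i s - g (ev B j)| < ε := by
    intro j
    have := Metric.tendsto_nhds.1 (hf j) ε hε
    obtain ⟨pa, hpa, pb, hpb, h⟩ := eventually_prod_iff.1 this
    obtain ⟨δ, hδ, h2⟩ := Metric.mem_nhdsWithin_iff.1 hpb
    refine ⟨δ, hδ, hpa.mono fun i hi s hs hsd => ?_⟩
    have := h hi (h2 ⟨by simpa [Real.dist_eq] using hsd, hs⟩)
    simpa [Real.dist_eq] using this
  choose δ hδ h1 using h1
  obtain ⟨δ₀, hδ₀, h2⟩ : ∃ δ₀ : ℝ, 0 < δ₀ ∧ ∀ j, δ₀ ≤ δ j := by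
    rcases isEmpty_or_nonempty n with hn | hn
    · exact ⟨1, one_pos, fun j => isEmptyElim j⟩
    · obtain ⟨j, -, hj⟩ := Finset.exists_min_image Finset.univ δ Finset.univ_nonempty
      exact ⟨δ j, hδ j, fun j' => hj j' (Finset.mem_univ _)⟩
  refine ⟨δ₀, hδ₀, ?_⟩
  filter_upwards [eventually_all.2 h1, hS] with i hi hS k j hkj
  exact hi j _ (hS k) (hkj.trans_le (h2 j))

/-- continuity of the functional calculus, with a parameter-dependent function -/
lemma continuousOn_fc {X : Type*} [TopologicalSpace X] {s : Set X} {S : Set ℝ}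
    {A : X → Matrix n n ℂ} {f : X → ℝ → ℝ} (hA : ContinuousOn A s)
    (hh : ∀ x ∈ s, (A x).IsHermitian) (hS : ∀ x ∈ s, ∀ i, ev (A x) i ∈ S)
    (hf : ContinuousOn (fun q : X × ℝ => f q.1 q.2) (s ×ˢ S)) :
    ContinuousOn (fun x => fc (f x) (A x)) s := by
  intro x hx
  refine tendsto_fc_within (S := S) (hA x hx) (eventually_nhdsWithin_of_forall hh) (hh x hx)
    (eventually_nhdsWithin_of_forall hS) fun j => ?_
  have := hf (x, ev (A x) j) ⟨hx, hS x hx j⟩
  rwa [ContinuousWithinAt, nhdsWithin_prod_eq] at this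

lemma continuousOn_trf {X : Type*} [TopologicalSpace X] {s : Set X} {S : Set ℝ}
    {A : X → Matrix n n ℂ} {f : X → ℝ → ℝ} (hA : ContinuousOn A s)
    (hh : ∀ x ∈ s, (A x).IsHermitian) (hS : ∀ x ∈ s, ∀ i, ev (A x) i ∈ S)
    (hf : ContinuousOn (fun q : X × ℝ => f q.1 q.2) (s ×ˢ S)) :
    ContinuousOn (fun x => trf (f x) (A x)) s := by
  simp only [← rtr_fc]
  exact continuous_rtr.comp_continuousOn (continuousOn_fc hA hh hS hf)

/-- filter version: `f` continuous at the spectrum of the limit -/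
lemma tendsto_fc {ι : Type*} {L : Filter ι} {A : ι → Matrix n n ℂ} {B : Matrix n n ℂ}
    {f : ι → ℝ → ℝ} {g : ℝ → ℝ} (hA : Tendsto A L (𝓝 B)) (hh : ∀ᶠ i in L, (A i).IsHermitian)
    (hB : B.IsHermitian)
    (hf : ∀ j, Tendsto (fun q : ι × ℝ => f q.1 q.2) (L ×ˢ 𝓝 (ev B j)) (𝓝 (g (ev B j)))) :
    Tendsto (fun i => fc (f i) (A i)) L (𝓝 (fc g B)) := 
  tendsto_fc_within (S := univ) hA hh hB (Eventually.of_forall fun _ _ => mem_univ _)
    (by simpa only [nhdsWithin_univ] using hf)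

lemma continuousOn_trp {X : Type*} [TopologicalSpace X] {s : Set X} {p : ℝ} (hp : 0 < p)
    {A : X → Matrix n n ℂ} (hA : ContinuousOn A s) (hh : ∀ x ∈ s, (A x).IsHermitian) :
    ContinuousOn (fun x => trp p (A x)) s := 
  continuousOn_trf (S := univ) (f := fun _ s => s ^ p) hA hh (fun _ _ _ => mem_univ _)
    ((Real.continuous_rpow_const hp.le).comp continuous_snd).continuousOn

lemma tendsto_trp {ι : Type*} {L : Filter ι} {p : ℝ} (hp : 0 < p) {A : ι → Matrix n n ℂ}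
    {B : Matrix n n ℂ} (hA : Tendsto A L (𝓝 B)) (hh : ∀ᶠ i in L, (A i).IsHermitian)
    (hB : B.IsHermitian) : Tendsto (fun i => trp p (A i)) L (𝓝 (trp p B)) := by
  unfold trp
  simp only [← rtr_fc]
  refine (continuous_rtr.tendsto _).comp (tendsto_fc (f := fun _ s => s ^ p) hA hh hB fun j => ?_)
  exact ((Real.continuous_rpow_const hp.le).tendsto _).comp tendsto_snd

/-- first-order Taylor bound for a trace function -/
lemma trf_taylor {g g' : ℝ → ℝ} {B : Matrix n n ℂ} (hB : B.IsHermitian)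
    (hg : ∀ j, HasDerivAt g (g' (ev B j)) (ev B j)) {ε : ℝ} (hε : 0 < ε) :
    ∃ δ : ℝ, 0 < δ ∧ ∀ A : Matrix n n ℂ, A.IsHermitian → ‖A - B‖ < δ →
      |trf g A - trf g B - rtr (fc g' B * (A - B))| ≤ ε * ‖A - B‖ := by
  set e : ℝ := ε / (2 * (Fintype.card n + 1)) with he
  have he0 : 0 < e := by positivity
  have h1 : ∀ j, ∃ δ : ℝ, 0 < δ ∧ ∀ s, |s - ev B j| < δ →
      |g s - g (ev B j) - g' (ev B j) * (s - ev B j)| ≤ e * |s - ev B j| ∧
        |g s - g (ev B j)| ≤ 1 := by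
    intro j
    have a1 := (hasDerivAt_iff_isLittleO.1 (hg j)).def he0
    have a2 := Metric.tendsto_nhds.1 (hg j).continuousAt 1 one_pos
    obtain ⟨δ, hδ, h⟩ := Metric.eventually_nhds_iff.1 (a1.and a2)
    refine ⟨δ, hδ, fun s hs => ?_⟩
    obtain ⟨b1, b2⟩ := h (y := s) (by simpa [Real.dist_eq] using hs)
    refine ⟨?_, ?_⟩
    · simpa [mul_comm] using b1
    · exact le_of_lt (by simpa [Real.dist_eq] using b2)
  choose δ hδ h1 using h1
  obtain ⟨δ₀, hδ₀, h2⟩ : ∃ δ₀ : ℝ, 0 < δ₀ ∧ ∀ j, δ₀ ≤ δ j := by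
    rcases isEmpty_or_nonempty n with hn | hn
    · exact ⟨1, one_pos, fun j => isEmptyElim j⟩
    · obtain ⟨j, -, hj⟩ := Finset.exists_min_image Finset.univ δ Finset.univ_nonempty
      exact ⟨δ j, hδ j, fun j' => hj j' (Finset.mem_univ _)⟩
  set M : ℝ := ∑ j, (|g (ev B j)| + |g' (ev B j)|) with hM
  have hMj : ∀ j, |g (ev B j)| + |g' (ev B j)| ≤ M := fun j =>
    Finset.single_le_sum (f := fun j => |g (ev B j)| + |g' (ev B j)|)
      (fun _ _ => by positivity) (Finset.mem_univ j)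
  have hM0 : 0 ≤ M := Finset.sum_nonneg fun _ _ => by positivity
  set C : ℝ := (2 * M + 1) / δ₀ ^ 2 + M / δ₀ with hC
  have hC0 : 0 < C := by positivity
  refine ⟨min δ₀ (ε / (2 * C)), by positivity, fun A hA hAB => ?_⟩
  have hAB1 : ‖A - B‖ < δ₀ := hAB.trans_le (min_le_left _ _)
  have hAB2 : ‖A - B‖ < ε / (2 * C) := hAB.trans_le (min_le_right _ _)
  have hb : ∀ k j, |g (ev A k) - g (ev B j) - g' (ev B j) * (ev A k - ev B j)| ≤
      e * |ev A k - ev B j| + C * (ev A k - ev B j) ^ 2 := by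
    intro k j
    by_cases hc : |ev A k - ev B j| < δ₀
    · have := (h1 j _ (hc.trans_le (h2 j))).1
      have : 0 ≤ C * (ev A k - ev B j) ^ 2 := by positivity
      linarith
    · push Not at hc
      obtain ⟨j', hj'⟩ := exists_ev_near hA hB k
      have h6 := (h1 j' _ ((hj'.trans_lt hAB1).trans_le (h2 j'))).2
      set d := |ev A k - ev B j| with hd
      have h7 : |g (ev A k) - g (ev B j)| ≤ 2 * M + 1 := by
        have a1 := abs_le.1 ((le_add_of_nonneg_right (abs_nonneg _)).trans (hMj j))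
        have a2 := abs_le.1 ((le_add_of_nonneg_right (abs_nonneg _)).trans (hMj j'))
        have a3 := abs_le.1 h6
        rw [abs_le]; constructor <;> linarith
      have h8 : |g' (ev B j) * (ev A k - ev B j)| ≤ M * d := by
        rw [abs_mul]
        exact mul_le_mul_of_nonneg_right ((le_add_of_nonneg_left (abs_nonneg _)).trans (hMj j))
          (abs_nonneg _)
      have h9 : 2 * M + 1 ≤ (2 * M + 1) / δ₀ ^ 2 * d ^ 2 := by
        calc 2 * M + 1 = (2 * M + 1) / δ₀ ^ 2 * δ₀ ^ 2 := by field_simp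
          _ ≤ _ := mul_le_mul_of_nonneg_left (pow_le_pow_left₀ hδ₀.le hc 2) (by positivity)
      have h10 : M * d ≤ M / δ₀ * d ^ 2 := by
        calc M * d = M / δ₀ * (δ₀ * d) := by field_simp
          _ ≤ _ := mul_le_mul_of_nonneg_left (by nlinarith) (by positivity)
      have h11 := abs_sub (g (ev A k) - g (ev B j)) (g' (ev B j) * (ev A k - ev B j))
      rw [← sq_abs (ev A k - ev B j), ← hd, hC, add_mul]
      have : 0 ≤ e * d := by positivity
      linarith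
  have hs : ∑ k, ∑ j, ovl A B k j * |ev A k - ev B j| ≤ (Fintype.card n + 1) * ‖A - B‖ := by
    rcases (norm_nonneg (A - B)).eq_or_lt with h0 | hpos
    · have h3 := norm_sub_sq_ev hA hB
      rw [← h0] at h3 ⊢
      rw [mul_zero]
      refine le_of_eq (Finset.sum_eq_zero fun k hk => Finset.sum_eq_zero fun j hj => ?_)
      have h4 := (Finset.sum_eq_zero_iff_of_nonneg fun k _ => Finset.sum_nonneg fun j _ =>
        mul_nonneg (ovl_nonneg A B k j) (sq_nonneg (ev A k - ev B j))).1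
          (by simpa using h3.symm) k hk
      have h5 := (Finset.sum_eq_zero_iff_of_nonneg fun j _ =>
        mul_nonneg (ovl_nonneg A B k j) (sq_nonneg (ev A k - ev B j))).1 h4 j hj
      rcases mul_eq_zero.1 h5 with h | h
      · simp [h]
      · simp [pow_eq_zero_iff two_ne_zero |>.1 h]
    · calc ∑ k, ∑ j, ovl A B k j * |ev A k - ev B j|
          ≤ ∑ k, ∑ j, ovl A B k j * (‖A - B‖ + (ev A k - ev B j) ^ 2 / ‖A - B‖) := by
            refine Finset.sum_le_sum fun k _ => Finset.sum_le_sum fun j _ =>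
              mul_le_mul_of_nonneg_left ?_ (ovl_nonneg _ _ _ _)
            rw [← sq_abs (ev A k - ev B j), ← sub_le_iff_le_add', le_div_iff₀ hpos]
            nlinarith [sq_nonneg (|ev A k - ev B j| - ‖A - B‖), abs_nonneg (ev A k - ev B j)]
        _ = Fintype.card n * ‖A - B‖ + ‖A - B‖ ^ 2 / ‖A - B‖ := by
            rw [norm_sub_sq_ev hA hB]
            simp only [mul_add, Finset.sum_add_distrib, ← Finset.sum_mul, sum_ovl_right,
              Finset.sum_div, mul_div_assoc]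
            simp
        _ = _ := by field_simp
  rw [klein_eq g g' hA hB]
  calc |∑ k, ∑ j, ovl A B k j * (g (ev A k) - g (ev B j) - g' (ev B j) * (ev A k - ev B j))|
      ≤ ∑ k, ∑ j, ovl A B k j * (e * |ev A k - ev B j| + C * (ev A k - ev B j) ^ 2) := by
        refine (Finset.abs_sum_le_sum_abs _ _).trans (Finset.sum_le_sum fun k _ => ?_)
        refine (Finset.abs_sum_le_sum_abs _ _).trans (Finset.sum_le_sum fun j _ => ?_)
        rw [abs_mul, abs_of_nonneg (ovl_nonneg _ _ _ _)]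
        exact mul_le_mul_of_nonneg_left (hb k j) (ovl_nonneg _ _ _ _)
    _ = e * (∑ k, ∑ j, ovl A B k j * |ev A k - ev B j|) + C * ‖A - B‖ ^ 2 := by
        rw [norm_sub_sq_ev hA hB]
        simp only [Finset.mul_sum, ← Finset.sum_add_distrib]
        exact Finset.sum_congr rfl fun k _ => Finset.sum_congr rfl fun j _ => by ring
    _ ≤ e * ((Fintype.card n + 1) * ‖A - B‖) + C * (ε / (2 * C) * ‖A - B‖) := by
        gcongr
        rw [sq]; exact mul_le_mul_of_nonneg_right hAB2.le (norm_nonneg _)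
    _ = ε * ‖A - B‖ := by rw [he]; field_simp; ring

/-- derivative of a trace function along a Hermitian path -/
lemma hasDerivWithinAt_trf {g g' : ℝ → ℝ} {S : ℝ → Matrix n n ℂ} {S' : Matrix n n ℂ} {s : Set ℝ}
    {x : ℝ} (hx : x ∈ s) (hS : HasDerivWithinAt S S' s x) (hh : ∀ y ∈ s, (S y).IsHermitian)
    (hg : ∀ j, HasDerivAt g (g' (ev (S x) j)) (ev (S x) j)) :
    HasDerivWithinAt (fun y => trf g (S y)) (rtr (fc g' (S x) * S')) s x := by
  have hF : HasFDerivWithinAt (trf g) (rtrL.comp (mulLeftL (fc g' (S x))))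
      {A : Matrix n n ℂ | A.IsHermitian} (S x) := by
    refine hasFDerivWithinAt_iff_isLittleO.2 (Asymptotics.isLittleO_iff.2 ?_)
    intro ε hε
    obtain ⟨δ, hδ, h⟩ := trf_taylor (hh x hx) hg hε
    refine Metric.mem_nhdsWithin_iff.2 ⟨δ, hδ, fun A hA => ?_⟩
    exact h A hA.2 (by simpa [dist_eq_norm] using hA.1)
  exact hF.comp_hasDerivWithinAt x hS hh

/-! powers of psd matrices -/

lemma trp_nonneg {p : ℝ} {A : Matrix n n ℂ} (hA : A.PosSemidef) : 0 ≤ trp p A := 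
  Finset.sum_nonneg fun i _ => Real.rpow_nonneg (ev_nonneg hA i) _

lemma norm_sq_eq_ev {A : Matrix n n ℂ} (hA : A.IsHermitian) : ‖A‖ ^ 2 = ∑ i, ev A i ^ 2 := by
  have := norm_fc_sq (fun s => s) A
  rwa [fc_id hA] at this

lemma norm_le_rtr {A : Matrix n n ℂ} (hA : A.PosSemidef) : ‖A‖ ≤ rtr A := by
  apply le_of_sq_le_sq' _ (rtr_nonneg hA)
  rw [norm_sq_eq_ev hA.1, rtr_eq_trf hA.1]
  exact Finset.sum_sq_le_sq_sum_of_nonneg fun i _ => ev_nonneg hA i

lemma rtr_le_card_mul_norm (A : Matrix n n ℂ) : rtr A ≤ Fintype.card n * ‖A‖ := by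
  rw [rtr_eq_sum]
  calc ∑ i, (A i i).re ≤ ∑ _i : n, ‖A‖ := Finset.sum_le_sum fun i _ =>
        (Complex.re_le_norm _).trans (norm_entry_le A i i)
    _ = _ := by simp

lemma sum_rpow_le_rpow_sum {ι : Type*} (s : Finset ι) {v : ι → ℝ} (hv : ∀ i, 0 ≤ v i) {q : ℝ}
    (hq : 1 ≤ q) : ∑ i ∈ s, v i ^ q ≤ (∑ i ∈ s, v i) ^ q := by
  classical
  induction s using Finset.induction_on with
  | empty => simp; positivity
  | insert j s hj ih =>
    rw [Finset.sum_insert hj, Finset.sum_insert hj]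
    exact (add_le_add le_rfl ih).trans
      (Real.add_rpow_le_rpow_add (hv j) (Finset.sum_nonneg fun i _ => hv i) hq)

lemma norm_rpow_le_trp {p : ℝ} (hp : 0 < p) (hp2 : p ≤ 2) {A : Matrix n n ℂ} (hA : A.PosSemidef) :
    ‖A‖ ^ p ≤ trp p A := by
  have hq : 1 ≤ 2 / p := by rw [le_div_iff₀ hp]; linarith
  have h1 := sum_rpow_le_rpow_sum Finset.univ (v := fun i => ev A i ^ p)
    (fun i => Real.rpow_nonneg (ev_nonneg hA i) _) hq
  have h2 : ∀ i, (ev A i ^ p) ^ (2 / p) = ev A i ^ 2 := fun i => by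
    rw [← Real.rpow_mul (ev_nonneg hA i), mul_div_cancel₀ _ hp.ne', Real.rpow_two]
  simp only [h2, ← norm_sq_eq_ev hA.1] at h1
  have h3 := Real.rpow_le_rpow (sq_nonneg _) h1 (show 0 ≤ p / 2 by positivity)
  have h0 : 0 ≤ ∑ i, ev A i ^ p := trp_nonneg hA
  rw [← Real.rpow_mul h0, ← Real.rpow_two, ← Real.rpow_mul (norm_nonneg _)] at h3
  have e1 : 2 * (p / 2) = p := by ring
  have e2 : 2 / p * (p / 2) = 1 := by field_simp
  rwa [e1, e2, Real.rpow_one] at h3

lemma trp_le_card_mul {p : ℝ} (hp : 0 ≤ p) {A : Matrix n n ℂ} (hA : A.PosSemidef) :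
    trp p A ≤ Fintype.card n * ‖A‖ ^ p := by
  calc trp p A ≤ ∑ _i : n, ‖A‖ ^ p := Finset.sum_le_sum fun i _ =>
        Real.rpow_le_rpow (ev_nonneg hA i) ((le_abs_self _).trans (abs_ev_le_norm A i)) hp
    _ = _ := by simp

lemma trp_le_rtr_rpow {p : ℝ} (hp : 1 ≤ p) {A : Matrix n n ℂ} (hA : A.PosSemidef) :
    trp p A ≤ rtr A ^ p := by
  rw [rtr_eq_trf hA.1]
  exact sum_rpow_le_rpow_sum Finset.univ (ev_nonneg hA) hp

lemma trp_smul {p : ℝ} {t : ℝ} (ht : 0 ≤ t) {A : Matrix n n ℂ} (hA : A.PosSemidef) :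
    trp p (t • A) = t ^ p * trp p A := by
  unfold trp
  rw [← rtr_fc, fc_smul_arg _ hA.1, rtr_fc]
  unfold trf
  rw [Finset.mul_sum]
  exact Finset.sum_congr rfl fun i _ => Real.mul_rpow ht (ev_nonneg hA i)

/-- tangent line inequality for `x ^ p` -/
lemma rpow_tangent_le {p : ℝ} (hp : 1 ≤ p) {x y : ℝ} (hx : 0 ≤ x) (hy : 0 ≤ y) :
    y ^ p + p * y ^ (p - 1) * (x - y) ≤ x ^ p := by
  rcases hy.eq_or_lt with rfl | hy
  · rcases hp.eq_or_lt with rfl | hp
    · simp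
    · rw [Real.zero_rpow (by linarith), Real.zero_rpow (by linarith)]
      simpa using Real.rpow_nonneg hx p
  · have h1 := one_add_mul_self_le_rpow_one_add (s := x / y - 1)
      (by have := div_nonneg hx hy.le; linarith) hp
    rw [add_sub_cancel, Real.div_rpow hx hy.le, le_div_iff₀ (Real.rpow_pos_of_pos hy p)] at h1
    rw [Real.rpow_sub_one hy.ne']
    have e : y ^ p + p * (y ^ p / y) * (x - y) = (1 + p * (x / y - 1)) * y ^ p := by
      field_simp
    linarith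

lemma rpow_tangent_lt {p : ℝ} (hp : 1 < p) {x y : ℝ} (hx : 0 ≤ x) (hy : 0 ≤ y) (hxy : x ≠ y) :
    y ^ p + p * y ^ (p - 1) * (x - y) < x ^ p := by
  rcases hy.eq_or_lt with rfl | hy
  · rw [Real.zero_rpow (by linarith), Real.zero_rpow (by linarith)]
    simpa using Real.rpow_pos_of_pos (lt_of_le_of_ne hx (Ne.symm hxy)) p
  · have h1 := one_add_mul_self_lt_rpow_one_add (s := x / y - 1)
      (by have := div_nonneg hx hy.le; linarith)
      (by rw [sub_ne_zero, Ne, div_eq_one_iff_eq hy.ne']; exact hxy) hp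
    rw [add_sub_cancel, Real.div_rpow hx hy.le, lt_div_iff₀ (Real.rpow_pos_of_pos hy p)] at h1
    rw [Real.rpow_sub_one hy.ne']
    have e : y ^ p + p * (y ^ p / y) * (x - y) = (1 + p * (x / y - 1)) * y ^ p := by
      field_simp
    linarith

lemma klein_trp {p : ℝ} (hp : 1 ≤ p) {A B : Matrix n n ℂ} (hA : A.PosSemidef)
    (hB : B.PosSemidef) :
    trp p B + rtr (fc (fun s => p * s ^ (p - 1)) B * (A - B)) ≤ trp p A :=
  klein _ _ hA.1 hB.1 fun i j => rpow_tangent_le hp (ev_nonneg hA i) (ev_nonneg hB j)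

lemma trp_mono {p : ℝ} (hp : 1 ≤ p) {A B : Matrix n n ℂ} (hA : A.PosSemidef)
    (h : (B - A).PosSemidef) : trp p A ≤ trp p B := by
  have hB : B.PosSemidef := by simpa using h.add hA
  have h1 := klein_trp hp hB hA
  have h2 : 0 ≤ rtr (fc (fun s => p * s ^ (p - 1)) A * (B - A)) :=
    rtr_mul_nonneg (fc_psd' hA fun t ht => mul_nonneg (by linarith) (Real.rpow_nonneg ht _)) h
  linarith

lemma sum_row_le_of_opLe {T : Matrix n l ℂ} (h : OpLe T 1) (i : n) : ∑ j, ‖T i j‖ ^ 2 ≤ 1 := by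
  have h1 := (opLe_iff_psd zero_le_one).1 h.ct
  have h2 := (Complex.nonneg_iff.1 (h1.diag_nonneg (i := i))).1
  simp only [conjTranspose_conjTranspose, Matrix.sub_apply, mul_apply, conjTranspose_apply,
    Complex.star_def, Complex.mul_conj', Complex.sub_re, Complex.re_sum, ← Complex.ofReal_pow,
    Complex.ofReal_re] at h2
  simp at h2
  linarith

/-- Jensen's inequality for contractions -/
lemma trp_compress_le {p : ℝ} (hp : 1 ≤ p) {V : Matrix n l ℂ} (hV : OpLe V 1) {W : Matrix l l ℂ}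
    (hW : W.PosSemidef) : trp p (V * W * Vᴴ) ≤ trp p W := by
  set A := V * W * Vᴴ with hA
  have hAp : A.PosSemidef := hW.mul_mul_conjTranspose_same V
  set T := (eU A)ᴴ * V * eU W with hT
  have hT1 : OpLe T 1 := by
    have := ((opLe_of_coisometry (U := (eU A)ᴴ) (by simpa using eU_mul' A)).mul hV).mul
      (opLe_of_isometry (eU_mul' W))
    simpa using this
  have hD : rdiag (ev A) = T * rdiag (ev W) * Tᴴ := by
    calc rdiag (ev A) = (eU A)ᴴ * A * eU A := by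
          rw [eU_ct_mul hAp.1, Matrix.mul_assoc, eU_mul', Matrix.mul_one]
      _ = (eU A)ᴴ * (V * (eU W * rdiag (ev W) * (eU W)ᴴ) * Vᴴ) * eU A := by
          rw [← spectral hW.1]
      _ = _ := by
          simp only [hT, conjTranspose_mul, conjTranspose_conjTranspose, Matrix.mul_assoc]
  have hev : ∀ i, ev A i = ∑ j, ‖T i j‖ ^ 2 * ev W j := by
    intro i
    have := congrArg Complex.re (congrFun (congrFun hD i) i)
    rw [mul_apply, Complex.re_sum] at this
    simp only [rdiag, diagonal_apply_eq, Complex.ofReal_re, mul_diagonal, conjTranspose_apply,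
      Complex.star_def] at this
    rw [this]
    refine Finset.sum_congr rfl fun j _ => ?_
    rw [mul_right_comm, Complex.mul_conj', ← Complex.ofReal_pow, ← Complex.ofReal_mul,
      Complex.ofReal_re]
  have hrow : ∀ i, ∑ j, ‖T i j‖ ^ 2 ≤ 1 := fun i => sum_row_le_of_opLe hT1 i
  have hcol : ∀ j, ∑ i, ‖T i j‖ ^ 2 ≤ 1 := fun j => by
    simpa using sum_row_le_of_opLe hT1.ct j
  have hp0 : p ≠ 0 := by linarith
  calc trp p A = ∑ i, ev A i ^ p := rfl
    _ ≤ ∑ i, ∑ j, ‖T i j‖ ^ 2 * ev W j ^ p := by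
        refine Finset.sum_le_sum fun i _ => ?_
        set y := ev A i with hy
        have hy0 : 0 ≤ y := ev_nonneg hAp i
        have h1 : ∑ j, ‖T i j‖ ^ 2 * (y ^ p + p * y ^ (p - 1) * (ev W j - y)) ≤
            ∑ j, ‖T i j‖ ^ 2 * ev W j ^ p :=
          Finset.sum_le_sum fun j _ => mul_le_mul_of_nonneg_left
            (rpow_tangent_le hp (ev_nonneg hW j) hy0) (sq_nonneg _)
        have h2 := rpow_tangent_le hp le_rfl hy0
        rw [Real.zero_rpow hp0] at h2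
        have h3 : ∑ j, ‖T i j‖ ^ 2 * (y ^ p + p * y ^ (p - 1) * (ev W j - y)) =
            (∑ j, ‖T i j‖ ^ 2) * (y ^ p + p * y ^ (p - 1) * (0 - y)) + p * y ^ (p - 1) * y := by
          conv_rhs => rw [hy, hev i]
          rw [← hev i, ← hy, Finset.sum_mul]
          conv_rhs => enter [2, 2]; rw [hy, hev i]
          rw [Finset.mul_sum, ← Finset.sum_add_distrib]
          exact Finset.sum_congr rfl fun j _ => by ring
        have h4 := mul_nonneg (sub_nonneg.2 (hrow i)) (neg_nonneg.2 h2)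
        nlinarith
    _ = ∑ j, (∑ i, ‖T i j‖ ^ 2) * ev W j ^ p := by
        rw [Finset.sum_comm]; simp only [Finset.sum_mul]
    _ ≤ ∑ j, ev W j ^ p := Finset.sum_le_sum fun j _ =>
        mul_le_of_le_one_left (Real.rpow_nonneg (ev_nonneg hW j) _) (hcol j)

/-- equality case of Jensen's inequality for a co-isometry -/
lemma eq_of_trp_compress {p : ℝ} (hp : 1 < p) {D : Matrix n l ℂ} (hD : D * Dᴴ = 1)
    {W : Matrix l l ℂ} (hW : W.PosSemidef) (h : trp p W ≤ trp p (D * W * Dᴴ)) :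
    W = Dᴴ * (D * W * Dᴴ) * D := by
  set A := D * W * Dᴴ with hA
  have hAp : A.PosSemidef := hW.mul_mul_conjTranspose_same D
  set B := Dᴴ * A * D with hB
  have hB' : B = Dᴴ * A * Dᴴᴴ := by rw [conjTranspose_conjTranspose]
  have hBp : B.PosSemidef := hAp.conjTranspose_mul_mul_same D
  have hD' : Dᴴᴴ * Dᴴ = 1 := by rw [conjTranspose_conjTranspose, hD]
  have h1 : trp p B = trp p A := by
    rw [hB']; exact trf_conj_isometry (f := fun s => s ^ p) (Real.zero_rpow (ne_of_gt (by linarith))) hD' hAp.1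
  have h2 : rtr (fc (fun s => p * s ^ (p - 1)) B * (W - B)) = 0 := by
    rw [hB', fc_conj_isometry (by rw [Real.zero_rpow (by linarith), mul_zero]) hD' hAp.1,
      conjTranspose_conjTranspose, Matrix.mul_assoc, Matrix.mul_assoc, rtr_mul_comm,
      Matrix.mul_assoc]
    have : D * (W - Dᴴ * A * D) * Dᴴ = 0 := by
      rw [Matrix.mul_sub, Matrix.sub_mul, ← hA]
      rw [← Matrix.mul_assoc, ← Matrix.mul_assoc, hD, Matrix.one_mul, Matrix.mul_assoc, hD,
        Matrix.mul_one, sub_self]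
    rw [this, Matrix.mul_zero, rtr_zero]
  have h3 := klein_eq (fun s => s ^ p) (fun s => p * s ^ (p - 1)) hW.1 hBp.1
  have hnn : ∀ i j, 0 ≤ ovl W B i j *
      (ev W i ^ p - ev B j ^ p - p * ev B j ^ (p - 1) * (ev W i - ev B j)) := fun i j =>
    mul_nonneg (ovl_nonneg _ _ _ _)
      (by linarith [rpow_tangent_le hp.le (ev_nonneg hW i) (ev_nonneg hBp j)])
  have h4 : ∑ i, ∑ j, ovl W B i j *
      (ev W i ^ p - ev B j ^ p - p * ev B j ^ (p - 1) * (ev W i - ev B j)) = 0 := by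
    refine le_antisymm ?_ (Finset.sum_nonneg fun i _ => Finset.sum_nonneg fun j _ => hnn i j)
    rw [← h3, h2]
    unfold trp at h h1
    linarith
  have h5 : ‖W - B‖ ^ 2 = 0 := by
    rw [norm_sub_sq_ev hW.1 hBp.1]
    refine Finset.sum_eq_zero fun i hi => Finset.sum_eq_zero fun j hj => ?_
    have h6 := (Finset.sum_eq_zero_iff_of_nonneg fun j _ => hnn i j).1
      ((Finset.sum_eq_zero_iff_of_nonneg fun i _ => Finset.sum_nonneg fun j _ => hnn i j).1
        h4 i hi) j hj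
    rcases mul_eq_zero.1 h6 with h7 | h7
    · rw [h7, zero_mul]
    · by_cases h8 : ev W i = ev B j
      · simp [h8]
      · linarith [rpow_tangent_lt hp (ev_nonneg hW i) (ev_nonneg hBp j) h8]
  exact sub_eq_zero.1 (norm_eq_zero.1 (pow_eq_zero_iff two_ne_zero |>.1 h5))

/-- a psd matrix of the form `V W V*` with `V W V* ≤ t` has trace at most `t` times the inner size -/
lemma rtr_le_of_rank {V : Matrix n l ℂ} {W : Matrix l l ℂ} (hW : W.PosSemidef) {t : ℝ}
    (ht : 0 ≤ t) (h : (t • (1 : Matrix n n ℂ) - V * W * Vᴴ).PosSemidef) :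
    rtr (V * W * Vᴴ) ≤ Fintype.card l * t := by
  obtain ⟨B, rfl⟩ := psd_factor hW
  have e : V * (Bᴴ * B) * Vᴴ = (B * Vᴴ)ᴴ * (B * Vᴴ) := by
    simp only [conjTranspose_mul, conjTranspose_conjTranspose, Matrix.mul_assoc]
  rw [e] at h ⊢
  have h1 : OpLe (B * Vᴴ) √t := by
    rw [opLe_iff_psd (Real.sqrt_nonneg _), Real.sq_sqrt ht]; exact h
  have h2 := pow_le_pow_left₀ (norm_nonneg _) h1.ct.norm_le 2
  rw [mul_pow, Real.sq_sqrt ht, Real.sq_sqrt (by positivity), norm_ct, norm_sq_eq_rtr] at h2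
  linarith

/-- diagonalisation with decreasing eigenvalues -/
lemma exists_sorted_diag {N : ℕ} {A : Matrix (Fin N) (Fin N) ℂ} (hA : A.IsHermitian) :
    ∃ (U : Matrix (Fin N) (Fin N) ℂ) (κ : Fin N → ℝ), Uᴴ * U = 1 ∧ U * Uᴴ = 1 ∧ Antitone κ ∧
      (∀ i, ∃ j, κ i = ev A j) ∧ A = U * rdiag κ * Uᴴ := by
  set σ := Tuple.sort (fun i => -ev A i) with hσ
  have hm := Tuple.monotone_sort (fun i => -ev A i)
  refine ⟨(eU A).submatrix id σ, fun i => ev A (σ i), ?_, ?_, ?_, fun i => ⟨_, rfl⟩, ?_⟩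
  · rw [conjTranspose_submatrix, ← submatrix_mul _ _ _ _ _ Function.bijective_id, eU_mul']
    simp
  · rw [conjTranspose_submatrix, ← submatrix_mul _ _ _ _ _ σ.bijective, eU_mul]
    simp
  · intro i j hij
    have := hm hij
    simpa using this
  · have e : rdiag (fun i => ev A (σ i)) = (rdiag (ev A)).submatrix σ σ := by
      simp [rdiag, Function.comp_def]
    rw [e, conjTranspose_submatrix, ← submatrix_mul _ _ _ _ _ σ.bijective,
      ← submatrix_mul _ _ _ _ _ σ.bijective, ← spectral hA]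
    simp

/-- simultaneous diagonalisation of two commuting Hermitian matrices -/
lemma exists_joint_diag {A B : Matrix n n ℂ} (hA : A.IsHermitian) (hB : B.IsHermitian)
    (h : A * B = B * A) :
    ∃ (U : Matrix n n ℂ) (u v : n → ℝ), Uᴴ * U = 1 ∧ U * Uᴴ = 1 ∧
      A = U * rdiag u * Uᴴ ∧ B = U * rdiag v * Uᴴ := by
  classical
  -- reduce to a diagonal `A`
  set a := ev A with ha
  set B' := (eU A)ᴴ * B * eU A with hB'
  have hB'h : B'.IsHermitian := isHermitian_conjTranspose_mul_mul _ hB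
  have hc : rdiag a * B' = B' * rdiag a := by
    rw [hB', ← Matrix.mul_assoc, ← Matrix.mul_assoc, ← eU_ct_mul hA, Matrix.mul_assoc _ A, h,
      Matrix.mul_assoc, Matrix.mul_assoc, Matrix.mul_assoc, Matrix.mul_assoc, mul_eU hA]
  -- a large multiple separates the clusters
  obtain ⟨M, hM⟩ : ∃ M : ℝ, ∀ i j, a i ≠ a j → 2 * ‖B'‖ < M * |a i - a j| := by
    have h1 : ∀ q : n × n, ∀ᶠ M : ℝ in atTop, a q.1 ≠ a q.2 → 2 * ‖B'‖ < M * |a q.1 - a q.2| := by
      intro q
      by_cases hq : a q.1 = a q.2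
      · exact Eventually.of_forall fun _ h => absurd hq h
      · have hpos : 0 < |a q.1 - a q.2| := abs_pos.2 (sub_ne_zero.2 hq)
        filter_upwards [eventually_gt_atTop (2 * ‖B'‖ / |a q.1 - a q.2|)] with M hM _
        rwa [div_lt_iff₀ hpos] at hM
    obtain ⟨M, hM⟩ := (eventually_all.2 h1).exists
    exact ⟨M, fun i j => hM (i, j)⟩
  set H := B' + M • rdiag a with hH
  have hHh : H.IsHermitian := by
    rw [hH, rdiag_smul]; exact hB'h.add (rdiag_herm _)
  set Q := eU H with hQ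
  -- each nonzero entry of `Q` pins the eigenvalue of `H` near `M * a i`
  have key : ∀ i j, Q i j ≠ 0 → |ev H j - M * a i| ≤ ‖B'‖ := by
    intro i j hij
    set χ : ℝ → ℝ := fun s => if s = a i then 1 else 0 with hχ
    set P := rdiag fun k => χ (a k) with hP
    set X : Matrix n Unit ℂ := Matrix.of fun k _ => Q k j with hX
    have hPB : P * B' = B' * P := rdiag_intertwine χ hc
    have hHX : H * X = (ev H j) • X := by
      ext k u
      have := congrFun (congrFun (mul_eU hHh) k) j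
      simp only [rdiag, mul_diagonal] at this
      simp only [mul_apply, hX, of_apply, Matrix.smul_apply, Complex.real_smul] at this ⊢
      rw [this, mul_comm]
    have hPa : P * rdiag a = (a i) • P := by
      rw [hP, rdiag_mul, rdiag_smul]
      congr 1; funext k
      by_cases hk : a k = a i <;> simp [hχ, hk]
    have h1 : B' * (P * X) = (ev H j - M * a i) • (P * X) := by
      have e1 : P * (H * X) = B' * (P * X) + (M * a i) • (P * X) := by
        rw [hH, Matrix.add_mul, Matrix.mul_add, ← Matrix.mul_assoc, hPB, Matrix.mul_assoc,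
          Matrix.smul_mul, Matrix.mul_smul, ← Matrix.mul_assoc P, hPa, Matrix.smul_mul, smul_smul]
      rw [hHX, Matrix.mul_smul] at e1
      rw [sub_smul, e1]; abel
    have h2 : 0 < ‖P * X‖ := by
      refine lt_of_lt_of_le ?_ (norm_entry_le _ i ())
      simp [hP, hX, rdiag, hχ, hij]
    have h3 := norm_mul_le' B' (P * X)
    rw [h1, norm_smul, Real.norm_eq_abs] at h3
    exact le_of_mul_le_mul_right h3 h2
  have hcol : ∀ j, ∃ u : ℝ, ∀ i, Q i j ≠ 0 → a i = u := by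
    intro j
    by_cases hj : ∃ i, Q i j ≠ 0
    · obtain ⟨i, hi⟩ := hj
      refine ⟨a i, fun k hk => ?_⟩
      by_contra hne
      have h1 := hM k i hne
      have h2 := abs_le.1 (key i j hi)
      have h3 := abs_le.1 (key k j hk)
      have h4 : M * |a k - a i| ≤ |M * a k - M * a i| := by
        rw [← mul_sub, abs_mul]
        exact mul_le_mul_of_nonneg_right (le_abs_self _) (abs_nonneg _)
      have h5 : |M * a k - M * a i| ≤ 2 * ‖B'‖ := by
        rw [abs_le]; constructor <;> linarith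
      linarith
    · push Not at hj
      exact ⟨0, fun i hi => absurd (hj i) hi⟩
  choose u hu using hcol
  have haQ : rdiag a * Q = Q * rdiag u := by
    ext i j
    simp only [rdiag, diagonal_mul, mul_diagonal]
    by_cases hij : Q i j = 0
    · simp [hij]
    · rw [hu j i hij, mul_comm]
  have hBQ : B' * Q = Q * rdiag fun j => ev H j - M * u j := by
    have e1 := mul_eU hHh
    rw [← hQ] at e1
    rw [← rdiag_sub, ← rdiag_smul, Matrix.mul_sub, ← e1, Matrix.mul_smul, ← haQ, hH,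
      Matrix.add_mul, Matrix.smul_mul]
    abel
  have hQ1 : Q * Qᴴ = 1 := eU_mul H
  have hQ2 : Qᴴ * Q = 1 := eU_mul' H
  refine ⟨eU A * Q, u, fun j => ev H j - M * u j, ?_, ?_, ?_, ?_⟩
  · rw [conjTranspose_mul, Matrix.mul_assoc, ← Matrix.mul_assoc (eU A)ᴴ, eU_mul', Matrix.one_mul,
      hQ2]
  · rw [conjTranspose_mul, Matrix.mul_assoc, ← Matrix.mul_assoc Q, hQ1, Matrix.one_mul, eU_mul]
  · rw [conjTranspose_mul, Matrix.mul_assoc (eU A), ← haQ]
    calc A = eU A * rdiag a * (eU A)ᴴ := spectral hA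
      _ = eU A * (rdiag a * (Q * Qᴴ)) * (eU A)ᴴ := by rw [hQ1, Matrix.mul_one]
      _ = _ := by simp only [Matrix.mul_assoc]
  · rw [conjTranspose_mul, Matrix.mul_assoc (eU A), ← hBQ]
    calc B = (eU A * (eU A)ᴴ) * B * (eU A * (eU A)ᴴ) := by rw [eU_mul]; simp
      _ = eU A * (B' * (Q * Qᴴ)) * (eU A)ᴴ := by
          rw [hQ1, Matrix.mul_one, hB']; simp only [Matrix.mul_assoc]
      _ = _ := by simp only [Matrix.mul_assoc]

end fcalc

end Crest.Agent.R332
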