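import Crest.Agent.R332.Wpos
import Crest.Agent.R332.Close

/-!
Row 332: the pointwise calibration inequality, integrated in `t`.
-/

set_option autoImplicit false
set_option linter.unusedSectionVars false

open Matrix MeasureTheory Set Filter Topology Crest.Agent.R342
open scoped ComplexOrder Matrix.Norms.Frobenius

namespace Crest.Agent.R332

section aux
variable {n : Type} [Fintype n] [DecidableEq n]

lemma pt_continuous_Kt (κ : n → ℝ) : Continuous (Kt κ) := by
  unfold Kt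
  exact continuous_rdiag.comp (continuous_pi fun i => by fun_prop)

lemma pt_continuousOn_Lhat {κ : n → ℝ} {k : ℝ} {F : Matrix n n ℂ} (h : Adm κ k F) :
    ContinuousOn (Lhat κ F) (Ioi 0) := by
  have hlog : ContinuousOn (fun q : ℝ × ℝ => Real.log q.2) (Ioi (0 : ℝ) ×ˢ Ioi (0 : ℝ)) :=
    ContinuousOn.log continuous_snd.continuousOn fun q hq => ne_of_gt hq.2
  have h1 : ContinuousOn (fun t => fc Real.log (Kt κ t + F)) (Ioi 0) :=
    continuousOn_fc (S := Ioi 0) (f := fun _ => Real.log)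
      ((pt_continuous_Kt κ).add continuous_const).continuousOn
      (fun s _ => (rdiag_herm _).add h.herm)
      (fun s hs i => (dl_ev_bounds hs h.pos h.le le_rfl h.herm h.up h.lo).2.1 i) hlog
  have h2 : ContinuousOn (fun t => fc Real.log (Kt κ t - F)) (Ioi 0) :=
    continuousOn_fc (S := Ioi 0) (f := fun _ => Real.log)
      ((pt_continuous_Kt κ).sub continuous_const).continuousOn
      (fun s _ => (rdiag_herm _).sub h.herm)
      (fun s hs i => by
        have := (dl_ev_bounds hs h.pos h.le le_rfl h.herm.neg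
          (by rw [sub_neg_eq_add]; exact h.lo) (by rw [← sub_eq_add_neg]; exact h.up)).2.1 i
        rwa [← sub_eq_add_neg] at this) hlog
  have h3 : ContinuousOn (fun t : ℝ => Real.log t • (1 : Matrix n n ℂ)) (Ioi 0) :=
    (ContinuousOn.log continuousOn_id fun t ht => ne_of_gt ht).smul continuousOn_const
  exact (h1.add h2).sub h3

lemma pt_continuousOn_qfun {r : ℝ} (hr : 0 < r) {κ : n → ℝ} {k : ℝ} {F A : Matrix n n ℂ}
    (h : Adm κ k F) (hA : A.PosSemidef) : ContinuousOn (qfun r κ F A) (Ioi 0) := by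
  have hY : ((r + 1)⁻¹ • A).PosSemidef := psd_smul hA (by positivity)
  have hh : ContinuousOn (fun q : ℝ × ℝ => hfun q.1 q.2) (Ioi (0 : ℝ) ×ˢ Ici (0 : ℝ)) := by
    unfold hfun
    refine ContinuousOn.sub (ContinuousOn.mul (by fun_prop) (ContinuousOn.log ?_ ?_))
      continuous_snd.continuousOn
    · exact continuousOn_const.add (continuous_snd.continuousOn.div continuous_fst.continuousOn
        fun q hq => ne_of_gt hq.1)
    · intro q hq
      have h1 : 0 < q.1 := hq.1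
      have h2 : 0 ≤ q.2 := hq.2
      positivity
  have h1 : ContinuousOn (fun t => trf (hfun t) ((r + 1)⁻¹ • A)) (Ioi 0) :=
    continuousOn_trf (S := Ici 0) (f := fun t => hfun t) continuousOn_const
      (fun _ _ => hY.1) (fun _ _ i => ev_nonneg hY i) hh
  have h2 : ContinuousOn (fun t => rtr (Lhat κ F t * (A - Umat (rdiag κ) F))) (Ioi 0) :=
    continuous_rtr.comp_continuousOn
      ((mulRightL (a := n) (A - Umat (rdiag κ) F)).continuous.comp_continuousOn
        (pt_continuousOn_Lhat h))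
  exact (continuousOn_const.mul h1).sub h2

lemma pt_qfun_ge {r : ℝ} (hr : 0 < r) {κ : n → ℝ} {k : ℝ} {F A : Matrix n n ℂ}
    (h : Adm κ k F) (hA : A.PosSemidef) {t : ℝ} (ht : 0 < t) :
    (r + 1) * D1 κ F ((r + 1)⁻¹ • A) t - r * mfun κ F t + wfun κ F t ≤ qfun r κ F A t := by
  have hY : ((r + 1)⁻¹ • A).PosSemidef := psd_smul hA (by positivity)
  have h1 := gt_klein h hY ht
  rw [Matrix.smul_mul, rtr_smul] at h1
  have h2 : rtr (A * Lhat κ F t) ≤ (r + 1) *
      (trf (hfun t) ((r + 1)⁻¹ • A) + mfun κ F t - D1 κ F ((r + 1)⁻¹ • A) t) := by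
    have h3 := mul_le_mul_of_nonneg_left h1 (show 0 ≤ r + 1 by positivity)
    rwa [← mul_assoc, mul_inv_cancel₀ (by positivity), one_mul] at h3
  have h3 : rtr (Lhat κ F t * Umat (rdiag κ) F) = wfun κ F t + mfun κ F t := by
    unfold wfun mfun
    rw [Matrix.add_mul, rtr_add, Matrix.smul_mul, Matrix.one_mul, rtr_smul, rtr_mul_comm]
    ring
  unfold qfun
  rw [Matrix.mul_sub, rtr_sub, h3, rtr_mul_comm (Lhat κ F t) A]
  nlinarith

end aux

theorem point_ineq (α k : ℝ) (h0 : 0 < α) (h1 : α < 1) : ∃ c : ℝ, 0 < c ∧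
    ∀ (n : Type) [Fintype n] [DecidableEq n] (κ : n → ℝ) (F A : Matrix n n ℂ), Adm κ k F →
      A.PosSemidef → ∀ δ T : ℝ, 0 < δ → δ ≤ 1 → 2 ≤ T →
        c * defect α⁻¹ (rdiag κ) F A ≤
          (∫ t in δ..T, t ^ (α - 1) * qfun α⁻¹ κ F A t) + δ ^ α * wfun κ F δ / α := by
  have hr : 0 < α⁻¹ := inv_pos.2 h0
  have hr1 : 1 ≤ α⁻¹ := (one_le_inv₀ h0).2 h1.le
  obtain ⟨c, hc, hw⟩ := wfun_deriv k
  obtain ⟨C, hC, hd⟩ := defect_le α⁻¹ k hr
  have hm : 0 < min (1 / 2) c := lt_min (by norm_num) hc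
  refine ⟨min (1 / 2) c / C, div_pos hm hC, ?_⟩
  intro n _ _ κ F A h hA δ T hδ hδ1 hT
  set φ : ℝ → ℝ := fun t => t ^ (α - 1) * qfun α⁻¹ κ F A t with hφ
  have hφc : ContinuousOn φ (Ioi 0) :=
    (continuousOn_id.rpow_const fun t ht => Or.inl (ne_of_gt ht)).mul
      (pt_continuousOn_qfun hr h hA)
  choose! w' hw1 hw2 hw3 using hw n κ F h
  set G : ℝ → ℝ := fun t => (∫ s in δ..t, φ s) - t ^ α * wfun κ F t / α with hG
  set G' : ℝ → ℝ := fun t => φ t - (α * t ^ (α - 1) * wfun κ F t + t ^ α * w' t) / α with hG'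
  have hder : ∀ t, 0 < t → HasDerivAt G (G' t) t := by
    intro t ht
    have hi : IntervalIntegrable φ volume δ t :=
      (hφc.mono fun s hs => lt_of_lt_of_le (lt_min hδ ht) hs.1).intervalIntegrable
    have a1 : HasDerivAt (fun u => ∫ s in δ..u, φ s) (φ t) t :=
      intervalIntegral.integral_hasDerivAt_right hi
        (hφc.stronglyMeasurableAtFilter isOpen_Ioi t ht)
        (hφc.continuousAt (Ioi_mem_nhds ht))
    have a2 : HasDerivAt (fun u : ℝ => u ^ α) (α * t ^ (α - 1)) t :=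
      Real.hasDerivAt_rpow_const (Or.inl ht.ne')
    exact a1.sub ((a2.mul (hw1 t ht)).div_const α)
  -- lower bound on the derivative
  have hlow : ∀ t, 0 < t → ∀ e : ℝ, w' t ≤ -mfun κ F t / t - e →
      t ^ (α - 1) * ((α⁻¹ + 1) * D1 κ F ((α⁻¹ + 1)⁻¹ • A) t) + t ^ α * α⁻¹ * e ≤ G' t := by
    intro t ht e he
    have b1 := pt_qfun_ge hr h hA ht
    have b2 : 0 < t ^ (α - 1) := Real.rpow_pos_of_pos ht _
    have b3 : t ^ α = t ^ (α - 1) * t := by
      rw [Real.rpow_sub_one ht.ne']; field_simp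
    have b4 := mul_le_mul_of_nonneg_left b1 b2.le
    have b5 : t * w' t ≤ -mfun κ F t - t * e := by
      have := mul_le_mul_of_nonneg_left he ht.le
      rwa [mul_sub, mul_div_cancel₀ _ ht.ne'] at this
    have b6 := mul_le_mul_of_nonneg_left b5 (mul_pos b2 hr).le
    have b7 : (α * t ^ (α - 1) * wfun κ F t + t ^ α * w' t) / α =
        t ^ (α - 1) * wfun κ F t + t ^ (α - 1) * α⁻¹ * (t * w' t) := by
      rw [b3]; field_simp
    simp only [hG', hφ]
    rw [b7, b3]
    nlinarith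
  have hD1 : ∀ t, 0 ≤ D1 κ F ((α⁻¹ + 1)⁻¹ • A) t := fun t => sq_nonneg _
  have hpos : ∀ t, 0 < t → 0 ≤ G' t := by
    intro t ht
    have b1 := hlow t ht 0 (by simpa using hw2 t ht)
    have b2 : 0 < t ^ (α - 1) := Real.rpow_pos_of_pos ht _
    have b3 := hD1 t
    have : 0 ≤ t ^ (α - 1) * ((α⁻¹ + 1) * D1 κ F ((α⁻¹ + 1)⁻¹ • A) t) := by positivity
    linarith
  have hmono : MonotoneOn G (Ioi 0) := by
    refine monotoneOn_of_deriv_nonneg (convex_Ioi 0)
      (fun s hs => (hder s hs).continuousAt.continuousWithinAt)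
      (fun s hs => (hder s (interior_subset hs)).differentiableAt.differentiableWithinAt)
      fun s hs => ?_
    rw [(hder s (interior_subset hs)).deriv]
    exact hpos s (interior_subset hs)
  obtain ⟨ξ, hξ, hξ'⟩ := exists_hasDerivAt_eq_slope G G' (show (1 : ℝ) < 2 by norm_num)
    (fun s hs => (hder s (by linarith [hs.1])).continuousAt.continuousWithinAt)
    (fun s hs => hder s (by linarith [hs.1]))
  have hξ0 : 0 < ξ := by linarith [hξ.1]
  have e1 : G δ ≤ G 1 := hmono hδ (mem_Ioi.2 one_pos) hδ1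
  have e2 : G 2 ≤ G T := hmono (mem_Ioi.2 two_pos) (mem_Ioi.2 (by linarith)) hT
  have e3 := hlow ξ hξ0 _ (hw3 ξ hξ0 hξ.2.le)
  have e4 := hd n κ F A h hA ξ hξ.1.le hξ.2.le
  have e5 : (1 / 2 : ℝ) ≤ ξ ^ (α - 1) := by
    have a1 : ξ ^ (-1 : ℝ) ≤ ξ ^ (α - 1) :=
      Real.rpow_le_rpow_of_exponent_le hξ.1.le (by linarith)
    rw [Real.rpow_neg_one] at a1
    refine le_trans ?_ a1
    rw [one_div]
    exact inv_anti₀ hξ0 hξ.2.le
  have e6 : 1 ≤ ξ ^ α := Real.one_le_rpow hξ.1.le h0.le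
  set d1 := D1 κ F ((α⁻¹ + 1)⁻¹ • A) ξ with hd1
  set d2 := ‖comm (Kt κ ξ) F‖ ^ 2 with hd2
  have hd10 : 0 ≤ d1 := hD1 ξ
  have hd20 : 0 ≤ d2 := sq_nonneg _
  have e7 : min (1 / 2) c * (d1 + d2) ≤ G' ξ := by
    refine le_trans ?_ e3
    rw [mul_add]
    refine add_le_add ?_ ?_
    · refine mul_le_mul ((min_le_left _ _).trans e5) ?_ hd10 (by positivity)
      nlinarith
    · have a1 : 1 ≤ ξ ^ α * α⁻¹ := one_le_mul_of_one_le_of_one_le e6 hr1
      have a2 : min (1 / 2) c * d2 ≤ c * d2 := mul_le_mul_of_nonneg_right (min_le_right _ _) hd20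
      have a3 : 0 ≤ c * d2 := by positivity
      nlinarith
  have e8 : min (1 / 2) c / C * defect α⁻¹ (rdiag κ) F A ≤ min (1 / 2) c * (d1 + d2) := by
    have := mul_le_mul_of_nonneg_left e4 (div_pos hm hC).le
    refine this.trans (le_of_eq ?_)
    field_simp
  have e9 : 0 ≤ T ^ α * wfun κ F T / α := by
    have := wfun_nonneg h (t := T) (by linarith)
    have : 0 < T ^ α := Real.rpow_pos_of_pos (by linarith) _
    positivity
  have e10 : G δ = -(δ ^ α * wfun κ F δ / α) := by simp [hG]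
  have e11 : G T = (∫ s in δ..T, φ s) - T ^ α * wfun κ F T / α := rfl
  have e12 : G' ξ = G 2 - G 1 := by rw [hξ']; norm_num
  linarith

end Crest.Agent.R332
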