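import Crest.Agent.R332.Mat
import Crest.Agent.Lib.BorsukUlam.Basic

/-!
Row 332: a fixed-point theorem and the two-point problem for the matrix Riccati equation.
-/

set_option autoImplicit false
set_option linter.unusedSectionVars false

open Matrix MeasureTheory Set Filter Topology Crest.Agent.R342
open scoped ComplexOrder Matrix.Norms.Frobenius

namespace Crest.Agent.R332

/-- a bounded continuous self-map of a finite-dimensional space has a fixed point -/
theorem exists_fixed_of_bounded {E : Type} [NormedAddCommGroup E] [NormedSpace ℝ E]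
    [FiniteDimensional ℝ E] (φ : E → E) (hφ : Continuous φ) (M : ℝ) (hM : ∀ x, ‖φ x‖ ≤ M) :
    ∃ x, φ x = x := by
  have hc : Continuous fun q : E × ℝ => q.2 • φ (q.2⁻¹ • q.1) := by
    rw [continuous_iff_continuousAt]
    rintro ⟨x, s⟩
    by_cases hs : s = 0
    · subst hs
      have h0 : Tendsto (fun q : E × ℝ => |q.2| * M) (𝓝 (x, 0)) (𝓝 0) := by
        have : Continuous fun q : E × ℝ => |q.2| * M := by fun_prop
        simpa using this.tendsto (x, 0)
      have h1 : Tendsto (fun q : E × ℝ => q.2 • φ (q.2⁻¹ • q.1)) (𝓝 (x, 0)) (𝓝 0) := by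
        refine squeeze_zero_norm (fun q => ?_) h0
        rw [norm_smul, Real.norm_eq_abs]
        exact mul_le_mul_of_nonneg_left (hM _) (abs_nonneg _)
      simpa [ContinuousAt] using h1
    · refine continuousAt_snd.smul (hφ.continuousAt.comp ?_)
      exact (continuousAt_snd.inv₀ hs).smul continuousAt_fst
  obtain ⟨⟨x, s⟩, hne, h0⟩ := Crest.Agent.Lib.BorsukUlam.borsuk_ulam (E := E × ℝ) (G := E)
    (by simp [Module.finrank_prod]) (fun q => q.1 - q.2 • φ (q.2⁻¹ • q.1))
    (by
      rintro ⟨x, s⟩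
      simp only [Prod.fst_neg, Prod.snd_neg, inv_neg, neg_smul, smul_neg, neg_neg]
      abel)
    (continuous_fst.sub hc).continuousOn
  by_cases hs : s = 0
  · subst hs
    simp only [zero_smul, sub_zero] at h0
    exact absurd (by simp [h0]) hne
  · refine ⟨s⁻¹ • x, ?_⟩
    have h1 : x = s • φ (s⁻¹ • x) := sub_eq_zero.mp h0
    conv_rhs => rw [h1]
    rw [smul_smul, inv_mul_cancel₀ hs, one_smul]

/-- solutions of a parametrised globally Lipschitz ODE depend continuously on the parameter -/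
lemma ode_param {E P : Type*} [NormedAddCommGroup E] [NormedSpace ℝ E] [CompleteSpace E]
    [TopologicalSpace P] {a b : ℝ} (hab : a ≤ b) (v : P → ℝ → E → E) (x0 : E)
    (hL : ∀ p, ∃ L : NNReal, ∀ t, LipschitzWith L (v p t))
    (hc : ∀ p x, ContinuousOn (fun t => v p t x) (Icc a b))
    (hb : ∀ p, ∃ M : ℝ, ∀ t ∈ Icc a b, ∀ x, ‖v p t x‖ ≤ M)
    (hp : ∀ p0, ∀ ε > 0, ∀ᶠ p in 𝓝 p0, ∀ t ∈ Icc a b, ∀ x, ‖v p t x - v p0 t x‖ ≤ ε) :
    ∃ S : P → ℝ → E, (∀ p, S p a = x0 ∧
      ∀ t ∈ Icc a b, HasDerivWithinAt (S p) (v p t (S p t)) (Icc a b) t) ∧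
      Continuous fun p => S p b := by
  have hex : ∀ p, ∃ S : ℝ → E, S a = x0 ∧
      ∀ t ∈ Icc a b, HasDerivWithinAt S (v p t (S t)) (Icc a b) t := by
    intro p
    obtain ⟨L, hL⟩ := hL p
    obtain ⟨M, hM⟩ := hb p
    have hM0 : 0 ≤ M := (norm_nonneg _).trans (hM a ⟨le_rfl, hab⟩ x0)
    have hPL : IsPicardLindelof (v p) (⟨a, le_rfl, hab⟩ : Icc a b) x0
        ⟨M * (b - a), mul_nonneg hM0 (sub_nonneg.mpr hab)⟩ 0 ⟨M, hM0⟩ L :=
      { lipschitzOnWith := fun t _ => (hL t).lipschitzOnWith
        continuousOn := fun x _ => hc p x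
        norm_le := fun t ht x _ => hM t ht x
        mul_max_le := by
          simp only [sub_self, NNReal.coe_zero, sub_zero]
          rw [max_eq_left (sub_nonneg.mpr hab)]
          exact le_rfl }
    exact hPL.exists_eq_forall_mem_Icc_hasDerivWithinAt₀
  choose S hS0 hS using hex
  refine ⟨S, fun p => ⟨hS0 p, hS p⟩, ?_⟩
  have hcont : ∀ p, ContinuousOn (S p) (Icc a b) := fun p t ht => (hS p t ht).continuousWithinAt
  have hci : ∀ p, ∀ t ∈ Ico a b, HasDerivWithinAt (S p) (v p t (S p t)) (Ici t) t := by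
    intro p t ht
    refine (hS p t ⟨ht.1, ht.2.le⟩).mono_of_mem_nhdsWithin ?_
    exact mem_of_superset (Icc_mem_nhdsGE ht.2) (Icc_subset_Icc_left ht.1)
  rw [continuous_iff_continuousAt]
  intro p0
  obtain ⟨L, hL⟩ := hL p0
  rw [ContinuousAt, Metric.tendsto_nhds]
  intro ε hε
  have hg := (gronwallBound_continuous_ε 0 L (b - a)).tendsto 0
  rw [gronwallBound_ε0_δ0] at hg
  have hev := hg.eventually (gt_mem_nhds hε)
  obtain ⟨δ, hδ, hδ'⟩ := Metric.eventually_nhds_iff.mp hev
  have h2 : gronwallBound 0 L (δ / 2) (b - a) < ε := hδ' (by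
    rw [Real.dist_eq, sub_zero, abs_of_pos (by positivity)]; linarith)
  filter_upwards [hp p0 (δ / 2) (by positivity)] with p hp
  have := dist_le_of_approx_trajectories_ODE (v := v p0) (K := L) (εf := δ / 2) (εg := 0) (δ := 0)
    hL (hcont p) (hci p) (fun t ht => by
      rw [dist_eq_norm]; exact hp t ⟨ht.1, ht.2.le⟩ _) (hcont p0) (hci p0)
    (fun t _ => by simp) (by rw [hS0, hS0, dist_self]) b ⟨hab, le_rfl⟩
  rw [add_zero] at this
  exact this.trans_lt h2

lemma sub_le_of_deriv_le {φ φ' : ℝ → ℝ} {a b C : ℝ}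
    (h : ∀ t ∈ Icc a b, HasDerivWithinAt φ (φ' t) (Icc a b) t) (hC : ∀ t ∈ Icc a b, φ' t ≤ C) :
    ∀ x ∈ Icc a b, ∀ y ∈ Icc a b, x ≤ y → φ y - φ x ≤ C * (y - x) := by
  have hd : ∀ t ∈ interior (Icc a b), HasDerivAt φ (φ' t) t := fun t ht =>
    (h t (interior_subset ht)).hasDerivAt (mem_interior_iff_mem_nhds.mp ht)
  refine (convex_Icc a b).image_sub_le_mul_sub_of_deriv_le
    (fun t ht => (h t ht).continuousWithinAt)
    (fun t ht => (hd t ht).differentiableAt.differentiableWithinAt) (fun t ht => ?_)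
  rw [(hd t ht).deriv]
  exact hC t (interior_subset ht)

lemma hasDerivAt_possq (s : ℝ) : HasDerivAt (fun s : ℝ => (max s 0) ^ 2) (2 * max s 0) s := by
  rcases lt_trichotomy s 0 with h | h | h
  · have : (fun s : ℝ => (max s 0) ^ 2) =ᶠ[𝓝 s] fun _ => 0 := by
      filter_upwards [gt_mem_nhds h] with t ht
      simp [max_eq_right ht.le]
    rw [max_eq_right h.le, mul_zero]
    exact (hasDerivAt_const s 0).congr_of_eventuallyEq this
  · subst h
    rw [hasDerivAt_iff_isLittleO_nhds_zero]
    simp only [zero_add, max_self, mul_zero, smul_zero, sub_zero, ne_eq, OfNat.ofNat_ne_zero,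
      not_false_eq_true, zero_pow]
    have h1 : (fun t : ℝ => (max t 0) ^ 2) =O[𝓝 0] fun t : ℝ => t ^ 2 := by
      refine Asymptotics.IsBigO.of_bound 1 (Eventually.of_forall fun t => ?_)
      rw [one_mul, Real.norm_eq_abs, Real.norm_eq_abs, abs_of_nonneg (sq_nonneg _),
        abs_of_nonneg (sq_nonneg _)]
      rcases le_total t 0 with h | h
      · rw [max_eq_right h]; simpa using sq_nonneg t
      · rw [max_eq_left h]
    exact h1.trans_isLittleO (Asymptotics.isLittleO_pow_id (by norm_num))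
  · have : (fun s : ℝ => (max s 0) ^ 2) =ᶠ[𝓝 s] fun t => t ^ 2 := by
      filter_upwards [lt_mem_nhds h] with t ht
      simp [max_eq_left ht.le]
    rw [max_eq_left h.le]
    refine HasDerivAt.congr_of_eventuallyEq ?_ this
    simpa using hasDerivAt_pow 2 s

lemma hasDerivAt_negsq (s : ℝ) :
    HasDerivAt (fun s : ℝ => -(max (-s - 1) 0) ^ 2) (2 * max (-s - 1) 0) s := by
  have h1 : HasDerivAt (fun s : ℝ => -s - 1) (-1) s := (hasDerivAt_neg s).sub_const 1
  have h2 := HasDerivAt.comp (h₂ := fun s : ℝ => (max s 0) ^ 2) (h := fun s : ℝ => -s - 1) s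
    (hasDerivAt_possq (-s - 1)) h1
  have h3 := h2.fun_neg
  have e : -(2 * max (-s - 1) 0 * -1) = 2 * max (-s - 1) 0 := by ring
  rw [e] at h3
  exact h3

variable {n : Type} [Fintype n] [DecidableEq n]

/-- Hermitian part -/
noncomputable def hermP (A : Matrix n n ℂ) : Matrix n n ℂ := (1 / 2 : ℝ) • (A + Aᴴ)

lemma hermP_herm (A : Matrix n n ℂ) : (hermP A).IsHermitian := by
  unfold hermP Matrix.IsHermitian
  rw [conjTranspose_smul, conjTranspose_add, conjTranspose_conjTranspose, add_comm]
  simp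

lemma hermP_eq {A : Matrix n n ℂ} (hA : A.IsHermitian) : hermP A = A := by
  unfold hermP
  rw [hA.eq, ← two_smul ℝ A, smul_smul]
  norm_num

lemma norm_hermP_sub (A B : Matrix n n ℂ) : ‖hermP A - hermP B‖ ≤ ‖A - B‖ := by
  have e : hermP A - hermP B = (1 / 2 : ℝ) • ((A - B) + (A - B)ᴴ) := by
    unfold hermP
    rw [← smul_sub, conjTranspose_sub]
    congr 1; abel
  rw [e, norm_smul]
  have := norm_add_le (A - B) (A - B)ᴴ
  rw [norm_ct] at this
  rw [Real.norm_eq_abs, abs_of_pos (by norm_num)]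
  linarith

lemma continuous_hermP : Continuous (hermP : Matrix n n ℂ → Matrix n n ℂ) := by
  have : LipschitzWith 1 (hermP : Matrix n n ℂ → Matrix n n ℂ) :=
    LipschitzWith.of_dist_le_mul fun A B => by
      simpa [dist_eq_norm] using norm_hermP_sub A B
  exact this.continuous

lemma continuous_fc_hermP {f : ℝ → ℝ} (hf : Continuous f) :
    Continuous fun A : Matrix n n ℂ => fc f (hermP A) := by
  rw [← continuousOn_univ]
  exact continuousOn_fc (S := univ) (f := fun _ => f) continuous_hermP.continuousOn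
    (fun A _ => hermP_herm A) (fun _ _ _ => mem_univ _) (hf.comp continuous_snd).continuousOn

/-- the scalar clipping function -/
noncomputable def clipR (s : ℝ) : ℝ := max (-1) (min s 1)

lemma abs_clipR_le (s : ℝ) : |clipR s| ≤ 1 := by
  unfold clipR
  rw [abs_le]
  exact ⟨le_max_left _ _, max_le (by norm_num) (min_le_right _ _)⟩

lemma clipR_lip (s t : ℝ) : |clipR s - clipR t| ≤ 1 * |s - t| := by
  unfold clipR
  rw [one_mul]
  have h1 := abs_max_sub_max_le_abs (min s 1) (min t 1) (-1)
  have h2 := abs_min_sub_min_le_max s 1 t 1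
  rw [max_comm (-1), max_comm (-1)]
  simp only [sub_self, abs_zero] at h2
  rw [max_eq_left (abs_nonneg _)] at h2
  exact h1.trans h2

/-- clipping the spectrum to `[-1, 1]` -/
noncomputable def clip (S : Matrix n n ℂ) : Matrix n n ℂ := fc clipR (hermP S)

lemma clip_ct (S : Matrix n n ℂ) : (clip S)ᴴ = clip S := fc_conjTranspose _ _

lemma opLe_clip (S : Matrix n n ℂ) : OpLe (clip S) 1 :=
  opLe_fc zero_le_one fun _ => abs_clipR_le _

lemma norm_clip_sub (S T : Matrix n n ℂ) : ‖clip S - clip T‖ ≤ ‖S - T‖ := by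
  have := norm_fc_sub_le (f := clipR) zero_le_one (hermP_herm S) (hermP_herm T)
    (fun _ _ => clipR_lip _ _)
  rw [one_mul] at this
  exact this.trans (norm_hermP_sub S T)

lemma norm_clip_mul_clip (S X : Matrix n n ℂ) : ‖clip S * X * clip S‖ ≤ ‖X‖ := by
  have h1 := (opLe_clip S).norm_mul_le' (clip S * X)
  have h2 := (opLe_clip S).norm_mul_le X
  linarith

lemma norm_sandwich_sub (K S T : Matrix n n ℂ) :
    ‖clip S * K * clip S - clip T * K * clip T‖ ≤ 2 * ‖K‖ * ‖S - T‖ := by
  have e : clip S * K * clip S - clip T * K * clip T =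
      (clip S - clip T) * K * clip S + clip T * (K * (clip S - clip T)) := by
    noncomm_ring
  rw [e]
  have h1 := (opLe_clip S).norm_mul_le' ((clip S - clip T) * K)
  have h2 := (opLe_clip T).norm_mul_le (K * (clip S - clip T))
  have h3 := norm_mul_le' (clip S - clip T) K
  have h4 := norm_mul_le' K (clip S - clip T)
  have h5 := mul_le_mul_of_nonneg_left (norm_clip_sub S T) (norm_nonneg K)
  have h6 := norm_add_le ((clip S - clip T) * K * clip S) (clip T * (K * (clip S - clip T)))
  nlinarith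

/-- `tr (P (K - c K c)) = 0` when `c P c = P` -/
lemma rtr_mul_field {P c K H : Matrix n n ℂ} (h : c * P * c = P) :
    rtr (P * (K - c * K * c - H)) = -rtr (P * H) := by
  have e : rtr (P * (c * K * c)) = rtr (P * K) := by
    rw [← Matrix.mul_assoc, rtr_mul_comm, ← Matrix.mul_assoc, ← Matrix.mul_assoc, h]
  rw [Matrix.mul_sub, Matrix.mul_sub, rtr_sub, rtr_sub, e]
  ring

/-- qualitative behaviour of the clipped flow -/
lemma clipped_flow {a b : ℝ} {K : Matrix n n ℂ} (hK : K.IsHermitian) {H S : ℝ → Matrix n n ℂ}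
    (hH : ∀ t ∈ Icc a b, (H t).PosSemidef) (hab : a ≤ b) (h0 : S a = 1)
    (hS : ∀ t ∈ Icc a b, HasDerivWithinAt S (K - clip (S t) * K * clip (S t) - H t) (Icc a b) t) :
    (∀ t ∈ Icc a b, (S t).IsHermitian) ∧ (∀ t ∈ Icc a b, (1 - S t).PosSemidef) ∧
      ((1 + S b).PosSemidef → ∀ t ∈ Icc a b, (1 + S t).PosSemidef ∧ clip (S t) = S t) := by
  have hh : ∀ t ∈ Icc a b, (S t).IsHermitian := by
    have hD : ∀ t ∈ Icc a b, HasDerivWithinAt (fun y => (S y)ᴴ - S y) 0 (Icc a b) t := by
      intro t ht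
      have := (hdw_ct (hS t ht)).sub (hS t ht)
      have e : (K - clip (S t) * K * clip (S t) - H t)ᴴ = K - clip (S t) * K * clip (S t) - H t := by
        simp only [conjTranspose_sub, conjTranspose_mul, clip_ct, hK.eq, (hH t ht).1.eq,
          Matrix.mul_assoc]
      rw [e, sub_self] at this
      exact this
    have hcst := constant_of_has_deriv_right_zero (f := fun y => (S y)ᴴ - S y) (a := a) (b := b)
      (fun t ht => (hD t ht).continuousWithinAt) (fun t ht => by
        refine (hD t ⟨ht.1, ht.2.le⟩).mono_of_mem_nhdsWithin ?_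
        exact mem_of_superset (Icc_mem_nhdsGE ht.2) (Icc_subset_Icc_left ht.1))
    intro t ht
    have := hcst t ht
    simp only [h0, conjTranspose_one, sub_self] at this
    exact sub_eq_zero.mp this
  have hup : ∀ t ∈ Icc a b, ∀ i, ev (S t) i ≤ 1 := by
    have hD : ∀ t ∈ Icc a b, HasDerivWithinAt (fun y => trf (fun s => (max (s - 1) 0) ^ 2) (S y))
        (rtr (fc (fun s => 2 * max (s - 1) 0) (S t) *
          (K - clip (S t) * K * clip (S t) - H t))) (Icc a b) t := by
      intro t ht
      refine hasDerivWithinAt_trf ht (hS t ht) hh fun j => ?_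
      simpa using (hasDerivAt_possq (ev (S t) j - 1)).comp_sub_const (ev (S t) j) 1
    have hle := sub_le_of_deriv_le (C := 0) hD (fun t ht => by
      rw [rtr_mul_field]
      · have := rtr_mul_nonneg (A := fc (fun s => 2 * max (s - 1) 0) (S t))
          (fc_psd fun i => by positivity) (hH t ht)
        linarith
      · unfold clip
        rw [hermP_eq (hh t ht), fc_mul, fc_mul]
        refine fc_congr fun i => ?_
        rcases le_total (ev (S t) i - 1) 0 with h | h
        · rw [max_eq_right h]; ring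
        · have : clipR (ev (S t) i) = 1 := by
            unfold clipR
            rw [min_eq_right (by linarith), max_eq_right (by norm_num)]
          rw [this]; ring)
    intro t ht i
    have h1 := hle a ⟨le_rfl, hab⟩ t ht ht.1
    have h2 : trf (fun s => (max (s - 1) 0) ^ 2) (S a) = 0 := by
      unfold trf
      refine Finset.sum_eq_zero fun j _ => ?_
      have : ev (S a) j ≤ 1 := ev_le_one (hh a ⟨le_rfl, hab⟩) (by
        rw [h0, sub_self]; exact PosSemidef.zero) j
      show (max (ev (S a) j - 1) 0) ^ 2 = 0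
      rw [max_eq_right (by linarith)]; ring
    rw [h2, zero_mul, sub_zero] at h1
    have h3 : (max (ev (S t) i - 1) 0) ^ 2 ≤ trf (fun s => (max (s - 1) 0) ^ 2) (S t) :=
      Finset.single_le_sum (f := fun i => (max (ev (S t) i - 1) 0) ^ 2)
        (fun j _ => sq_nonneg _) (Finset.mem_univ i)
    have h4 : max (ev (S t) i - 1) 0 = 0 := by
      have := sq_nonneg (max (ev (S t) i - 1) 0)
      exact pow_eq_zero_iff (two_ne_zero) |>.mp (by linarith)
    have := le_max_left (ev (S t) i - 1) 0
    linarith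
  refine ⟨hh, fun t ht => ?_, fun hb => ?_⟩
  · simpa using (ev_le_iff (hh t ht) 1).mp (hup t ht)
  have hlo : ∀ t ∈ Icc a b, ∀ i, -1 ≤ ev (S t) i := by
    have hD : ∀ t ∈ Icc a b, HasDerivWithinAt (fun y => trf (fun s => -(max (-s - 1) 0) ^ 2) (S y))
        (rtr (fc (fun s => 2 * max (-s - 1) 0) (S t) *
          (K - clip (S t) * K * clip (S t) - H t))) (Icc a b) t := by
      intro t ht
      refine hasDerivWithinAt_trf ht (hS t ht) hh fun j => ?_
      exact hasDerivAt_negsq _
    have hle := sub_le_of_deriv_le (C := 0) hD (fun t ht => by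
      rw [rtr_mul_field]
      · have := rtr_mul_nonneg (A := fc (fun s => 2 * max (-s - 1) 0) (S t))
          (fc_psd fun i => by positivity) (hH t ht)
        linarith
      · unfold clip
        rw [hermP_eq (hh t ht), fc_mul, fc_mul]
        refine fc_congr fun i => ?_
        rcases le_total (-ev (S t) i - 1) 0 with h | h
        · rw [max_eq_right h]; ring
        · have : clipR (ev (S t) i) = -1 := by
            unfold clipR
            rw [min_eq_left (by linarith), max_eq_left (by linarith)]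
          rw [this]; ring)
    intro t ht i
    have h1 := hle t ht b ⟨hab, le_rfl⟩ ht.2
    have h2 : trf (fun s => -(max (-s - 1) 0) ^ 2) (S b) = 0 := by
      unfold trf
      refine Finset.sum_eq_zero fun j _ => ?_
      have : -1 ≤ ev (S b) j := (le_ev_iff (hh b ⟨hab, le_rfl⟩) (-1)).mpr (by
        simpa [add_comm] using hb) j
      show -(max (-ev (S b) j - 1) 0) ^ 2 = 0
      rw [max_eq_right (by linarith)]; ring
    rw [h2, zero_mul, zero_sub] at h1
    have h3 : (max (-ev (S t) i - 1) 0) ^ 2 ≤ -trf (fun s => -(max (-s - 1) 0) ^ 2) (S t) := by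
      unfold trf
      rw [Finset.sum_neg_distrib, neg_neg]
      exact Finset.single_le_sum (f := fun i => (max (-ev (S t) i - 1) 0) ^ 2)
        (fun j _ => sq_nonneg _) (Finset.mem_univ i)
    have h4 : max (-ev (S t) i - 1) 0 = 0 := by
      have := sq_nonneg (max (-ev (S t) i - 1) 0)
      exact pow_eq_zero_iff (two_ne_zero) |>.mp (by linarith)
    have := le_max_left (-ev (S t) i - 1) 0
    linarith
  intro t ht
  refine ⟨?_, ?_⟩
  · simpa [add_comm] using (le_ev_iff (hh t ht) (-1)).mp (hlo t ht)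
  · unfold clip
    rw [hermP_eq (hh t ht)]
    conv_rhs => rw [← fc_id (hh t ht)]
    refine fc_congr fun i => ?_
    unfold clipR
    rw [min_eq_left (hup t ht i), max_eq_right (hlo t ht i)]

theorem exists_riccati {a b η B : ℝ} (hab : a ≤ b) (hη : 0 < η)
    (G : Matrix n n ℂ → ℝ → Matrix n n ℂ)
    (hGc : ContinuousOn (fun q : Matrix n n ℂ × ℝ => G q.1 q.2)
      ({K | (K - η • (1 : Matrix n n ℂ)).PosSemidef} ×ˢ Icc a b))
    (hGp : ∀ K : Matrix n n ℂ, (K - η • (1 : Matrix n n ℂ)).PosSemidef → ∀ x ∈ Icc a b,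
      (G K x).PosSemidef ∧ rtr (G K x) ≤ B) :
    ∃ (K : Matrix n n ℂ) (F : ℝ → Matrix n n ℂ), (K - η • (1 : Matrix n n ℂ)).PosSemidef ∧
      (∀ x ∈ Icc a b, HasDerivWithinAt F (Umat K (F x) - G K x) (Icc a b) x) ∧
      (∀ x ∈ Icc a b, (K - F x).PosSemidef ∧ (K + F x).PosSemidef) ∧
      F a = K ∧ F b = -K + (2 * η) • (1 : Matrix n n ℂ) := by
  set k : ℝ → ℝ := fun s => max s 0 + η with hk
  have kpos : ∀ s, 0 < k s := fun s => by have := le_max_right s 0; simp only [hk]; linarith
  have kc : Continuous k := by simp only [hk]; fun_prop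
  set Kh : Matrix n n ℂ → Matrix n n ℂ := fun A => fc k (hermP A) with hKh
  set R : Matrix n n ℂ → Matrix n n ℂ := fun A => fc (fun s => √(k s)) (hermP A) with hR
  set Ri : Matrix n n ℂ → Matrix n n ℂ := fun A => fc (fun s => (√(k s))⁻¹) (hermP A) with hRi
  have Khc : Continuous Kh := continuous_fc_hermP kc
  have Rc : Continuous R := continuous_fc_hermP kc.sqrt
  have Ric : Continuous Ri :=
    continuous_fc_hermP (kc.sqrt.inv₀ fun s => (Real.sqrt_pos.mpr (kpos s)).ne')
  have hRR : ∀ A, R A * R A = Kh A := fun A => by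
    simp only [hR, hKh, fc_mul]
    exact fc_congr fun i => Real.mul_self_sqrt (kpos _).le
  have hRRi : ∀ A, R A * Ri A = 1 := fun A => by
    simp only [hR, hRi, fc_mul]
    rw [← fc_one (hermP A)]
    exact fc_congr fun i => mul_inv_cancel₀ (Real.sqrt_pos.mpr (kpos _)).ne'
  have hRiR : ∀ A, Ri A * R A = 1 := fun A => by
    simp only [hR, hRi, fc_mul]
    rw [← fc_one (hermP A)]
    exact fc_congr fun i => inv_mul_cancel₀ (Real.sqrt_pos.mpr (kpos _)).ne'
  have hRh : ∀ A, (R A)ᴴ = R A := fun A => fc_conjTranspose _ _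
  have hRih : ∀ A, (Ri A)ᴴ = Ri A := fun A => fc_conjTranspose _ _
  have hKhh : ∀ A, (Kh A).IsHermitian := fun A => fc_herm _ _
  have hKe : ∀ A, Kh A - η • (1 : Matrix n n ℂ) = fc (fun s => max s 0) (hermP A) := fun A => by
    simp only [hKh]
    rw [← fc_const η (hermP A), fc_sub]
    exact fc_congr fun i => by simp [hk]
  have hKp : ∀ A, (Kh A - η • (1 : Matrix n n ℂ)).PosSemidef := fun A => by
    rw [hKe]; exact fc_psd fun i => le_max_right _ _
  set H : Matrix n n ℂ → ℝ → Matrix n n ℂ := fun A t => Ri A * G (Kh A) t * Ri A with hH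
  have hHp : ∀ A, ∀ t ∈ Icc a b, (H A t).PosSemidef := fun A t ht => by
    have := (hGp _ (hKp A) t ht).1.mul_mul_conjTranspose_same (Ri A)
    rwa [hRih] at this
  have hGc' : ContinuousOn (fun q : Matrix n n ℂ × ℝ => G (Kh q.1) q.2) (univ ×ˢ Icc a b) := by
    refine hGc.comp (f := fun q : Matrix n n ℂ × ℝ => (Kh q.1, q.2))
      ((Khc.comp continuous_fst).prodMk continuous_snd).continuousOn ?_
    intro q hq
    exact ⟨hKp _, hq.2⟩
  have hHc : ContinuousOn (fun q : Matrix n n ℂ × ℝ => H q.1 q.2) (univ ×ˢ Icc a b) :=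
    (((Ric.comp continuous_fst).continuousOn).mul hGc').mul (Ric.comp continuous_fst).continuousOn
  have hHc' : ∀ A, ContinuousOn (H A) (Icc a b) := fun A =>
    hHc.comp (f := fun t : ℝ => (A, t)) (by fun_prop) fun t ht => ⟨mem_univ _, ht⟩
  obtain ⟨S, hS, hSc⟩ := ode_param (P := Matrix n n ℂ) hab
    (fun A t S => Kh A - clip S * Kh A * clip S - H A t) (1 : Matrix n n ℂ)
    (fun A => ⟨⟨2 * ‖Kh A‖, by positivity⟩, fun t => LipschitzWith.of_dist_le_mul fun S T => by
      rw [dist_eq_norm, dist_eq_norm]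
      have e : Kh A - clip S * Kh A * clip S - H A t - (Kh A - clip T * Kh A * clip T - H A t) =
          -(clip S * Kh A * clip S - clip T * Kh A * clip T) := by abel
      rw [e, norm_neg]
      exact norm_sandwich_sub _ _ _⟩)
    (fun A S => continuousOn_const.sub (hHc' A))
    (fun A => by
      obtain ⟨M, hM⟩ := isCompact_Icc.exists_bound_of_continuousOn (hHc' A)
      refine ⟨2 * ‖Kh A‖ + M, fun t ht S => ?_⟩
      have h1 := norm_sub_le (Kh A - clip S * Kh A * clip S) (H A t)
      have h2 := norm_sub_le (Kh A) (clip S * Kh A * clip S)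
      have h3 := norm_clip_mul_clip S (Kh A)
      have h4 := hM t ht
      linarith)
    (fun A0 ε hε => by
      have e1 : ∀ᶠ A in 𝓝 A0, ‖Kh A - Kh A0‖ < ε / 3 := by
        have := Metric.tendsto_nhds.mp (Khc.tendsto A0) (ε / 3) (by positivity)
        simpa [dist_eq_norm] using this
      have e2 : ∀ᶠ A in 𝓝 A0, ∀ t ∈ Icc a b, ‖H A t - H A0 t‖ < ε / 3 := by
        obtain ⟨v, hv, hv'⟩ := IsCompact.mem_uniformity_of_prod (f := H) (q := A0) isCompact_Icc hHc
          (mem_univ _) (Metric.dist_mem_uniformity (show 0 < ε / 3 by positivity))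
        rw [nhdsWithin_univ] at hv
        filter_upwards [hv] with A hA t ht
        simpa [dist_eq_norm] using hv' A hA t ht
      filter_upwards [e1, e2] with A h1 h2 t ht S
      have e : Kh A - clip S * Kh A * clip S - H A t - (Kh A0 - clip S * Kh A0 * clip S - H A0 t) =
          (Kh A - Kh A0) - clip S * (Kh A - Kh A0) * clip S - (H A t - H A0 t) := by
        noncomm_ring
      rw [e]
      have h3 := norm_sub_le ((Kh A - Kh A0) - clip S * (Kh A - Kh A0) * clip S) (H A t - H A0 t)
      have h4 := norm_sub_le (Kh A - Kh A0) (clip S * (Kh A - Kh A0) * clip S)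
      have h5 := norm_clip_mul_clip S (Kh A - Kh A0)
      have h6 := h2 t ht
      linarith)
  have hflow := fun A => clipped_flow (hKhh A) (hHp A) hab (hS A).1 (hS A).2
  set F : Matrix n n ℂ → ℝ → Matrix n n ℂ := fun A t => R A * S A t * R A with hF
  have hFd : ∀ A, ∀ t ∈ Icc a b, HasDerivWithinAt (F A)
      (Kh A * Kh A - R A * clip (S A t) * Kh A * clip (S A t) * R A - G (Kh A) t) (Icc a b) t := by
    intro A t ht
    have h1 := hdw_mul (hdw_mul (hasDerivWithinAt_const t (Icc a b) (R A)) ((hS A).2 t ht))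
      (hasDerivWithinAt_const t (Icc a b) (R A))
    have e : R A * (Ri A * G (Kh A) t * Ri A) * R A = G (Kh A) t := by
      calc R A * (Ri A * G (Kh A) t * Ri A) * R A
          = (R A * Ri A) * G (Kh A) t * (Ri A * R A) := by simp only [Matrix.mul_assoc]
        _ = _ := by rw [hRRi, hRiR, Matrix.one_mul, Matrix.mul_one]
    have e2 : R A * Kh A * R A = Kh A * Kh A := by
      rw [← hRR A]; simp only [Matrix.mul_assoc]
    convert h1 using 1
    simp only [Matrix.zero_mul, Matrix.mul_zero, zero_add, add_zero, hH, Matrix.mul_sub,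
      Matrix.sub_mul, e, e2]
    simp only [Matrix.mul_assoc]
  have hFa : ∀ A, F A a = Kh A := fun A => by
    simp only [hF, (hS A).1, Matrix.mul_one, hRR]
  have hKF : ∀ A, ∀ t ∈ Icc a b, (Kh A - F A t).PosSemidef := by
    intro A t ht
    have := ((hflow A).2.1 t ht).mul_mul_conjTranspose_same (R A)
    rw [hRh, Matrix.mul_sub, Matrix.sub_mul, Matrix.mul_one, hRR] at this
    exact this
  have htr : ∀ A, rtr (Kh A - F A b) ≤ B * (b - a) := by
    intro A
    have hD : ∀ t ∈ Icc a b, HasDerivWithinAt (fun y => -rtr (F A y))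
        (-rtr (Kh A * Kh A - R A * clip (S A t) * Kh A * clip (S A t) * R A - G (Kh A) t))
        (Icc a b) t := fun t ht => (hdw_rtr (hFd A t ht)).neg
    have hle := sub_le_of_deriv_le (C := B) hD (fun t ht => by
      have h1 := (hGp _ (hKp A) t ht).2
      have h2 : rtr (R A * clip (S A t) * Kh A * clip (S A t) * R A) ≤ rtr (Kh A * Kh A) := by
        have e : rtr (R A * clip (S A t) * Kh A * clip (S A t) * R A) =
            rtr ((Kh A * clip (S A t)) * (Kh A * clip (S A t))) := by
          rw [rtr_mul_comm, ← hRR A]; simp only [Matrix.mul_assoc]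
        have h3 := abs_rtr_mul_le (Kh A * clip (S A t)) (Kh A * clip (S A t))
        have h4 := (opLe_clip (S A t)).norm_mul_le' (Kh A)
        have h5 := norm_sq_eq_rtr (Kh A)
        rw [(hKhh A).eq] at h5
        have h6 := le_abs_self (rtr ((Kh A * clip (S A t)) * (Kh A * clip (S A t))))
        have h7 := norm_nonneg (Kh A * clip (S A t))
        rw [e]
        nlinarith
      rw [rtr_sub, rtr_sub]
      linarith) a ⟨le_rfl, hab⟩ b ⟨hab, le_rfl⟩ hab
    rw [hFa] at hle
    rw [rtr_sub]
    linarith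
  have hθ : Continuous fun A => (1 / 2 : ℝ) • (Kh A - F A b) :=
    (Khc.sub ((Rc.mul hSc).mul Rc)).const_smul (1 / 2 : ℝ)
  obtain ⟨A, hA⟩ := exists_fixed_of_bounded (E := Matrix n n ℂ)
    (fun A => (1 / 2 : ℝ) • (Kh A - F A b)) hθ (1 / 2 * (B * (b - a))) (fun A => by
      rw [norm_smul, Real.norm_eq_abs, abs_of_pos (by norm_num)]
      exact mul_le_mul_of_nonneg_left ((norm_le_rtr (hKF A b ⟨hab, le_rfl⟩)).trans (htr A))
        (by norm_num))
  have hAp : A.PosSemidef := by
    rw [← hA]; exact psd_smul (hKF A b ⟨hab, le_rfl⟩) (by norm_num)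
  have hKA : Kh A - η • (1 : Matrix n n ℂ) = A := by
    rw [hKe, hermP_eq hAp.1]
    conv_rhs => rw [← fc_id hAp.1]
    exact fc_congr_psd hAp fun t ht => max_eq_left ht
  have hFb : F A b = -Kh A + (2 * η) • (1 : Matrix n n ℂ) := by
    have h1 : (2 : ℝ) • A = Kh A - F A b := by
      conv_lhs => rw [← hA]
      rw [smul_smul]; norm_num
    have h2 : F A b = Kh A - (2 : ℝ) • A := by rw [h1]; abel
    rw [h2]
    conv_lhs => rw [← hKA]
    rw [hKA, mul_smul]
    conv_lhs => rw [← hKA]
    rw [hKA]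
    have h3 : (2 : ℝ) • A = (2 : ℝ) • (Kh A - η • (1 : Matrix n n ℂ)) := by rw [hKA]
    rw [h3, smul_sub, two_smul, two_smul]
    abel
  have hSb : (1 + S A b).PosSemidef := by
    have h1 : (Kh A + F A b).PosSemidef := by
      rw [hFb, ← add_assoc, add_neg_cancel, zero_add]
      exact psd_smul PosSemidef.one (by positivity)
    have h2 := h1.mul_mul_conjTranspose_same (Ri A)
    have e : Ri A * (Kh A + F A b) * (Ri A)ᴴ = 1 + S A b := by
      rw [hRih, ← hRR A]
      calc Ri A * (R A * R A + R A * S A b * R A) * Ri A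
          = (Ri A * R A) * (R A * Ri A) + (Ri A * R A) * S A b * (R A * Ri A) := by
            noncomm_ring
        _ = _ := by rw [hRRi, hRiR]; simp
    rwa [e] at h2
  have hlo := (hflow A).2.2 hSb
  refine ⟨Kh A, F A, hKp A, fun t ht => ?_, fun t ht => ⟨hKF A t ht, ?_⟩, hFa A, hFb⟩
  · have h1 := hFd A t ht
    rw [(hlo t ht).2] at h1
    convert h1 using 2
    unfold Umat
    simp only [hF]
    rw [← hRR A]; simp only [Matrix.mul_assoc]
  · have := ((hlo t ht).1).mul_mul_conjTranspose_same (R A)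
    rw [hRh, Matrix.mul_add, Matrix.add_mul, Matrix.mul_one, hRR] at this
    exact this

end Crest.Agent.R332
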