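import Crest.Agent.R332.Approx

/-!
Row 332: consequences of near-saturation along a sequence `ε_i = (1/2)^i`.
-/

set_option autoImplicit false
set_option linter.unusedSectionVars false

open Matrix MeasureTheory Set Filter Topology Crest.Agent.R342
open scoped ComplexOrder Matrix.Norms.Frobenius

namespace Crest.Agent.R332

variable {m : ℕ} {W : ℝ → Matrix (Fin m) (Fin m) ℂ} {γ k : ℝ}

lemma BData.a_lt_b {ε : ℝ} (hε : 0 < ε) {N : ℕ} (D : BData W ε N) : D.a < D.b := by
  have h := inv_pos.2 hε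
  linarith [D.ha, D.hb]

lemma BData.A_psd {ε : ℝ} {N : ℕ} (D : BData W ε N) (x : ℝ) : (D.A x).PosSemidef :=
  (D.Wc_psd x).mul_mul_conjTranspose_same _

lemma BData.A_cont {ε : ℝ} {N : ℕ} (D : BData W ε N) : Continuous D.A :=
  (D.V_cont.matrix_mul D.Wc_cont).matrix_mul D.V_cont.matrix_conjTranspose

lemma BData.F_cont {ε : ℝ} {N : ℕ} (D : BData W ε N) : ContinuousOn D.F (Icc D.a D.b) :=
  fun x hx => (D.ode x hx).continuousWithinAt

lemma BData.norm_A_le {ε : ℝ} {N : ℕ} (D : BData W ε N) (x : ℝ) : ‖D.A x‖ ≤ ‖D.Wc x‖ := by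
  have h1 := (D.V_le x).ct.norm_mul_le' (D.V x * D.Wc x)
  have h2 := (D.V_le x).norm_mul_le (D.Wc x)
  unfold BData.A
  linarith

lemma Sat.adm {ε : ℝ} {N : ℕ} {D : BData W ε N} (h : Sat γ k D) {x : ℝ} (hx : x ∈ Icc D.a D.b) :
    Adm D.κ k (D.F x) :=
  ⟨D.κ_pos, h.κ_le, D.herm x hx, D.up x hx, D.lo x hx⟩

lemma BData.err1_cont {ε : ℝ} {N : ℕ} (D : BData W ε N) (r : ℝ) :
    ContinuousOn (fun x => err1 r D.K (D.F x) (D.A x)) (Icc D.a D.b) := by
  have hF := D.F_cont
  have hA := D.A_cont.continuousOn (s := Icc D.a D.b)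
  have h1 : ContinuousOn (fun x => D.K * D.K - D.F x * D.F x) (Icc D.a D.b) :=
    continuousOn_const.sub (hF.mul hF)
  have h2 : ContinuousOn (fun x => (r + 1) • (D.K * D.K - D.F x * D.F x)) (Icc D.a D.b) :=
    h1.const_smul (r + 1)
  have h3 : ContinuousOn (fun x => D.A x - (r + 1) • (D.K * D.K - D.F x * D.F x))
    (Icc D.a D.b) := hA.sub h2
  exact h3.norm

lemma BData.err2_cont {ε : ℝ} {N : ℕ} (D : BData W ε N) :
    ContinuousOn (fun x => err2 D.K (D.F x)) (Icc D.a D.b) := by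
  have hF := D.F_cont
  unfold err2 comm
  exact ((continuousOn_const.mul hF).sub (hF.mul continuousOn_const)).norm

lemma BData.defect_cont {ε : ℝ} {N : ℕ} (D : BData W ε N) (r : ℝ) :
    ContinuousOn (fun x => defect r D.K (D.F x) (D.A x)) (Icc D.a D.b) :=
  ((D.err1_cont r).inf ((D.err1_cont r).pow 2)).add (D.err2_cont.pow 2)

lemma min_sq_nonneg {e : ℝ} (he : 0 ≤ e) : 0 ≤ min e (e ^ 2) := le_min he (sq_nonneg _)

lemma defect_nonneg {n : Type} [Fintype n] [DecidableEq n] (r : ℝ) (K F A : Matrix n n ℂ) :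
    0 ≤ defect r K F A :=
  add_nonneg (min_sq_nonneg (norm_nonneg _)) (sq_nonneg _)

lemma le_add_min_sq {e θ : ℝ} (he : 0 ≤ e) (hθ : 0 < θ) :
    e ≤ θ + (1 + 1 / θ) * min e (e ^ 2) := by
  have h0 := min_sq_nonneg he
  have h1 : 0 < 1 / θ := by positivity
  rcases le_total e θ with h | h
  · nlinarith
  · rcases le_total e (e ^ 2) with h2 | h2
    · rw [min_eq_left h2]; nlinarith
    · rw [min_eq_right h2]
      have h3 : e ≤ 1 / θ * e ^ 2 := by
        rw [one_div, inv_mul_eq_div, le_div_iff₀ hθ]; nlinarith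
      nlinarith [sq_nonneg e]

lemma tendsto_of_le_min_sq {e g : ℕ → ℝ} (he : ∀ i, 0 ≤ e i) {c : ℝ} (hc : 0 ≤ c)
    (h : ∀ θ : ℝ, 0 < θ → ∀ᶠ i in atTop, e i ≤ c * θ + (1 + 1 / θ) * g i)
    (hg : Tendsto g atTop (𝓝 0)) : Tendsto e atTop (𝓝 0) := by
  rw [Metric.tendsto_atTop']
  intro η hη
  have hθ : 0 < η / (2 * (c + 1)) := by positivity
  have h1 : Tendsto (fun i => (1 + 1 / (η / (2 * (c + 1)))) * g i) atTop (𝓝 0) := by
    simpa using hg.const_mul (1 + 1 / (η / (2 * (c + 1))))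
  have h2 := (h _ hθ).and (h1.eventually (gt_mem_nhds (half_pos hη)))
  obtain ⟨M, hM⟩ := eventually_atTop.1 h2
  refine ⟨M, fun n hn => ?_⟩
  obtain ⟨h3, h4⟩ := hM n hn.le
  rw [Real.dist_eq, sub_zero, abs_of_nonneg (he n)]
  have h5 : c * (η / (2 * (c + 1))) ≤ η / 2 := by
    rw [mul_div_assoc', div_le_div_iff₀ (by positivity) (by positivity)]; nlinarith
  linarith

lemma half_pow_pos (i : ℕ) : (0 : ℝ) < (1 / 2) ^ i := by positivity

lemma tendsto_half_pow : Tendsto (fun i : ℕ => (1 / 2 : ℝ) ^ i) atTop (𝓝 0) :=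
  tendsto_pow_atTop_nhds_zero_of_lt_one (by norm_num) (by norm_num)

lemma tendsto_half_pow_inv : Tendsto (fun i : ℕ => ((1 / 2 : ℝ) ^ i)⁻¹) atTop atTop := by
  simp only [one_div, inv_pow, inv_inv]
  exact tendsto_pow_atTop_atTop_of_one_lt (by norm_num)

lemma BData.close_intble {ε : ℝ} {N : ℕ} (D : BData W ε N) {p : ℝ} (hW : Pot p W) (hp : 1 ≤ p)
    (hp2 : p ≤ 2) (a b : ℝ) : IntervalIntegrable (fun x => ‖W x - D.Wc x‖) volume a b :=
  ((hW.intervalIntegrable hp hp2 a b).sub (D.Wc_cont.intervalIntegrable a b)).norm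

variable {N : ℕ → ℕ} (D : ∀ i : ℕ, BData W ((1 / 2 : ℝ) ^ i) (N i))

theorem seq_a : Tendsto (fun i => (D i).a) atTop atBot :=
  tendsto_atBot_mono (fun i => (D i).ha) (tendsto_neg_atTop_atBot.comp tendsto_half_pow_inv)

theorem seq_b : Tendsto (fun i => (D i).b) atTop atTop :=
  tendsto_atTop_mono (fun i => (D i).hb) tendsto_half_pow_inv

theorem seq_η : Tendsto (fun i => (D i).η) atTop (𝓝 0) := by
  refine squeeze_zero (fun i => (D i).η_pos.le) (fun i => ?_) tendsto_half_pow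
  have h1 := (D i).η_le
  have h2 := (D i).η_pos
  have h3 : (0 : ℝ) ≤ N i := Nat.cast_nonneg _
  nlinarith

lemma seq_mem (x : ℝ) : ∀ᶠ i in atTop, x ∈ Icc (D i).a (D i).b :=
  ((seq_a D).eventually (eventually_le_atBot x)).and ((seq_b D).eventually (eventually_ge_atTop x))

theorem seq_ae (hγ : 1 / 2 < γ) (hγ' : γ < 3 / 2) (hW : Pot (γ + 1 / 2) W)
    (hS : ∀ i, Sat γ k (D i)) :
    ∀ᵐ x : ℝ, Tendsto (fun i => (D i).Wc x) atTop (𝓝 (W x)) ∧
      Tendsto (fun i => err1 (γ - 1 / 2)⁻¹ (D i).K ((D i).F x) ((D i).A x)) atTop (𝓝 0) ∧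
      Tendsto (fun i => err2 (D i).K ((D i).F x)) atTop (𝓝 0) ∧
      Tendsto (fun i => trp (γ + 1 / 2) ((D i).A x)) atTop (𝓝 (trp (γ + 1 / 2) (W x))) := by
  have hp : 1 ≤ γ + 1 / 2 := by linarith
  have hp2 : γ + 1 / 2 ≤ 2 := by linarith
  have hp0 : 0 < γ + 1 / 2 := by linarith
  have hab : ∀ i, (D i).a ≤ (D i).b := fun i => ((D i).a_lt_b (half_pow_pos i)).le
  have hsum : Summable fun i : ℕ => (1 / 2 : ℝ) ^ i := summable_geometric_two
  have h1 := ae_tendsto_zero_of_summable (g := fun i x => ‖W x - (D i).Wc x‖) (seq_a D) (seq_b D)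
    hab (fun i x _ => norm_nonneg _) (fun i => (D i).close_intble hW hp hp2 _ _)
    (fun i => (D i).Wc_close) hsum
  have h2 := ae_tendsto_zero_of_summable
    (g := fun i x => defect (γ - 1 / 2)⁻¹ (D i).K ((D i).F x) ((D i).A x)) (seq_a D) (seq_b D)
    hab (fun i x _ => defect_nonneg _ _ _ _)
    (fun i => ((D i).defect_cont _).intervalIntegrable_of_Icc (hab i))
    (fun i => (hS i).def1) hsum
  have h3 := ae_tendsto_zero_of_summable
    (g := fun i x => trp (γ + 1 / 2) ((D i).Wc x) - trp (γ + 1 / 2) ((D i).A x))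
    (seq_a D) (seq_b D) hab
    (fun i x _ => sub_nonneg.2 (trp_compress_le hp ((D i).V_le x) ((D i).Wc_psd x)))
    (fun i => ((continuousOn_trp hp0 (D i).Wc_cont.continuousOn
      (fun x _ => ((D i).Wc_psd x).1)).sub (continuousOn_trp hp0 (D i).A_cont.continuousOn
      (fun x _ => ((D i).A_psd x).1))).intervalIntegrable_of_Icc (hab i))
    (fun i => (hS i).def2) hsum
  filter_upwards [h1, h2, h3] with x a1 a2 a3
  have b1 : Tendsto (fun i => (D i).Wc x) atTop (𝓝 (W x)) := by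
    refine tendsto_iff_norm_sub_tendsto_zero.2 ?_
    simpa only [norm_sub_rev] using a1
  refine ⟨b1, ?_, ?_, ?_⟩
  · refine tendsto_of_le_min_sq (fun i => norm_nonneg _) zero_le_one (fun θ hθ => ?_) a2
    refine Eventually.of_forall fun i => ?_
    refine (le_add_min_sq (norm_nonneg _) hθ).trans ?_
    rw [one_mul]
    gcongr
    exact le_add_of_nonneg_right (sq_nonneg _)
  · have b2 : Tendsto (fun i => err2 (D i).K ((D i).F x) ^ 2) atTop (𝓝 0) :=
      squeeze_zero (fun i => sq_nonneg _)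
        (fun i => le_add_of_nonneg_left (min_sq_nonneg (norm_nonneg _))) a2
    have b3 := b2.sqrt
    rw [Real.sqrt_zero] at b3
    refine b3.congr fun i => Real.sqrt_sq (norm_nonneg _)
  · have b4 := (tendsto_trp hp0 b1 (Eventually.of_forall fun i => ((D i).Wc_psd x).1)
      (hW.psd x).1).sub a3
    simpa using b4

theorem seq_err1 (hS : ∀ i, Sat γ k (D i)) (R : ℝ) (hR : 0 < R) :
    Tendsto (fun i => ∫ x in (-R)..R, err1 (γ - 1 / 2)⁻¹ (D i).K ((D i).F x) ((D i).A x))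
      atTop (𝓝 0) := by
  refine tendsto_of_le_min_sq (c := 2 * R) (fun i => intervalIntegral.integral_nonneg
    (by linarith) fun x _ => norm_nonneg _) (by positivity) (fun θ hθ => ?_) tendsto_half_pow
  filter_upwards [seq_mem D R, seq_mem D (-R)] with i h1 h2
  have hsub : Icc (-R) R ⊆ Icc (D i).a (D i).b := Icc_subset_Icc h2.1 h1.2
  have hR' : -R ≤ R := by linarith
  have hd := (((D i).defect_cont (γ - 1 / 2)⁻¹).mono hsub).intervalIntegrable_of_Icc
    (μ := volume) hR'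
  have h3 : ∫ x in (-R)..R, defect (γ - 1 / 2)⁻¹ (D i).K ((D i).F x) ((D i).A x)
      ≤ (1 / 2 : ℝ) ^ i := by
    refine le_trans ?_ (hS i).def1
    exact intervalIntegral.integral_mono_interval h2.1 hR' h1.2
      (Eventually.of_forall fun x => defect_nonneg _ _ _ _)
      (((D i).defect_cont _).intervalIntegrable_of_Icc (h2.1.trans h2.2))
  calc _ ≤ ∫ x in (-R)..R, (θ + (1 + 1 / θ) *
        defect (γ - 1 / 2)⁻¹ (D i).K ((D i).F x) ((D i).A x)) := by
        refine intervalIntegral.integral_mono_on hR'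
          ((((D i).err1_cont _).mono hsub).intervalIntegrable_of_Icc hR')
          (intervalIntegrable_const.add (hd.const_mul _)) fun x _ => ?_
        refine (le_add_min_sq (norm_nonneg _) hθ).trans ?_
        gcongr
        exact le_add_of_nonneg_right (sq_nonneg _)
    _ = 2 * R * θ + (1 + 1 / θ) *
        ∫ x in (-R)..R, defect (γ - 1 / 2)⁻¹ (D i).K ((D i).F x) ((D i).A x) := by
        rw [intervalIntegral.integral_add intervalIntegrable_const (hd.const_mul _),
          intervalIntegral.integral_const, intervalIntegral.integral_const_mul, smul_eq_mul]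
        ring
    _ ≤ _ := by gcongr

theorem seq_err2 (hS : ∀ i, Sat γ k (D i)) (i : ℕ) :
    (∫ x in (D i).a..(D i).b, err2 (D i).K ((D i).F x) ^ 2) ≤ (1 / 2 : ℝ) ^ i := by
  have hab : (D i).a ≤ (D i).b := ((D i).a_lt_b (half_pow_pos i)).le
  refine le_trans ?_ (hS i).def1
  exact intervalIntegral.integral_mono_on hab
    (((D i).err2_cont.pow 2).intervalIntegrable_of_Icc hab)
    (((D i).defect_cont _).intervalIntegrable_of_Icc hab)
    fun x _ => le_add_of_nonneg_left (min_sq_nonneg (norm_nonneg _))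

lemma BData.excess_le {ε : ℝ} {N : ℕ} (D : BData W ε N) {p : ℝ} (hW : Pot p W) (hp : 1 ≤ p)
    (hp2 : p ≤ 2) {c : ℝ} (hc : 0 < c) {u v : ℝ} (hu : D.a ≤ u) (huv : u ≤ v) (hv : v ≤ D.b) :
    (∫ x in u..v, max (‖D.A x‖ - c) 0) ≤ (∫ x in u..v, max (‖W x‖ - c) 0) + ε := by
  have h1 := (hW.integrable_excess hp hp2 hc).intervalIntegrable (a := u) (b := v)
  have h2 := D.close_intble hW hp hp2 u v
  have h3 : ∫ x in u..v, ‖W x - D.Wc x‖ ≤ ε := by
    refine le_trans ?_ D.Wc_close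
    exact intervalIntegral.integral_mono_interval hu huv hv
      (Eventually.of_forall fun x => norm_nonneg _) (D.close_intble hW hp hp2 _ _)
  have h4 : Continuous fun x => max (‖D.A x‖ - c) 0 :=
    (D.A_cont.norm.sub continuous_const).max continuous_const
  calc _ ≤ ∫ x in u..v, (max (‖W x‖ - c) 0 + ‖W x - D.Wc x‖) := by
        refine intervalIntegral.integral_mono_on huv (h4.intervalIntegrable _ _) (h1.add h2)
          fun x _ => ?_
        have a1 := D.norm_A_le x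
        have a2 : ‖D.Wc x‖ ≤ ‖W x‖ + ‖W x - D.Wc x‖ := by
          simpa using norm_sub_le (W x) (W x - D.Wc x)
        refine max_le ?_ (add_nonneg (le_max_right _ _) (norm_nonneg _))
        linarith [le_max_left (‖W x‖ - c) 0]
    _ = _ := intervalIntegral.integral_add h1 h2
    _ ≤ _ := by gcongr

theorem seq_tail (hγ : 1 / 2 < γ) (hγ' : γ < 3 / 2) (hW : Pot (γ + 1 / 2) W) (c ε : ℝ)
    (hc : 0 < c) (hε : 0 < ε) : ∃ R : ℝ, 0 < R ∧ ∀ᶠ i in atTop,
      (∫ x in R..(D i).b, max (‖(D i).A x‖ - c) 0) ≤ ε ∧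
        (∫ x in (D i).a..(-R), max (‖(D i).A x‖ - c) 0) ≤ ε := by
  have hp : 1 ≤ γ + 1 / 2 := by linarith
  have hp2 : γ + 1 / 2 ≤ 2 := by linarith
  obtain ⟨R, hR, h⟩ := hW.tail_excess hp hp2 hc (half_pos hε)
  refine ⟨R, hR, ?_⟩
  filter_upwards [seq_mem D R, seq_mem D (-R),
    tendsto_half_pow.eventually (ge_mem_nhds (half_pos hε))] with i h1 h2 h3
  constructor
  · have := (D i).excess_le hW hp hp2 hc h1.1 h1.2 le_rfl
    linarith [(h _ h1.2).1]
  · have a1 := (D i).excess_le hW hp hp2 hc le_rfl h2.1 h2.2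
    have a2 := (h (-(D i).a) (by linarith [h2.1])).2
    rw [neg_neg] at a2
    linarith

end Crest.Agent.R332
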