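import Crest.Agent.R332.Scalar
import Crest.Agent.R332.Mat

/-!
Row 332: soliton sums saturate the inequality.
-/

set_option autoImplicit false
set_option linter.unusedSectionVars false

open Matrix MeasureTheory Set Filter Topology Crest.Agent.R342
open scoped ComplexOrder Matrix.Norms.Frobenius ContDiff

namespace Crest.Agent.R332

open Crest.MathPhysics.LiebThirring

namespace Sol

/-- ground state of the one-soliton potential -/
noncomputable def psi (r a c x : ℝ) : ℝ :=
  Real.exp (-(r⁻¹ * Real.log (Real.cosh (r * a * (x - c)))))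

/-- logarithmic derivative of the ground state, up to sign -/
noncomputable def hh (r a c x : ℝ) : ℝ :=
  a * Real.sinh (r * a * (x - c)) / Real.cosh (r * a * (x - c))

lemma psi_pos (r a c x : ℝ) : 0 < psi r a c x := Real.exp_pos _

lemma psi_le_one {r : ℝ} (hr : 0 < r) (a c x : ℝ) : psi r a c x ≤ 1 := by
  unfold psi
  rw [Real.exp_le_one_iff, neg_nonpos]
  exact mul_nonneg (inv_nonneg.2 hr.le) (Real.log_nonneg (Real.one_le_cosh _))

lemma contDiff_psi (r a c : ℝ) : ContDiff ℝ ∞ (psi r a c) := by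
  unfold psi
  refine Real.contDiff_exp.comp (ContDiff.neg (contDiff_const.mul (ContDiff.log ?_ ?_)))
  · exact Real.contDiff_cosh.comp (contDiff_const.mul (contDiff_id.sub contDiff_const))
  · exact fun x => (Real.cosh_pos _).ne'

lemma hasDerivAt_lin (r a c x : ℝ) : HasDerivAt (fun x => r * a * (x - c)) (r * a) x := by
  simpa using ((hasDerivAt_id x).sub_const c).const_mul (r * a)

lemma hasDerivAt_psi {r : ℝ} (hr : 0 < r) (a c x : ℝ) :
    HasDerivAt (psi r a c) (-(hh r a c x) * psi r a c x) x := by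
  have h1 := ((((hasDerivAt_lin r a c x).cosh).log (Real.cosh_pos _).ne').const_mul r⁻¹).neg.exp
  refine HasDerivAt.congr_deriv (f := psi r a c) h1 ?_
  unfold hh psi
  have := (Real.cosh_pos (r * a * (x - c))).ne'
  simp only [Pi.neg_apply]
  field_simp

lemma hasDerivAt_hh (r a c x : ℝ) :
    HasDerivAt (hh r a c) (soliton r a c x - a ^ 2 + hh r a c x ^ 2) x := by
  have h1 := (((hasDerivAt_lin r a c x).sinh).const_mul a).div ((hasDerivAt_lin r a c x).cosh)
    (Real.cosh_pos _).ne'
  refine HasDerivAt.congr_deriv (f := hh r a c) h1 ?_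
  unfold hh soliton
  have h2 := (Real.cosh_pos (r * a * (x - c))).ne'
  have h3 := Real.cosh_sq (r * a * (x - c))
  generalize Real.cosh (r * a * (x - c)) = C at *
  generalize Real.sinh (r * a * (x - c)) = S at *
  field_simp
  linear_combination ((r + 1) * a ^ 2) * h3

lemma continuous_hh (r a c : ℝ) : Continuous (hh r a c) :=
  continuous_iff_continuousAt.2 fun x => (hasDerivAt_hh r a c x).continuousAt

lemma continuous_soliton (r a c : ℝ) : Continuous (soliton r a c) := by
  unfold soliton
  refine Continuous.div continuous_const (by fun_prop) fun x => ?_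
  exact pow_ne_zero _ (Real.cosh_pos _).ne'

/-- ground state substitution -/
lemma energy_eq (r a c : ℝ) {g : ℝ → ℝ} (hg : ContDiff ℝ ∞ g) (hs : HasCompactSupport g) :
    ∫ x, (deriv g x ^ 2 - soliton r a c x * g x ^ 2)
      = (∫ x, (deriv g x + hh r a c x * g x) ^ 2) - a ^ 2 * ∫ x, g x ^ 2 := by
  have hgc : Continuous g := hg.continuous
  have hg' : Continuous (deriv g) := hg.continuous_deriv (by simp)
  have hd : ∀ x, HasDerivAt g (deriv g x) x := fun x =>
    (hg.differentiable (by simp) x).hasDerivAt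
  have hs' : HasCompactSupport (deriv g) := hs.deriv
  have hhc := continuous_hh r a c
  have hsc := continuous_soliton r a c
  have hs2 : HasCompactSupport (fun x => g x ^ 2) := by
    simp_rw [sq]; exact hs.mul_left
  have hi1 : Integrable (fun x => (deriv g x + hh r a c x * g x) ^ 2) := by
    refine Continuous.integrable_of_hasCompactSupport (by fun_prop) ?_
    simp_rw [sq]
    exact HasCompactSupport.mul_left (hs'.add hs.mul_left)
  have hi2 : Integrable (fun x => g x ^ 2) :=
    Continuous.integrable_of_hasCompactSupport (by fun_prop) hs2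
  let D : ℝ → ℝ := fun x => (soliton r a c x - a ^ 2 + hh r a c x ^ 2) * g x ^ 2
    + hh r a c x * (2 * g x * deriv g x)
  have hD : ∀ x, HasDerivAt (fun x => hh r a c x * g x ^ 2) (D x) x := by
    intro x
    have := (hasDerivAt_hh r a c x).mul ((hd x).pow 2)
    refine HasDerivAt.congr_deriv (f := fun x => hh r a c x * g x ^ 2) this ?_
    simp [D]
  have hi3 : Integrable D := by
    refine Continuous.integrable_of_hasCompactSupport (by simp only [D]; fun_prop) ?_
    exact HasCompactSupport.add hs2.mul_left (HasCompactSupport.mul_left hs'.mul_left)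
  have hi4 : Integrable (fun x => hh r a c x * g x ^ 2) :=
    Continuous.integrable_of_hasCompactSupport (by fun_prop) hs2.mul_left
  have hD0 : ∫ x, D x = 0 := integral_eq_zero_of_hasDerivAt_of_integrable hD hi3 hi4
  have e : (fun x => deriv g x ^ 2 - soliton r a c x * g x ^ 2)
      = fun x => ((deriv g x + hh r a c x * g x) ^ 2 - a ^ 2 * g x ^ 2) - D x := by
    funext x; simp only [D]; ring
  have hi5 : Integrable (fun x => (deriv g x + hh r a c x * g x) ^ 2 - a ^ 2 * g x ^ 2) :=
    hi1.sub (hi2.const_mul _)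
  rw [e, integral_sub hi5 hi3, integral_sub hi1 (hi2.const_mul _),
    integral_const_mul, hD0, sub_zero]

lemma scalar_trial {r : ℝ} (hr : 0 < r) (a c : ℝ) {δ : ℝ} (hδ : 0 < δ) :
    ∃ g : ℝ → ℝ, ContDiff ℝ ∞ g ∧ HasCompactSupport g ∧ ∫ x, g x ^ 2 = 1 ∧
      ∫ x, (deriv g x ^ 2 - soliton r a c x * g x ^ 2) ≤ -a ^ 2 + δ := by
  let χ : ContDiffBump (0 : ℝ) := ⟨1, 2, by norm_num, by norm_num⟩
  have hχ : ContDiff ℝ ∞ χ := χ.contDiff
  have hχ' : Continuous (deriv χ) := hχ.continuous_deriv (by simp)
  have hχs : HasCompactSupport (deriv χ) := χ.hasCompactSupport.deriv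
  have hψ := contDiff_psi r a c
  have hψc : Continuous (psi r a c) := hψ.continuous
  set M : ℝ := ∫ x, deriv χ x ^ 2 with hM
  have hM0 : 0 ≤ M := integral_nonneg fun x => sq_nonneg _
  set c0 : ℝ := ∫ x in (-1 : ℝ)..1, psi r a c x ^ 2 with hc0
  have hc0p : 0 < c0 := intervalIntegral.intervalIntegral_pos_of_pos
    (Continuous.intervalIntegrable (by fun_prop) _ _) (fun x => pow_pos (psi_pos r a c x) 2)
    (by norm_num)
  set R : ℝ := 1 + M / (δ * c0) with hR
  have hR1 : 1 ≤ R := by
    have : 0 ≤ M / (δ * c0) := by positivity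
    linarith
  have hR0 : 0 < R := by linarith
  let f : ℝ → ℝ := fun x => χ (x / R) * psi r a c x
  have hf : ContDiff ℝ ∞ f := (hχ.comp (contDiff_id.div_const R)).mul hψ
  have hχR : HasCompactSupport (fun x => χ (x / R)) := by
    have := χ.hasCompactSupport.comp_smul (c := R⁻¹) (inv_ne_zero hR0.ne')
    simpa [div_eq_inv_mul] using this
  have hχR' : HasCompactSupport (fun x => deriv χ (x / R)) := by
    have := hχs.comp_smul (c := R⁻¹) (inv_ne_zero hR0.ne')
    simpa [div_eq_inv_mul] using this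
  have hfs : HasCompactSupport f := hχR.mul_right
  have hfc : Continuous f := hf.continuous
  have hfd : ∀ x, HasDerivAt f (deriv χ (x / R) / R * psi r a c x
      + χ (x / R) * (-(hh r a c x) * psi r a c x)) x := by
    intro x
    have h1 : HasDerivAt (fun x => χ (x / R)) (deriv χ (x / R) * (1 / R)) x :=
      HasDerivAt.comp (h₂ := χ) (h := fun x => x / R) x
        ((hχ.differentiable (by simp) (x / R)).hasDerivAt) ((hasDerivAt_id x).div_const R)
    have := h1.mul (hasDerivAt_psi hr a c x)
    refine HasDerivAt.congr_deriv (f := f) this ?_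
    ring
  have hi2 : Integrable (fun x => f x ^ 2) := by
    refine Continuous.integrable_of_hasCompactSupport (by fun_prop) ?_
    simp_rw [sq]; exact hfs.mul_left
  set Z : ℝ := ∫ x, f x ^ 2 with hZ
  have hZc : c0 ≤ Z := by
    have h1 : c0 = ∫ x in Ioc (-1 : ℝ) 1, f x ^ 2 := by
      rw [hc0, intervalIntegral.integral_of_le (by norm_num)]
      refine setIntegral_congr_fun measurableSet_Ioc fun x hx => ?_
      have : χ (x / R) = 1 := by
        refine χ.one_of_mem_closedBall ?_
        simp only [Metric.mem_closedBall, dist_zero_right, Real.norm_eq_abs, χ]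
        rw [abs_div, abs_of_pos hR0, div_le_one hR0]
        exact le_trans (abs_le.2 ⟨hx.1.le, hx.2⟩) hR1
      simp only [f, this, one_mul]
    rw [h1]
    exact setIntegral_le_integral hi2 (Eventually.of_forall fun x => sq_nonneg _)
  have hZ0 : 0 < Z := lt_of_lt_of_le hc0p hZc
  have hnum : ∫ x, (deriv f x + hh r a c x * f x) ^ 2 ≤ δ * Z := by
    have h1 : ∫ x, (deriv f x + hh r a c x * f x) ^ 2
        ≤ ∫ x, (R⁻¹) ^ 2 * (fun y => deriv χ y ^ 2) (x / R) := by
      refine integral_mono_of_nonneg (Eventually.of_forall fun x => sq_nonneg _) ?_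
        (Eventually.of_forall fun x => ?_)
      · refine Integrable.const_mul ?_ _
        refine Continuous.integrable_of_hasCompactSupport (by fun_prop) ?_
        simp_rw [sq]; exact hχR'.mul_left
      · simp only
        rw [(hfd x).deriv]
        have e : deriv χ (x / R) / R * psi r a c x + χ (x / R) * (-(hh r a c x) * psi r a c x)
            + hh r a c x * f x = (R⁻¹ * deriv χ (x / R)) * psi r a c x := by
          simp only [f]; field_simp; ring
        rw [e, mul_pow, mul_pow]
        refine mul_le_of_le_one_right (by positivity) ?_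
        exact pow_le_one₀ (psi_pos r a c x).le (psi_le_one hr a c x)
    rw [integral_const_mul, Measure.integral_comp_div (fun y => deriv χ y ^ 2) R, ← hM,
      abs_of_pos hR0, smul_eq_mul] at h1
    refine h1.trans ?_
    have h2 : R⁻¹ ^ 2 * (R * M) = M / R := by field_simp
    rw [h2, div_le_iff₀ hR0]
    have h3 : δ * c0 * R = δ * c0 + M := by rw [hR]; field_simp
    have h4 : δ * c0 * R ≤ δ * Z * R := by gcongr
    nlinarith [mul_pos hδ hc0p]
  have hE := energy_eq r a c hf hfs
  let s : ℝ := (√Z)⁻¹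
  have hs2 : s ^ 2 = Z⁻¹ := by simp only [s]; rw [inv_pow, Real.sq_sqrt hZ0.le]
  refine ⟨fun x => s * f x, contDiff_const.mul hf, hfs.mul_left, ?_, ?_⟩
  · simp_rw [mul_pow]
    rw [integral_const_mul, hs2, ← hZ]; field_simp
  · have e : (fun x => deriv (fun x => s * f x) x ^ 2 - soliton r a c x * (s * f x) ^ 2)
        = fun x => s ^ 2 * (deriv f x ^ 2 - soliton r a c x * f x ^ 2) := by
      funext x
      rw [deriv_const_mul_field']
      ring
    rw [e, integral_const_mul, hE, hs2, ← hZ, ← div_eq_inv_mul, div_le_iff₀ hZ0]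
    linarith

end Sol

theorem soliton_saturates {γ : ℝ} (hγ : 1 / 2 < γ) (hγ' : γ < 3 / 2) {m : ℕ}
    (W : ℝ → Matrix (Fin m) (Fin m) ℂ)
    (U : Matrix.unitaryGroup (Fin m) ℂ) (a c : Fin m → ℝ) (ha : ∀ i, 0 ≤ a i)
    (hW : ∀ᵐ x : ℝ, W x = (U : Matrix (Fin m) (Fin m) ℂ) *
      Matrix.diagonal (fun i => ((soliton (γ - 1 / 2)⁻¹ (a i) (c i) x : ℝ) : ℂ)) *
        star (U : Matrix (Fin m) (Fin m) ℂ)) (ε : ℝ) (hε : 0 < ε) :
    ∃ (n : ℕ) (φ : Fin n → ℝ → Vec m), IsTrialFamily φ ∧
      sharpConst γ * (∫ x, tracePow (W x) (γ + 1 / 2)) - ε < negMoment (energyMatrix W φ) γ := by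
  set r : ℝ := (γ - 1 / 2)⁻¹ with hr
  have hr0 : 0 < r := inv_pos.2 (by linarith)
  have hγ0 : 0 < γ := by linarith
  have hU1 : (U : Matrix (Fin m) (Fin m) ℂ)ᴴ * U = 1 := U.2.1
  have hU2 : (U : Matrix (Fin m) (Fin m) ℂ) * (U : Matrix (Fin m) (Fin m) ℂ)ᴴ = 1 := U.2.2
  -- the left-hand side
  have hL : sharpConst γ * (∫ x, tracePow (W x) (γ + 1 / 2)) = ∑ i, a i ^ (2 * γ) := by
    have h1 : ∫ x, tracePow (W x) (γ + 1 / 2)
        = ∫ x, ∑ i, soliton r (a i) (c i) x ^ (γ + 1 / 2) := by
      refine integral_congr_ae (hW.mono fun x hx => ?_)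
      have e : W x = (U : Matrix (Fin m) (Fin m) ℂ) * rdiag (fun i => soliton r (a i) (c i) x)
          * (U : Matrix (Fin m) (Fin m) ℂ)ᴴ := hx
      simp only
      rw [e, tracePow_eq (herm_conj (rdiag_herm _))]
      unfold trp
      rw [trf_conj _ hU1 hU2 (rdiag_herm _), trf_rdiag]
    rw [h1, integral_finsetSum _ (fun i _ => soliton_integrable hγ (ha i) (c i)), Finset.mul_sum]
    exact Finset.sum_congr rfl fun i _ => soliton_integral hγ (ha i) (c i)
  -- choice of the error
  have hcont : ContinuousAt (fun δ : ℝ => ∑ i, (max (a i ^ 2 - δ) 0) ^ γ) 0 := by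
    refine Continuous.continuousAt (continuous_finsetSum _ fun i _ => ?_)
    exact Continuous.rpow_const (by fun_prop) fun _ => Or.inr hγ0.le
  have hval : ∑ i, (max (a i ^ 2 - 0) 0) ^ γ = ∑ i, a i ^ (2 * γ) := by
    refine Finset.sum_congr rfl fun i _ => ?_
    rw [sub_zero, max_eq_left (sq_nonneg _), Real.rpow_mul (ha i), Real.rpow_two]
  obtain ⟨δ, hδ1, hδ0⟩ : ∃ δ : ℝ, (∑ i, a i ^ (2 * γ)) - ε < ∑ i, (max (a i ^ 2 - δ) 0) ^ γ
      ∧ 0 < δ := by
    have h1 : ∀ᶠ δ in 𝓝 (0 : ℝ), (∑ i, a i ^ (2 * γ)) - ε < ∑ i, (max (a i ^ 2 - δ) 0) ^ γ :=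
      hcont.eventually (lt_mem_nhds (by simp only; rw [hval]; linarith))
    exact ((h1.filter_mono nhdsWithin_le_nhds).and (self_mem_nhdsWithin (s := Ioi 0))).exists
  choose g hg1 hg2 hg3 hg4 using fun i => Sol.scalar_trial hr0 (a i) (c i) hδ0
  let u : Fin m → Vec m := fun i => WithLp.toLp 2 (fun k => (U : Matrix (Fin m) (Fin m) ℂ) k i)
  have hu : ∀ k l, inner ℂ (u k) (u l) = if k = l then (1 : ℂ) else 0 := by
    intro k l
    have h1 := congrFun (congrFun hU1 k) l
    rw [Matrix.mul_apply, Matrix.one_apply] at h1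
    rw [← h1, PiLp.inner_apply]
    refine Finset.sum_congr rfl fun j _ => ?_
    simp [u, conjTranspose_apply, mul_comm]
  let φ : Fin m → ℝ → Vec m := fun i x => ((g i x : ℝ) : ℂ) • u i
  have hφd : ∀ i x, deriv (φ i) x = ((deriv (g i) x : ℝ) : ℂ) • u i := by
    intro i x
    exact ((((hg1 i).differentiable (by simp) x).hasDerivAt.ofReal_comp).smul_const (u i)).deriv
  let e : Fin m → ℝ := fun i => ∫ x, (deriv (g i) x ^ 2 - soliton r (a i) (c i) x * g i x ^ 2)
  have hE : energyMatrix W φ = rdiag e := by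
    ext k l
    simp only [energyMatrix, Matrix.of_apply]
    have h1 : ∀ᵐ x : ℝ, (inner ℂ (deriv (φ k) x) (deriv (φ l) x) -
        inner ℂ (φ k x) (Matrix.toEuclideanLin (W x) (φ l x)))
        = ((deriv (g k) x * deriv (g l) x - soliton r (a l) (c l) x * (g k x * g l x) : ℝ) : ℂ)
          * (if k = l then (1 : ℂ) else 0) := by
      refine hW.mono fun x hx => ?_
      have h2 : W x * (U : Matrix (Fin m) (Fin m) ℂ) = (U : Matrix (Fin m) (Fin m) ℂ) *
          Matrix.diagonal (fun i => ((soliton r (a i) (c i) x : ℝ) : ℂ)) := by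
        rw [hx, Matrix.mul_assoc, star_eq_conjTranspose, hU1, Matrix.mul_one]
      have h3 : Matrix.toEuclideanLin (W x) (u l) = ((soliton r (a l) (c l) x : ℝ) : ℂ) • u l := by
        ext j
        have h4 := congrFun (congrFun h2 j) l
        rw [Matrix.mul_apply, Matrix.mul_diagonal] at h4
        simp only [u, Matrix.toEuclideanLin, Matrix.toLpLin_apply, PiLp.smul_apply, smul_eq_mul]
        simp only [Matrix.mulVec, dotProduct]
        rw [h4, mul_comm]
      rw [hφd, hφd]
      simp only [φ, map_smul, h3, inner_smul_left, inner_smul_right, hu, Complex.conj_ofReal]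
      push_cast
      ring
    rw [integral_congr_ae h1, integral_mul_const, integral_complex_ofReal]
    by_cases hkl : k = l
    · subst hkl
      simp only [if_true, mul_one, rdiag, diagonal_apply_eq, e, sq]
    · simp [hkl, rdiag]
  refine ⟨m, φ, ⟨fun k => ?_, fun k => ?_, fun k l => ?_⟩, ?_⟩
  · exact (Complex.ofRealCLM.contDiff.comp (hg1 k)).smul contDiff_const
  · refine HasCompactSupport.smul_right (f := fun x => ((g k x : ℝ) : ℂ)) (f' := fun _ => u k) ?_
    exact (hg2 k).comp_left (g := fun t : ℝ => (t : ℂ)) Complex.ofReal_zero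
  · have h1 : ∀ x, inner ℂ (φ k x) (φ l x)
        = ((g k x * g l x : ℝ) : ℂ) * (if k = l then (1 : ℂ) else 0) := by
      intro x
      simp only [φ, inner_smul_left, inner_smul_right, hu, Complex.conj_ofReal]
      push_cast
      ring
    simp_rw [h1]
    rw [integral_mul_const, integral_complex_ofReal]
    by_cases hkl : k = l
    · subst hkl
      have := hg3 k
      simp only [sq] at this
      simp [this]
    · simp [hkl]
  · rw [hL, hE, negMoment_eq (rdiag_herm _), trf_rdiag]
    refine hδ1.trans_le (Finset.sum_le_sum fun i _ => ?_)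
    refine Real.rpow_le_rpow (le_max_right _ _) (max_le_max ?_ le_rfl) hγ0.le
    have := hg4 i
    simp only [e]
    linarith

end Crest.Agent.R332
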