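import Crest.Agent.R332.SeqAE
import Crest.Agent.R332.Limit
import Crest.Agent.R332.ConstructAux

/-!
Row 332: block compression of Riccati data onto the top eigenvalues.
-/

set_option autoImplicit false
set_option linter.unusedSectionVars false

open Matrix MeasureTheory Set Filter Topology Crest.Agent.R342
open scoped ComplexOrder Matrix.Norms.Frobenius

namespace Crest.Agent.R332

/-- the first `e` coordinates -/
noncomputable def Pm (e N : ℕ) : Matrix (Fin e) (Fin N) ℂ :=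
  Matrix.of fun j l => if (l : ℕ) = j then 1 else 0

/-- the remaining coordinates -/
noncomputable def Qm (e N : ℕ) : Matrix (Fin N) (Fin N) ℂ :=
  rdiag fun l => if e ≤ (l : ℕ) then 1 else 0

/-- extension by zero -/
noncomputable def ext0 {N : ℕ} (κ : Fin N → ℝ) (j : ℕ) : ℝ := if h : j < N then κ ⟨j, h⟩ else 0

variable {e N : ℕ}

lemma ext0_val (κ : Fin N → ℝ) (l : Fin N) : ext0 κ l = κ l := by simp [ext0]

lemma Pm_mul_ct (h : e ≤ N) : Pm e N * (Pm e N)ᴴ = 1 := by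
  ext j j'
  rw [mul_apply, Finset.sum_eq_single (Fin.castLE h j)]
  · by_cases hj : j = j'
    · subst hj; simp [Pm]
    · simp [Pm, hj, Fin.val_inj]
  · intro l _ hl
    have : (l : ℕ) ≠ j := fun h' => hl (Fin.ext h')
    simp [Pm, this]
  · simp

lemma ct_mul_Pm : (Pm e N)ᴴ * Pm e N + Qm e N = 1 := by
  ext l l'
  rw [Matrix.add_apply, mul_apply]
  by_cases hl : (l : ℕ) < e
  · rw [Finset.sum_eq_single (⟨l, hl⟩ : Fin e)]
    · by_cases h' : l = l'
      · subst h'; simp [Pm, Qm, rdiag, hl]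
      · have : (l' : ℕ) ≠ l := fun h => h' (Fin.ext h.symm)
        simp [Pm, Qm, rdiag, h', this]
    · intro j _ hj
      have : (l : ℕ) ≠ j := fun h' => hj (Fin.ext h'.symm)
      simp [Pm, this]
    · simp
  · rw [Finset.sum_eq_zero]
    · by_cases h' : l = l'
      · subst h'; simp [Qm, rdiag, not_lt.1 hl]
      · simp [Qm, rdiag, h']
    · intro j _
      have : (l : ℕ) ≠ j := fun h' => hl (h' ▸ j.2)
      simp [Pm, this]

lemma Pm_mul_rdiag (κ : Fin N → ℝ) :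
    Pm e N * rdiag κ = rdiag (fun j : Fin e => ext0 κ j) * Pm e N := by
  ext j l
  simp only [rdiag, mul_diagonal, diagonal_mul, Pm, of_apply]
  split_ifs with h
  · rw [← h, ext0_val]; simp
  · simp

lemma rdiag_mul_Pm_ct (κ : Fin N → ℝ) :
    rdiag κ * (Pm e N)ᴴ = (Pm e N)ᴴ * rdiag (fun j : Fin e => ext0 κ j) := by
  have := congrArg conjTranspose (Pm_mul_rdiag (e := e) κ)
  rwa [conjTranspose_mul, conjTranspose_mul, rdiag_ct, rdiag_ct] at this

lemma Pm_mul_KK (κ : Fin N → ℝ) : Pm e N * (rdiag κ * rdiag κ) =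
    ((rdiag fun j : Fin e => ext0 κ j) * rdiag fun j : Fin e => ext0 κ j) * Pm e N := by
  rw [← Matrix.mul_assoc, Pm_mul_rdiag, Matrix.mul_assoc, Pm_mul_rdiag, Matrix.mul_assoc]

lemma Qm_ct : (Qm e N)ᴴ = Qm e N := rdiag_ct _

lemma Qm_mul_Qm : Qm e N * Qm e N = Qm e N := by
  rw [Qm, rdiag_mul]; congr 1; funext l; split_ifs <;> simp

lemma opLe_Qm : OpLe (Qm e N) 1 := opLe_rdiag zero_le_one fun l => by split_ifs <;> simp

lemma opLe_Pm : OpLe (Pm e N) 1 := by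
  rw [opLe_iff_psd zero_le_one, one_pow, one_smul, ← ct_mul_Pm (e := e), add_sub_cancel_left, Qm,
    rdiag_psd_iff]
  intro l; split_ifs <;> simp

lemma norm_sandwich_le {a b c d : Type} [Fintype a] [Fintype b] [Fintype c] [Fintype d]
    {P : Matrix a b ℂ} {Q : Matrix c d ℂ} (hP : OpLe P 1) (hQ : OpLe Q 1) (X : Matrix b c ℂ) :
    ‖P * X * Q‖ ≤ ‖X‖ := by
  have h1 := hQ.norm_mul_le' (P * X)
  have h2 := hP.norm_mul_le X
  linarith

lemma gap_bound {a b : Type} [Fintype a] [Fintype b] [DecidableEq a] [DecidableEq b]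
    {X : Matrix a b ℂ} {u : a → ℝ} {v : b → ℝ} {g : ℝ} (hg : 0 ≤ g)
    (h : ∀ j l, X j l ≠ 0 → g ≤ u j - v l) : g * ‖X‖ ≤ ‖rdiag u * X - X * rdiag v‖ := by
  apply le_of_sq_le_sq' _ (norm_nonneg _)
  rw [mul_pow, norm_sq_eq_sum, norm_sq_eq_sum, Finset.mul_sum]
  refine Finset.sum_le_sum fun j _ => ?_
  rw [Finset.mul_sum]
  refine Finset.sum_le_sum fun l _ => ?_
  simp only [rdiag, Matrix.sub_apply, diagonal_mul, mul_diagonal]
  rw [mul_comm (X j l), ← sub_mul, norm_mul, mul_pow, ← Complex.ofReal_sub, Complex.norm_real,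
    Real.norm_eq_abs, sq_abs]
  by_cases hX : X j l = 0
  · simp [hX]
  · exact mul_le_mul_of_nonneg_right (pow_le_pow_left₀ hg (h j l hX) 2) (sq_nonneg _)

/-- the off-diagonal block -/
noncomputable def offB (e : ℕ) {N : ℕ} (F : Matrix (Fin N) (Fin N) ℂ) : Matrix (Fin e) (Fin e) ℂ :=
  (Pm e N * F * Qm e N) * (Pm e N * F * Qm e N)ᴴ

/-- the top block -/
noncomputable def blk (e : ℕ) {N : ℕ} (F : Matrix (Fin N) (Fin N) ℂ) : Matrix (Fin e) (Fin e) ℂ :=
  Pm e N * F * (Pm e N)ᴴ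

lemma blk_rdiag (h : e ≤ N) (κ : Fin N → ℝ) : blk e (rdiag κ) = rdiag fun j : Fin e => ext0 κ j := by
  rw [blk, Pm_mul_rdiag, Matrix.mul_assoc, Pm_mul_ct h, Matrix.mul_one]

lemma blk_sub (X Y : Matrix (Fin N) (Fin N) ℂ) : blk e (X - Y) = blk e X - blk e Y := by
  simp only [blk, Matrix.mul_sub, Matrix.sub_mul]

lemma blk_add (X Y : Matrix (Fin N) (Fin N) ℂ) : blk e (X + Y) = blk e X + blk e Y := by
  simp only [blk, Matrix.mul_add, Matrix.add_mul]

lemma blk_smul (t : ℝ) (X : Matrix (Fin N) (Fin N) ℂ) : blk e (t • X) = t • blk e X := by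
  simp only [blk, Matrix.mul_smul, Matrix.smul_mul]

lemma norm_blk_le (X : Matrix (Fin N) (Fin N) ℂ) : ‖blk e X‖ ≤ ‖X‖ :=
  norm_sandwich_le opLe_Pm opLe_Pm.ct X

lemma blk_psd {X : Matrix (Fin N) (Fin N) ℂ} (h : X.PosSemidef) : (blk e X).PosSemidef :=
  h.mul_mul_conjTranspose_same _

lemma blk_Umat (h : e ≤ N) (κ : Fin N → ℝ) {F : Matrix (Fin N) (Fin N) ℂ} (hF : F.IsHermitian) :
    Umat (rdiag fun j : Fin e => ext0 κ j) (blk e F) = blk e (Umat (rdiag κ) F) + offB e F := by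
  have e1 : blk e (rdiag κ * rdiag κ) =
      (rdiag fun j : Fin e => ext0 κ j) * rdiag fun j : Fin e => ext0 κ j := by
    rw [blk, ← Matrix.mul_assoc, Pm_mul_rdiag, Matrix.mul_assoc, Matrix.mul_assoc,
      rdiag_mul_Pm_ct, ← Matrix.mul_assoc (Pm e N), Pm_mul_ct h, Matrix.one_mul]
  have e2 : blk e (F * F) = blk e F * blk e F + offB e F := by
    calc blk e (F * F) = Pm e N * F * ((Pm e N)ᴴ * Pm e N + Qm e N * Qm e N) * F * (Pm e N)ᴴ := by
          rw [Qm_mul_Qm, ct_mul_Pm, blk]; simp only [Matrix.mul_one, Matrix.mul_assoc]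
      _ = _ := by
          simp only [blk, offB, conjTranspose_mul, Qm_ct, hF.eq, Matrix.mul_add, Matrix.add_mul,
            Matrix.mul_assoc]
  rw [Umat, Umat, blk_sub, e1, e2]; abel

lemma err2_blk (κ : Fin N → ℝ) (F : Matrix (Fin N) (Fin N) ℂ) :
    err2 (rdiag fun j : Fin e => ext0 κ j) (blk e F) ≤ err2 (rdiag κ) F := by
  have e1 : comm ((rdiag fun j : Fin e => ext0 κ j) * rdiag fun j : Fin e => ext0 κ j) (blk e F) =
      blk e (comm (rdiag κ * rdiag κ) F) := by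
    have h1 := Pm_mul_KK (e := e) κ
    have h2 := congrArg conjTranspose h1
    simp only [conjTranspose_mul, rdiag_ct] at h2
    rw [comm, comm, blk_sub, blk, blk, blk, ← Matrix.mul_assoc (Pm e N), h1,
      Matrix.mul_assoc (Pm e N) (F * _), Matrix.mul_assoc F, h2]
    simp only [Matrix.mul_assoc]
  rw [err2, e1]
  exact norm_blk_le _

lemma norm_offB_le {κ : Fin N → ℝ} (hκ : ∀ i, 0 < κ i) (ha : Antitone κ) {θ₁ θ₂ : ℝ}
    (h0 : 0 ≤ θ₁) (h12 : θ₁ < θ₂) (h1 : ext0 κ e ≤ θ₁) (h2 : ∀ j : Fin e, θ₂ ≤ ext0 κ j)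
    (F : Matrix (Fin N) (Fin N) ℂ) :
    ‖offB e F‖ ≤ err2 (rdiag κ) F ^ 2 / (θ₂ ^ 2 - θ₁ ^ 2) ^ 2 := by
  have hg : 0 < θ₂ ^ 2 - θ₁ ^ 2 := by nlinarith
  have b1 := gap_bound (X := Pm e N * F * Qm e N) (u := fun j => ext0 κ j * ext0 κ j)
    (v := fun l => κ l * κ l) hg.le fun j l hX => by
      have hl : e ≤ (l : ℕ) := by
        by_contra hc
        exact hX (by simp [Qm, rdiag, mul_diagonal, hc])
      have hlt : e < N := hl.trans_lt l.2
      have a1 : κ l ≤ θ₁ := by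
        have : κ l ≤ κ ⟨e, hlt⟩ := ha (show (⟨e, hlt⟩ : Fin N) ≤ l from hl)
        rw [ext0, dif_pos hlt] at h1
        linarith
      have a2 := h2 j
      nlinarith [hκ l]
  have e1 : (rdiag fun j : Fin e => ext0 κ j * ext0 κ j) * (Pm e N * F * Qm e N) -
      (Pm e N * F * Qm e N) * (rdiag fun l => κ l * κ l) =
      Pm e N * comm (rdiag κ * rdiag κ) F * Qm e N := by
    have hQ : Qm e N * (rdiag κ * rdiag κ) = (rdiag κ * rdiag κ) * Qm e N := by
      simp only [Qm, rdiag_mul, mul_comm]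
    rw [← rdiag_mul, ← rdiag_mul, Matrix.mul_assoc (Pm e N * F) (Qm e N) (rdiag κ * rdiag κ), hQ]
    rw [comm, Matrix.mul_sub, Matrix.sub_mul, ← Matrix.mul_assoc (Pm e N) (rdiag κ * rdiag κ),
      Pm_mul_KK]
    simp only [Matrix.mul_assoc]
  rw [e1] at b1
  have b2 : (θ₂ ^ 2 - θ₁ ^ 2) * ‖Pm e N * F * Qm e N‖ ≤ err2 (rdiag κ) F :=
    b1.trans (norm_sandwich_le opLe_Pm opLe_Qm _)
  have b3 := pow_le_pow_left₀ (mul_nonneg hg.le (norm_nonneg _)) b2 2
  rw [le_div_iff₀ (pow_pos hg 2)]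
  have b4 : ‖offB e F‖ ≤ ‖Pm e N * F * Qm e N‖ ^ 2 := by
    rw [sq]
    exact (norm_mul_le' _ _).trans (by rw [norm_ct])
  rw [mul_pow] at b3
  have b5 := mul_le_mul_of_nonneg_right b4 (sq_nonneg (θ₂ ^ 2 - θ₁ ^ 2))
  linarith

lemma err1_blk (h : e ≤ N) {r : ℝ} (hr : 0 ≤ r) (κ : Fin N → ℝ) {F : Matrix (Fin N) (Fin N) ℂ}
    (hF : F.IsHermitian) (A : Matrix (Fin N) (Fin N) ℂ) :
    err1 r (rdiag fun j : Fin e => ext0 κ j) (blk e F) (blk e A + offB e F) ≤
      err1 r (rdiag κ) F A + r * ‖offB e F‖ := by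
  have e1 : blk e A + offB e F - (r + 1) • Umat (rdiag fun j : Fin e => ext0 κ j) (blk e F) =
      blk e (A - (r + 1) • Umat (rdiag κ) F) - r • offB e F := by
    rw [blk_Umat h κ hF, blk_sub, blk_smul, smul_add, add_smul r 1 (offB e F), one_smul]; abel
  rw [err1, e1]
  refine (norm_sub_le _ _).trans (add_le_add (norm_blk_le _) ?_)
  rw [norm_smul, Real.norm_eq_abs, abs_of_nonneg hr]

lemma rtr_split (X : Matrix (Fin N) (Fin N) ℂ) :
    rtr X = rtr (blk e X) + rtr (Qm e N * X * (Qm e N)ᴴ) := by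
  rw [blk, rtr_mul_comm _ (Pm e N)ᴴ, rtr_mul_comm _ (Qm e N)ᴴ, ← Matrix.mul_assoc,
    ← Matrix.mul_assoc, Qm_ct, Qm_mul_Qm, ← rtr_add, ← Matrix.add_mul, ct_mul_Pm, Matrix.one_mul]

lemma tail_block_le {κ : Fin N → ℝ} (hκ : ∀ i, 0 < κ i) (ha : Antitone κ) {r : ℝ} (hr : 0 ≤ r)
    {F A : Matrix (Fin N) (Fin N) ℂ} (hF : F.IsHermitian) (hA : A.IsHermitian) :
    (((r + 1) * ext0 κ e ^ 2 + err1 r (rdiag κ) F A) • (1 : Matrix (Fin N) (Fin N) ℂ) -
      Qm e N * A * (Qm e N)ᴴ).PosSemidef := by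
  set E := A - (r + 1) • Umat (rdiag κ) F with hE
  have hU : (Umat (rdiag κ) F).IsHermitian := by
    unfold Umat
    refine IsHermitian.sub ?_ ?_
    · rw [rdiag_mul]; exact rdiag_herm _
    · simp [IsHermitian, hF.eq]
  have hEh : E.IsHermitian := by
    refine hA.sub ?_
    simp [IsHermitian, hU.eq]
  have p1 := ((opLe_norm E).psd_sub hEh).mul_mul_conjTranspose_same (Qm e N)
  have p2 : (‖E‖ • ((1 : Matrix (Fin N) (Fin N) ℂ) - Qm e N)).PosSemidef := by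
    refine psd_smul ?_ (norm_nonneg _)
    rw [← ct_mul_Pm (e := e), add_sub_cancel_right]
    exact posSemidef_conjTranspose_mul_self _
  have p3 : ((ext0 κ e ^ 2) • (1 : Matrix (Fin N) (Fin N) ℂ) -
      Qm e N * (rdiag κ * rdiag κ) * Qm e N).PosSemidef := by
    rw [Qm, rdiag_mul, rdiag_mul, rdiag_mul, ← rdiag_const, rdiag_sub, rdiag_psd_iff]
    intro l
    split_ifs with hl
    · have hlt : e < N := hl.trans_lt l.2
      have : κ l ≤ κ ⟨e, hlt⟩ := ha (show (⟨e, hlt⟩ : Fin N) ≤ l from hl)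
      rw [ext0, dif_pos hlt]
      nlinarith [hκ l]
    · simpa using sq_nonneg _
  have p4 : (Qm e N * (F * F) * Qm e N).PosSemidef := by
    have := posSemidef_self_mul_conjTranspose (Qm e N * F)
    rw [conjTranspose_mul, Qm_ct, hF.eq] at this
    simpa only [Matrix.mul_assoc] using this
  have hr1 : 0 ≤ r + 1 := by linarith
  convert (p1.add p2).add (psd_smul (p3.add p4) hr1) using 1
  have hA' : A = E + (r + 1) • Umat (rdiag κ) F := by rw [hE]; abel
  rw [err1, ← hE]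
  conv_lhs => rw [hA']
  simp only [Qm_ct, Umat, Matrix.mul_add, Matrix.add_mul, Matrix.mul_sub, Matrix.sub_mul,
    Matrix.mul_smul, Matrix.smul_mul, Matrix.mul_one, Qm_mul_Qm, smul_add, smul_sub, add_smul,
    mul_smul, one_smul]
  abel

lemma ext0_nonneg {κ : Fin N → ℝ} (hκ : ∀ i, 0 < κ i) (j : ℕ) : 0 ≤ ext0 κ j := by
  unfold ext0; split_ifs
  · exact (hκ _).le
  · exact le_rfl

lemma ext0_le {κ : Fin N → ℝ} {k : ℝ} (hk : 0 ≤ k) (hκ : ∀ i, κ i ≤ k) (j : ℕ) : ext0 κ j ≤ k := by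
  unfold ext0; split_ifs
  · exact hκ _
  · exact hk

lemma ext0_anti {κ : Fin N → ℝ} (hκ : ∀ i, 0 < κ i) (ha : Antitone κ) : Antitone (ext0 κ) := by
  intro i j hij
  by_cases hj : j < N
  · have hi : i < N := hij.trans_lt hj
    simp only [ext0, dif_pos hj, dif_pos hi]
    exact ha (show (⟨i, hi⟩ : Fin N) ≤ ⟨j, hj⟩ from hij)
  · simp only [ext0, dif_neg hj]
    exact ext0_nonneg hκ i

lemma ext0_count {κ : Fin N → ℝ} (hκ : ∀ i, 0 < κ i) (ha : Antitone κ) {q : ℝ} (hq : 0 < q)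
    (j : ℕ) : ((j : ℝ) + 1) * ext0 κ j ^ q ≤ ∑ i, κ i ^ q := by
  by_cases hj : j < N
  · have h1 : ∑ i ∈ Finset.Iic (⟨j, hj⟩ : Fin N), κ ⟨j, hj⟩ ^ q ≤
        ∑ i ∈ Finset.Iic (⟨j, hj⟩ : Fin N), κ i ^ q :=
      Finset.sum_le_sum fun i hi =>
        Real.rpow_le_rpow (hκ _).le (ha (Finset.mem_Iic.1 hi)) hq.le
    have h2 : ∑ i ∈ Finset.Iic (⟨j, hj⟩ : Fin N), κ i ^ q ≤ ∑ i, κ i ^ q :=
      Finset.sum_le_sum_of_subset_of_nonneg (Finset.subset_univ _)
        fun i _ _ => Real.rpow_nonneg (hκ i).le _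
    simp only [Finset.sum_const, Fin.card_Iic, nsmul_eq_mul] at h1
    rw [ext0, dif_pos hj]
    push_cast at h1
    linarith
  · rw [ext0, dif_neg hj, Real.zero_rpow hq.ne', mul_zero]
    exact Finset.sum_nonneg fun i _ => Real.rpow_nonneg (hκ i).le _

lemma soliton_le_exp {r a c₀ : ℝ} (hr : 0 < r) (ha : 0 < a) (hc : c₀ ≤ 2 * r * a) (c x : ℝ) :
    Crest.MathPhysics.LiebThirring.soliton r a c x ≤
      (r + 1) * a ^ 2 * 4 * Real.exp (2 * r * a * |c|) * Real.exp (-c₀ * |x|) := by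
  set y := r * a * (x - c) with hy
  have h1 : Real.exp |y| / 2 ≤ Real.cosh y := by
    rw [← Real.cosh_abs, Real.cosh_eq]
    have := Real.exp_pos (-|y|)
    linarith
  have h2 : Real.exp (2 * |y|) / 4 ≤ Real.cosh y ^ 2 := by
    have := pow_le_pow_left₀ (by positivity) h1 2
    rw [div_pow, ← Real.exp_nat_mul] at this
    norm_num at this
    exact this
  have h3 : r * a * (|x| - |c|) ≤ |y| := by
    rw [hy, abs_mul, abs_of_pos (mul_pos hr ha)]
    exact mul_le_mul_of_nonneg_left (abs_sub_abs_le_abs_sub x c) (mul_pos hr ha).le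
  unfold Crest.MathPhysics.LiebThirring.soliton
  rw [← hy, div_le_iff₀ (by positivity)]
  have h4 : 1 ≤ Real.exp (2 * r * a * |c|) * Real.exp (-c₀ * |x|) * Real.exp (2 * |y|) := by
    rw [← Real.exp_add, ← Real.exp_add]
    refine Real.one_le_exp ?_
    nlinarith [abs_nonneg x, mul_le_mul_of_nonneg_right hc (abs_nonneg x)]
  have h5 : 0 ≤ (r + 1) * a ^ 2 := by positivity
  calc (r + 1) * a ^ 2 ≤ (r + 1) * a ^ 2 *
        (Real.exp (2 * r * a * |c|) * Real.exp (-c₀ * |x|) * Real.exp (2 * |y|)) :=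
        le_mul_of_one_le_right h5 h4
    _ = (r + 1) * a ^ 2 * 4 * Real.exp (2 * r * a * |c|) * Real.exp (-c₀ * |x|) *
        (Real.exp (2 * |y|) / 4) := by ring
    _ ≤ _ := mul_le_mul_of_nonneg_left h2 (by positivity)

lemma soliton_pos {r a : ℝ} (hr : 0 < r) (ha : 0 < a) (c x : ℝ) :
    0 < Crest.MathPhysics.LiebThirring.soliton r a c x := by
  unfold Crest.MathPhysics.LiebThirring.soliton
  have := Real.cosh_pos (r * a * (x - c))
  positivity

end Crest.Agent.R332
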