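import Crest.Agent.R332.GT
import Crest.Agent.R332.DLog

/-!
Row 332: sign and size of `mfun`, `wfun`; the Golden–Thompson/Klein step.
-/

set_option autoImplicit false
set_option linter.unusedSectionVars false

open Matrix MeasureTheory Set Filter Topology Crest.Agent.R342
open scoped ComplexOrder Matrix.Norms.Frobenius

namespace Crest.Agent.R332

variable {n : Type} [Fintype n] [DecidableEq n]

lemma Adm.neg {κ : n → ℝ} {k : ℝ} {F : Matrix n n ℂ} (h : Adm κ k F) : Adm κ k (-F) :=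
  ⟨h.pos, h.le, h.herm.neg, by rw [sub_neg_eq_add]; exact h.lo,
    by rw [← sub_eq_add_neg]; exact h.up⟩

lemma Adm.abs {κ : n → ℝ} {k : ℝ} {F : Matrix n n ℂ} (h : Adm κ k F) : Adm κ |k| F :=
  ⟨h.pos, fun i => (h.le i).trans (le_abs_self k), h.herm, h.up, h.lo⟩

lemma wp_herm {κ : n → ℝ} {k : ℝ} {F : Matrix n n ℂ} (h : Adm κ k F) (t : ℝ) :
    (Kt κ t + F).IsHermitian := (rdiag_herm _).add h.herm

lemma wp_ev_pos {κ : n → ℝ} {k : ℝ} {F : Matrix n n ℂ} (h : Adm κ k F) {t : ℝ} (ht : 0 < t)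
    (i : n) : 0 < ev (Kt κ t + F) i :=
  (dl_ev_bounds ht h.pos h.le le_rfl h.herm h.up h.lo).2.1 i

lemma wp_exp_log {κ : n → ℝ} {k : ℝ} {F : Matrix n n ℂ} (h : Adm κ k F) {t : ℝ} (ht : 0 < t) :
    fc Real.exp (fc Real.log (Kt κ t + F)) = Kt κ t + F := by
  rw [fc_comp]
  conv_rhs => rw [← fc_id (wp_herm h t)]
  exact fc_congr fun i => Real.exp_log (wp_ev_pos h ht i)

lemma wp_Kt_sq (κ : n → ℝ) {t : ℝ} (ht : 0 ≤ t) :
    Kt κ t * Kt κ t = rdiag κ * rdiag κ + t • (1 : Matrix n n ℂ) := by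
  rw [Kt, rdiag_mul, rdiag_mul, ← rdiag_const, rdiag_add]
  congr 1
  funext i
  rw [Real.mul_self_sqrt (by positivity)]; ring

lemma wp_rtr_prod (A F : Matrix n n ℂ) : rtr ((A + F) * (A - F)) = rtr (A * A) - rtr (F * F) := by
  rw [Matrix.add_mul, Matrix.mul_sub, Matrix.mul_sub, rtr_add, rtr_sub, rtr_sub, rtr_mul_comm F A]
  ring

lemma Lmat_herm (κ : n → ℝ) (F : Matrix n n ℂ) (t : ℝ) : (Lmat κ F t).IsHermitian :=
  (fc_herm _ _).add (fc_herm _ _)

lemma wp_gt {κ : n → ℝ} {k : ℝ} {F : Matrix n n ℂ} (h : Adm κ k F) {t : ℝ} (ht : 0 < t) :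
    trf Real.exp (Lmat κ F t) ≤ rtr (Umat (rdiag κ) F) + Fintype.card n * t := by
  have h1 := golden_thompson (fc_herm Real.log (Kt κ t + F)) (fc_herm Real.log (Kt κ t - F))
  have h2 := wp_exp_log h.neg ht
  rw [← sub_eq_add_neg] at h2
  rw [wp_exp_log h ht, h2, wp_rtr_prod, wp_Kt_sq κ ht.le, rtr_add, rtr_smul, rtr_one] at h1
  rw [Umat, rtr_sub]
  unfold Lmat
  linarith

lemma wp_U_nonneg {κ : n → ℝ} {k : ℝ} {F : Matrix n n ℂ} (h : Adm κ k F) :
    0 ≤ rtr (Umat (rdiag κ) F) := by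
  rw [Umat, rtr_sub, ← wp_rtr_prod]
  exact rtr_mul_nonneg h.lo h.up

theorem mfun_nonneg {κ : n → ℝ} {k : ℝ} {F : Matrix n n ℂ} (h : Adm κ k F) {t : ℝ} (ht : 0 < t) :
    0 ≤ mfun κ F t := by
  have h1 := wp_gt h ht
  have h2 : t * rtr (Lhat κ F t) ≤ trf Real.exp (Lmat κ F t) - Fintype.card n * t := by
    rw [Lhat, rtr_sub, rtr_smul, rtr_one, rtr_eq_trf (Lmat_herm κ F t)]
    have : ∀ i, t * (ev (Lmat κ F t) i - Real.log t) ≤ Real.exp (ev (Lmat κ F t) i) - t := by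
      intro i
      have e := Real.add_one_le_exp (ev (Lmat κ F t) i - Real.log t)
      rw [Real.exp_sub, Real.exp_log ht, le_div_iff₀ ht] at e
      linarith
    have h3 := Finset.sum_le_sum fun i (_ : i ∈ Finset.univ) => this i
    rw [← Finset.mul_sum, Finset.sum_sub_distrib, Finset.sum_sub_distrib] at h3
    simp only [Finset.sum_const, Finset.card_univ, nsmul_eq_mul] at h3
    unfold trf
    linarith
  unfold mfun
  linarith

lemma wp_scalar {y t l : ℝ} (hy : 0 ≤ y) (ht : 0 < t) :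
    y * l - Real.log t * y + (√(y + t) - Real.exp (l / 2)) ^ 2
      ≤ hfun t y + (Real.exp l - t - t * (l - Real.log t)) := by
  have hz : 0 < y + t := by linarith
  set r := √(y + t) with hr
  have hr0 : 0 < r := Real.sqrt_pos.2 hz
  have hr2 : r ^ 2 = y + t := Real.sq_sqrt hz.le
  have e1 : Real.log (1 + y / t) = 2 * Real.log r - Real.log t := by
    rw [show 1 + y / t = r ^ 2 / t by rw [hr2]; field_simp; ring,
      Real.log_div (by positivity) ht.ne', Real.log_pow]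
    norm_num
  have e2 : Real.exp l = Real.exp (l / 2) ^ 2 := by rw [← Real.exp_nat_mul]; congr 1; ring
  have e3 := Real.log_le_sub_one_of_pos (div_pos (Real.exp_pos (l / 2)) hr0)
  rw [Real.log_div (Real.exp_pos _).ne' hr0.ne', Real.log_exp] at e3
  have e4 : r ^ 2 * (l / 2 - Real.log r) ≤ r * Real.exp (l / 2) - r ^ 2 := by
    have := mul_le_mul_of_nonneg_left e3 (sq_nonneg r)
    refine this.trans (le_of_eq ?_)
    field_simp
  have hy' : y = r ^ 2 - t := by linarith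
  unfold hfun
  rw [e1, e2, ← hr2]
  nth_rewrite 1 [hy']
  nth_rewrite 1 [hy']
  nth_rewrite 1 [hy']
  nlinarith

theorem gt_klein {κ : n → ℝ} {k : ℝ} {F Y : Matrix n n ℂ} (h : Adm κ k F) (hY : Y.PosSemidef)
    {t : ℝ} (ht : 0 < t) :
    rtr (Y * Lhat κ F t) ≤ trf (hfun t) Y + mfun κ F t - D1 κ F Y t := by
  have h1 := wp_gt h ht
  have hL := Lmat_herm κ F t
  unfold mfun D1 Lhat
  set L := Lmat κ F t
  have e1 : rtr (Y * L) = ∑ i, ∑ j, ovl Y L i j * (ev Y i * ev L j) := by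
    have := rtr_fc_mul_fc (fun s => s) (fun s => s) Y L
    rwa [fc_id hY.1, fc_id hL] at this
  have e2 : rtr Y = ∑ i, ∑ j, ovl Y L i j * ev Y i := by
    rw [rtr_eq_trf hY.1, trf_eq_left _ Y L]
  have e3 : rtr L = ∑ i, ∑ j, ovl Y L i j * ev L j := by
    rw [rtr_eq_trf hL, trf_eq_right _ Y L]
  have e4 : (Fintype.card n : ℝ) = ∑ i, ∑ j, ovl Y L i j := by
    simp [sum_ovl_right]
  have key : ∑ i, ∑ j, ovl Y L i j * (ev Y i * ev L j - Real.log t * ev Y i
      + (√(ev Y i + t) - Real.exp (ev L j / 2)) ^ 2) ≤ ∑ i, ∑ j, ovl Y L i j *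
      (hfun t (ev Y i) + (Real.exp (ev L j) - t - t * (ev L j - Real.log t))) :=
    Finset.sum_le_sum fun i _ => Finset.sum_le_sum fun j _ =>
      mul_le_mul_of_nonneg_left (wp_scalar (ev_nonneg hY i) ht) (ovl_nonneg _ _ _ _)
  rw [Matrix.mul_sub, Matrix.mul_smul, Matrix.mul_one, rtr_sub, rtr_sub, rtr_smul, rtr_smul,
    rtr_one, fc_add_smul_one _ hY.1, norm_fc_sub_sq, trf_eq_left _ Y L]
  rw [trf_eq_right _ Y L] at h1
  have e5 : ∑ i, ∑ j, ovl Y L i j * (ev Y i * ev L j - Real.log t * ev Y i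
      + (√(ev Y i + t) - Real.exp (ev L j / 2)) ^ 2) = rtr (Y * L) - Real.log t * rtr Y
      + ∑ i, ∑ j, ovl Y L i j * (√(ev Y i + t) - Real.exp (ev L j / 2)) ^ 2 := by
    rw [e1, e2]
    simp only [Finset.mul_sum, ← Finset.sum_add_distrib, ← Finset.sum_sub_distrib]
    exact Finset.sum_congr rfl fun i _ => Finset.sum_congr rfl fun j _ => by ring
  have e6 : ∑ i, ∑ j, ovl Y L i j *
      (hfun t (ev Y i) + (Real.exp (ev L j) - t - t * (ev L j - Real.log t)))
      = ∑ i, ∑ j, ovl Y L i j * hfun t (ev Y i) + (∑ i, ∑ j, ovl Y L i j * Real.exp (ev L j)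
        - Fintype.card n * t - t * (rtr L - Real.log t * Fintype.card n)) := by
    rw [e3, e4]
    simp only [Finset.mul_sum, Finset.sum_mul, ← Finset.sum_add_distrib, ← Finset.sum_sub_distrib]
    exact Finset.sum_congr rfl fun i _ => Finset.sum_congr rfl fun j _ => by ring
  rw [e5, e6] at key
  linarith

lemma wp_opLe_U {κ : n → ℝ} {k : ℝ} {F : Matrix n n ℂ} (h : Adm κ k F) (hk : 0 ≤ k) :
    OpLe (Umat (rdiag κ) F) (k * k + k * k) := by
  have h1 : OpLe (rdiag κ) k := opLe_rdiag hk fun i => by rw [abs_of_pos (h.pos i)]; exact h.le i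
  exact (h1.mul h1).sub ((h.opLe hk).mul (h.opLe hk))

lemma wp_opLe_log {κ : n → ℝ} {k : ℝ} {F : Matrix n n ℂ} (h : Adm κ k F) {t : ℝ} (ht : 0 < t)
    (ht1 : t ≤ 1) :
    OpLe (fc Real.log (Kt κ t + F)) (|Real.log t| + Real.log (2 * √(k ^ 2 + 1))) := by
  set kT := √(k ^ 2 + 1) with hkT
  have hk1 : 1 ≤ kT := Real.one_le_sqrt.2 (by nlinarith)
  have hl0 : 0 ≤ Real.log (2 * kT) := Real.log_nonneg (by linarith)
  obtain ⟨b0, b1, b2⟩ := dl_ev_bounds (kT := kT) ht h.pos h.le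
    (Real.sqrt_le_sqrt (by linarith)) h.herm h.up h.lo
  have b3 : ∀ i, t / (2 * kT) ≤ ev (Kt κ t + F) i := by
    rw [le_ev_iff (wp_herm h t)]
    have e : Kt κ t + F - (t / (2 * kT)) • (1 : Matrix n n ℂ)
        = rdiag (fun i => √(κ i ^ 2 + t) - κ i - t / (2 * kT)) + (rdiag κ + F) := by
      rw [← rdiag_const, Kt, ← rdiag_sub, ← rdiag_sub]; abel
    rw [e]
    refine PosSemidef.add ((rdiag_psd_iff _).2 fun i => ?_) h.lo
    have p := h.pos i
    have q := b0 i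
    set s := √(κ i ^ 2 + t)
    have hs2 : s ^ 2 = κ i ^ 2 + t := Real.sq_sqrt (by positivity)
    have hs0 : 0 ≤ s := Real.sqrt_nonneg _
    have hks : κ i ≤ s := by nlinarith
    rw [sub_nonneg, div_le_iff₀ (by linarith)]
    nlinarith
  refine opLe_fc (by positivity) fun i => ?_
  rw [abs_le]
  constructor
  · have := Real.log_le_log (by positivity) (b3 i)
    rw [Real.log_div ht.ne' (by positivity)] at this
    linarith [neg_abs_le (Real.log t)]
  · have := Real.log_le_log (b1 i) (b2 i)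
    linarith [abs_nonneg (Real.log t)]

theorem wfun_small (k : ℝ) : ∃ C : ℝ, 0 ≤ C ∧
    ∀ (n : Type) [Fintype n] [DecidableEq n] (κ : n → ℝ) (F : Matrix n n ℂ), Adm κ k F →
      ∀ t : ℝ, 0 < t → t ≤ 1 → wfun κ F t ≤ C * Fintype.card n * (1 + |Real.log t|) := by
  set c := Real.log (2 * √(k ^ 2 + 1)) with hc
  have hk1 : 1 ≤ √(k ^ 2 + 1) := Real.one_le_sqrt.2 (by nlinarith)
  have hc0 : 0 ≤ c := Real.log_nonneg (by linarith)
  refine ⟨(|k| * |k| + |k| * |k| + 1) * (3 + 2 * c), by positivity, fun n _ _ κ F h t ht ht1 => ?_⟩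
  have h1 : OpLe (Umat (rdiag κ) F + t • (1 : Matrix n n ℂ)) (|k| * |k| + |k| * |k| + 1) :=
    (wp_opLe_U h.abs (abs_nonneg k)).add ((opLe_one.smul t).mono
      (by rw [abs_of_pos ht]; linarith))
  have h2 : OpLe (Lhat κ F t) ((3 + 2 * c) * (1 + |Real.log t|)) := by
    have a1 := wp_opLe_log h ht ht1
    have a2 := wp_opLe_log h.neg ht ht1
    rw [← sub_eq_add_neg] at a2
    refine ((a1.add a2).sub (opLe_one.smul (Real.log t))).mono ?_
    nlinarith [abs_nonneg (Real.log t)]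
  have h3 := abs_rtr_mul_le (Umat (rdiag κ) F + t • (1 : Matrix n n ℂ)) (Lhat κ F t)
  have h4 := mul_le_mul h1.norm_le h2.norm_le (norm_nonneg _) (by positivity)
  have h5 : √(Fintype.card n : ℝ) * √(Fintype.card n : ℝ) = Fintype.card n :=
    Real.mul_self_sqrt (by positivity)
  have h6 := wp_U_nonneg h
  unfold wfun
  calc _ ≤ _ := by linarith [le_abs_self (rtr ((Umat (rdiag κ) F + t • (1 : Matrix n n ℂ)) *
        Lhat κ F t))]
    _ ≤ _ := h3.trans h4
    _ = (|k| * |k| + |k| * |k| + 1) * (3 + 2 * c) *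
        (√(Fintype.card n : ℝ) * √(Fintype.card n : ℝ)) * (1 + |Real.log t|) := by ring
    _ = _ := by rw [h5]

lemma wp_log_one {a : ℝ} (ha : |a| ≤ 1 / 2) : |Real.log (1 + a)| ≤ 2 * |a| := by
  have h := Real.abs_log_sub_add_sum_range_le (x := -a) (by rw [abs_neg]; linarith) 0
  simp only [Finset.range_zero, Finset.sum_empty, zero_add, sub_neg_eq_add, abs_neg,
    pow_one] at h
  refine h.trans ?_
  rw [div_le_iff₀ (by linarith)]
  nlinarith [abs_nonneg a]

lemma wp_log_three {a : ℝ} (ha : |a| ≤ 1 / 2) : a - a ^ 2 / 2 - 2 * |a| ^ 3 ≤ Real.log (1 + a) := by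
  have h := Real.abs_log_sub_add_sum_range_le (x := -a) (by rw [abs_neg]; linarith) 2
  simp only [Finset.sum_range_succ, Finset.range_zero, Finset.sum_empty, zero_add, sub_neg_eq_add,
    abs_neg] at h
  have h2 : |a| ^ (2 + 1) / (1 - |a|) ≤ 2 * |a| ^ 3 := by
    rw [div_le_iff₀ (by linarith)]
    have : 0 ≤ |a| ^ 3 := by positivity
    norm_num
    nlinarith
  have h3 := (abs_le.1 (h.trans h2)).1
  norm_num at h3
  linarith

/-- the two facts about `log (1 + B / s)` used at infinity -/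
lemma wp_tail {B : Matrix n n ℂ} (hB : B.IsHermitian) {M s : ℝ} (hM : OpLe B M) (hs : 0 < s)
    (hMs : 2 * M ≤ s) :
    OpLe (fc (fun b => Real.log (1 + b / s)) B) (2 * M / s) ∧
      s * rtr B - rtr (B * B) / 2 - Fintype.card n * (2 * M ^ 3 / s)
        ≤ s ^ 2 * rtr (fc (fun b => Real.log (1 + b / s)) B) := by
  have hM0 := hM.1
  have hev := (opLe_herm_iff hB hM0).1 hM
  have h1 : ∀ i, |ev B i / s| ≤ M / s := fun i => by
    rw [abs_div, abs_of_pos hs]; gcongr; exact hev i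
  have h2 : M / s ≤ 1 / 2 := by rw [div_le_iff₀ hs]; linarith
  refine ⟨opLe_fc (by positivity) fun i => ?_, ?_⟩
  · refine (wp_log_one ((h1 i).trans h2)).trans ?_
    rw [mul_div_assoc]; linarith [h1 i]
  · have e : rtr (B * B) = trf (fun b => b * b) B := by
      rw [← rtr_fc, ← mul_fc hB, fc_id hB]
    rw [e, rtr_fc, rtr_eq_trf hB]
    unfold trf
    have h3 : ∀ i, s * ev B i - ev B i * ev B i / 2 - 2 * M ^ 3 / s
        ≤ s ^ 2 * Real.log (1 + ev B i / s) := by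
      intro i
      have a1 := mul_le_mul_of_nonneg_left (wp_log_three ((h1 i).trans h2)) (sq_nonneg s)
      have a2 : |ev B i / s| ^ 3 ≤ (M / s) ^ 3 := pow_le_pow_left₀ (abs_nonneg _) (h1 i) 3
      refine le_trans ?_ a1
      have a3 : s ^ 2 * (M / s) ^ 3 = M ^ 3 / s := by field_simp
      have a4 : s ^ 2 * (ev B i / s) = s * ev B i := by field_simp
      have a5 : s ^ 2 * (ev B i / s) ^ 2 = ev B i * ev B i := by field_simp
      have a6 := mul_le_mul_of_nonneg_left a2 (sq_nonneg s)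
      rw [mul_div_assoc 2]
      nlinarith
    have h4 := Finset.sum_le_sum fun i (_ : i ∈ Finset.univ) => h3 i
    rw [← Finset.mul_sum, Finset.sum_sub_distrib, Finset.sum_sub_distrib, ← Finset.mul_sum,
      ← Finset.sum_div] at h4
    simpa only [Finset.sum_const, Finset.card_univ, nsmul_eq_mul] using h4

lemma wp_wfun_lower {κ : n → ℝ} {k : ℝ} {F : Matrix n n ℂ} (h : Adm κ k F) (hk : 0 ≤ k) :
    ∃ C : ℝ, ∀ s : ℝ, 1 ≤ s → 2 * (k ^ 2 + k) ≤ s → -(C / s) ≤ wfun κ F (s ^ 2) := by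
  set M := k ^ 2 + k with hM
  set N : ℝ := (Fintype.card n : ℝ) with hN
  have hN0 : 0 ≤ N := by positivity
  refine ⟨‖Umat (rdiag κ) F‖ * (4 * M * √N) + 2 * N * k ^ 4 + 2 * N * (2 * M ^ 3),
    fun s hs1 hMs => ?_⟩
  have hs : 0 < s := by linarith
  set e : n → ℝ := fun i => √(κ i ^ 2 + s ^ 2) - s with he
  have he1 : ∀ i, 2 * s * e i + e i ^ 2 = κ i ^ 2 := fun i => by
    have : √(κ i ^ 2 + s ^ 2) ^ 2 = κ i ^ 2 + s ^ 2 := Real.sq_sqrt (by positivity)
    simp only [he]; nlinarith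
  have he0 : ∀ i, 0 ≤ e i := fun i => by
    simp only [he, sub_nonneg]
    exact Real.le_sqrt_of_sq_le (by nlinarith [sq_nonneg (κ i)])
  have he2 : ∀ i, s * e i ≤ k ^ 2 := fun i => by
    have := he1 i
    have a : κ i ^ 2 ≤ k ^ 2 := pow_le_pow_left₀ (h.pos i).le (h.le i) 2
    nlinarith [he0 i, sq_nonneg (e i), mul_nonneg hs.le (he0 i)]
  have he3 : ∀ i, e i ≤ k ^ 2 := fun i => by nlinarith [he0 i, he2 i]
  have hE : OpLe (rdiag e) (k ^ 2) :=
    opLe_rdiag (by positivity) fun i => by rw [abs_of_nonneg (he0 i)]; exact he3 i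
  have hKt : Kt κ (s ^ 2) = rdiag e + s • (1 : Matrix n n ℂ) := by
    rw [← rdiag_const, rdiag_add, Kt]; congr 1; funext i; simp [he]
  have hlog : ∀ B : Matrix n n ℂ, B.IsHermitian → OpLe B M →
      fc Real.log (B + s • (1 : Matrix n n ℂ))
        = fc (fun b => Real.log (1 + b / s)) B + Real.log s • (1 : Matrix n n ℂ) := by
    intro B hB hBM
    rw [fc_add_smul_one _ hB, ← fc_const _ B, fc_add]
    refine fc_congr fun i => ?_
    have a := abs_le.1 ((opLe_herm_iff hB hBM.1).1 hBM i)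
    have b : 0 < ev B i + s := by linarith [hBM.1]
    rw [show 1 + ev B i / s = (ev B i + s) / s by field_simp; ring, Real.log_div b.ne' hs.ne']
    ring
  have hp : (rdiag e + F).IsHermitian := (rdiag_herm _).add h.herm
  have hm : (rdiag e - F).IsHermitian := (rdiag_herm _).sub h.herm
  have op : OpLe (rdiag e + F) M := hE.add (h.opLe hk)
  have om : OpLe (rdiag e - F) M := hE.sub (h.opLe hk)
  have hL : Lhat κ F (s ^ 2) = fc (fun b => Real.log (1 + b / s)) (rdiag e + F)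
      + fc (fun b => Real.log (1 + b / s)) (rdiag e - F) := by
    rw [Lhat, Lmat, hKt, add_right_comm, hlog _ hp op,
      show rdiag e + s • (1 : Matrix n n ℂ) - F = rdiag e - F + s • (1 : Matrix n n ℂ) by abel,
      hlog _ hm om, Real.log_pow, Nat.cast_ofNat, two_mul, add_smul]
    abel
  obtain ⟨p1, p2⟩ := wp_tail hp op hs hMs
  obtain ⟨m1, m2⟩ := wp_tail hm om hs hMs
  have t1 : |rtr (Umat (rdiag κ) F * Lhat κ F (s ^ 2))|
      ≤ ‖Umat (rdiag κ) F‖ * (4 * M * √N) / s := by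
    refine (abs_rtr_mul_le _ _).trans ?_
    rw [hL, mul_div_assoc]
    refine mul_le_mul_of_nonneg_left ((p1.add m1).norm_le.trans (le_of_eq ?_)) (norm_nonneg _)
    ring
  have t2 : rtr ((rdiag e + F) * (rdiag e + F)) + rtr ((rdiag e - F) * (rdiag e - F))
      = 2 * rtr (rdiag e * rdiag e) + 2 * rtr (F * F) := by
    simp only [Matrix.add_mul, Matrix.mul_add, Matrix.sub_mul, Matrix.mul_sub, rtr_add, rtr_sub]
    ring
  have t3 : 2 * s * rtr (rdiag e) + rtr (rdiag e * rdiag e) = rtr (rdiag κ * rdiag κ) := by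
    rw [rdiag_mul, rdiag_mul, rtr_rdiag, rtr_rdiag, rtr_rdiag, Finset.mul_sum,
      ← Finset.sum_add_distrib]
    exact Finset.sum_congr rfl fun i _ => by linarith [he1 i]
  have t4 : rtr (rdiag e * rdiag e) ≤ N * k ^ 4 / s := by
    rw [rdiag_mul, rtr_rdiag, mul_div_assoc]
    have : ∀ i, e i * e i ≤ k ^ 4 / s := fun i => by
      rw [le_div_iff₀ hs]
      nlinarith [mul_le_mul (he2 i) (he3 i) (he0 i) (sq_nonneg k)]
    have h4 := Finset.sum_le_sum fun i (_ : i ∈ Finset.univ) => this i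
    simpa only [Finset.sum_const, Finset.card_univ, nsmul_eq_mul] using h4
  have t5 : s ^ 2 * rtr (Lhat κ F (s ^ 2)) = s ^ 2 * rtr (fc (fun b => Real.log (1 + b / s))
      (rdiag e + F)) + s ^ 2 * rtr (fc (fun b => Real.log (1 + b / s)) (rdiag e - F)) := by
    rw [hL, rtr_add]; ring
  rw [rtr_add] at p2
  rw [rtr_sub] at m2
  have t6 := (abs_le.1 t1).1
  unfold wfun
  rw [Matrix.add_mul, rtr_add, Matrix.smul_mul, Matrix.one_mul, rtr_smul, t5]
  have t7 : rtr (Umat (rdiag κ) F) = rtr (rdiag κ * rdiag κ) - rtr (F * F) := by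
    rw [Umat, rtr_sub]
  have t8 : (‖Umat (rdiag κ) F‖ * (4 * M * √N) + 2 * N * k ^ 4 + 2 * N * (2 * M ^ 3)) / s
      = ‖Umat (rdiag κ) F‖ * (4 * M * √N) / s + 2 * (N * k ^ 4 / s)
        + 2 * (N * (2 * M ^ 3 / s)) := by ring
  rw [t8, t7]
  linarith

theorem wfun_nonneg {κ : n → ℝ} {k : ℝ} {F : Matrix n n ℂ} (h : Adm κ k F) {t : ℝ} (ht : 0 < t) :
    0 ≤ wfun κ F t := by
  obtain ⟨c, -, hc⟩ := wfun_deriv k
  have hd := hc n κ F h
  have hanti : AntitoneOn (wfun κ F) (Ioi 0) := by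
    refine antitoneOn_of_deriv_nonpos (convex_Ioi 0) (fun s hs => ?_) (fun s hs => ?_)
      (fun s hs => ?_)
    · obtain ⟨w', h1, -⟩ := hd s hs
      exact h1.continuousAt.continuousWithinAt
    · rw [interior_Ioi] at hs
      obtain ⟨w', h1, -⟩ := hd s hs
      exact h1.differentiableAt.differentiableWithinAt
    · rw [interior_Ioi] at hs
      obtain ⟨w', h1, h2, -⟩ := hd s hs
      rw [h1.deriv]
      have := div_nonneg (mfun_nonneg h hs) (le_of_lt hs)
      rw [neg_div] at h2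
      linarith
  obtain ⟨C, hC⟩ := wp_wfun_lower h.abs (abs_nonneg k)
  have hlim : Tendsto (fun s : ℝ => -(C / s)) atTop (𝓝 0) := by
    simpa using (tendsto_const_nhds (x := C)).div_atTop tendsto_id |>.neg
  refine le_of_tendsto hlim ?_
  filter_upwards [eventually_ge_atTop 1, eventually_ge_atTop (2 * (|k| ^ 2 + |k|)),
    eventually_ge_atTop t] with s h1 h2 h3
  refine (hC s h1 h2).trans (hanti ht (show 0 < s ^ 2 by positivity) ?_)
  nlinarith

end Crest.Agent.R332
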